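import Mathlib

/-!
Scalar functions for the Courtade-Kumar inequality: `A = artanh`, the binary entropy profile `L`
(in nats, as a function of the bias), and their elementary bounds.
-/

namespace Vale.Agent.CK

open Real Set

noncomputable def A (u : ℝ) : ℝ := (Real.log (1 + u) - Real.log (1 - u)) / 2

noncomputable def L (u : ℝ) : ℝ :=
  Real.log 2 - ((1 + u) * Real.log (1 + u) + (1 - u) * Real.log (1 - u)) / 2

noncomputable def Phi (u : ℝ) : ℝ := Real.log 2 - L u

noncomputable def Lam (u : ℝ) : ℝ := L u + u * A u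

theorem Lam_eq (u : ℝ) : Lam u = Real.log 2 - (Real.log (1 + u) + Real.log (1 - u)) / 2 := by
  simp only [Lam, L, A]; ring

theorem hasDerivAt_A {u : ℝ} (h1 : -1 < u) (h2 : u < 1) : HasDerivAt A (1 / (1 - u ^ 2)) u := by
  have hp : (0:ℝ) < 1 + u := by linarith
  have hm : (0:ℝ) < 1 - u := by linarith
  have e1 : HasDerivAt (fun x : ℝ => Real.log (1 + x)) (1 / (1 + u)) u :=
    ((hasDerivAt_id u).const_add 1).log hp.ne'
  have e2 : HasDerivAt (fun x : ℝ => Real.log (1 - x)) (-1 / (1 - u)) u :=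
    ((hasDerivAt_id u).const_sub 1).log hm.ne'
  have h := (e1.sub e2).div_const 2
  refine h.congr_deriv ?_
  have : 1 - u ^ 2 = (1 + u) * (1 - u) := by ring
  rw [this]; field_simp; ring

theorem hasDerivAt_L {u : ℝ} (h1 : -1 < u) (h2 : u < 1) : HasDerivAt L (-A u) u := by
  have hp : (0:ℝ) < 1 + u := by linarith
  have hm : (0:ℝ) < 1 - u := by linarith
  have i1 : HasDerivAt (fun x : ℝ => 1 + x) 1 u := (hasDerivAt_id u).const_add 1
  have i2 : HasDerivAt (fun x : ℝ => 1 - x) (-1) u := (hasDerivAt_id u).const_sub 1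
  have h := (((i1.mul (i1.log hp.ne')).add (i2.mul (i2.log hm.ne'))).div_const 2).const_sub (Real.log 2)
  refine h.congr_deriv ?_
  simp only [A]; field_simp; ring

theorem hasDerivAt_Phi {u : ℝ} (h1 : -1 < u) (h2 : u < 1) : HasDerivAt Phi (A u) u :=
  ((hasDerivAt_L h1 h2).const_sub (Real.log 2)).congr_deriv (neg_neg _)

theorem hasDerivAt_Lam {u : ℝ} (h1 : -1 < u) (h2 : u < 1) :
    HasDerivAt Lam (u / (1 - u ^ 2)) u := by
  refine ((hasDerivAt_L h1 h2).add ((hasDerivAt_id u).mul (hasDerivAt_A h1 h2))).congr_deriv ?_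
  simp only [id]; ring

theorem continuous_L : Continuous L := by
  unfold L
  have h := Real.continuous_mul_log
  exact continuous_const.sub (((h.comp (continuous_const.add continuous_id)).add
    (h.comp (continuous_const.sub continuous_id))).div_const 2)

theorem continuous_Phi : Continuous Phi := continuous_const.sub continuous_L

@[simp] theorem A_zero : A 0 = 0 := by simp [A]
@[simp] theorem L_zero : L 0 = Real.log 2 := by simp [L]
@[simp] theorem Phi_zero : Phi 0 = 0 := by simp [Phi]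
@[simp] theorem L_one : L 1 = 0 := by simp [L]; norm_num
@[simp] theorem L_neg_one : L (-1) = 0 := by simp [L]; norm_num
theorem A_neg (u : ℝ) : A (-u) = -A u := by simp only [A]; ring_nf
theorem L_neg (u : ℝ) : L (-u) = L u := by simp only [L]; ring_nf

/-! ### generic monotonicity helpers -/

theorem nonneg_of_deriv {F F' : ℝ → ℝ} {x : ℝ} (hx : 0 ≤ x) (hx1 : x < 1) (h0 : 0 ≤ F 0)
    (hd : ∀ t, 0 ≤ t → t < 1 → HasDerivAt F (F' t) t)
    (hp : ∀ t, 0 < t → t < 1 → 0 ≤ F' t) : 0 ≤ F x := by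
  have hc : ContinuousOn F (Icc 0 x) := fun t ht =>
    (hd t ht.1 (lt_of_le_of_lt ht.2 hx1)).continuousAt.continuousWithinAt
  have hm : MonotoneOn F (Icc 0 x) := by
    apply monotoneOn_of_hasDerivWithinAt_nonneg (convex_Icc 0 x) hc (f' := F')
    · intro t ht; rw [interior_Icc] at ht
      exact (hd t ht.1.le (ht.2.trans hx1)).hasDerivWithinAt
    · intro t ht; rw [interior_Icc] at ht
      exact hp t ht.1 (ht.2.trans hx1)
  exact h0.trans (hm (left_mem_Icc.2 hx) (right_mem_Icc.2 hx) hx)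

/-- A function whose derivative changes sign at most once, from `+` to `-`, is nonnegative between
two nonnegative endpoint values. -/
theorem nonneg_of_quasiconcave {F m g : ℝ → ℝ} (hc : ContinuousOn F (Icc 0 1)) (h0 : 0 ≤ F 0)
    (h1 : 0 ≤ F 1) (hd : ∀ t ∈ Ioo (0:ℝ) 1, HasDerivAt F (m t * g t) t)
    (hm : ∀ t ∈ Ioo (0:ℝ) 1, 0 ≤ m t) (hg : AntitoneOn g (Ioo 0 1)) {s : ℝ}
    (hs : s ∈ Icc (0:ℝ) 1) : 0 ≤ F s := by
  rcases eq_or_lt_of_le hs.1 with h | hs0
  · rwa [← h]
  rcases eq_or_lt_of_le hs.2 with h | hs1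
  · rwa [h]
  by_cases hgs : 0 ≤ g s
  · have hmo : MonotoneOn F (Icc 0 s) := by
      apply monotoneOn_of_hasDerivWithinAt_nonneg (convex_Icc 0 s)
        (hc.mono (Icc_subset_Icc le_rfl hs.2)) (f' := fun t => m t * g t)
      · intro t ht; rw [interior_Icc] at ht
        exact (hd t ⟨ht.1, ht.2.trans hs1⟩).hasDerivWithinAt
      · intro t ht; rw [interior_Icc] at ht
        have := hg ⟨ht.1, ht.2.trans hs1⟩ ⟨hs0, hs1⟩ ht.2.le
        exact mul_nonneg (hm t ⟨ht.1, ht.2.trans hs1⟩) (hgs.trans this)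
    exact h0.trans (hmo (left_mem_Icc.2 hs.1) (right_mem_Icc.2 hs.1) hs.1)
  · push Not at hgs
    have hmo : AntitoneOn F (Icc s 1) := by
      apply antitoneOn_of_hasDerivWithinAt_nonpos (convex_Icc s 1)
        (hc.mono (Icc_subset_Icc hs.1 le_rfl)) (f' := fun t => m t * g t)
      · intro t ht; rw [interior_Icc] at ht
        exact (hd t ⟨hs0.trans ht.1, ht.2⟩).hasDerivWithinAt
      · intro t ht; rw [interior_Icc] at ht
        have := hg ⟨hs0, hs1⟩ ⟨hs0.trans ht.1, ht.2⟩ ht.1.le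
        exact mul_nonpos_of_nonneg_of_nonpos (hm t ⟨hs0.trans ht.1, ht.2⟩) (this.trans hgs.le)
    exact h1.trans (hmo (left_mem_Icc.2 hs.2) (right_mem_Icc.2 hs.2) hs.2)

theorem one_sub_sq_pos {u : ℝ} (h1 : -1 < u) (h2 : u < 1) : 0 < 1 - u ^ 2 := by nlinarith

/-! ### bounds on `A` -/

theorem le_A {r : ℝ} (h0 : 0 ≤ r) (h1 : r < 1) : r ≤ A r := by
  have := nonneg_of_deriv (F := fun t => A t - t) (F' := fun t => 1 / (1 - t ^ 2) - 1) h0 h1
    (by simp) (fun t a b => (hasDerivAt_A (by linarith) b).sub (hasDerivAt_id t)) (by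
      intro t a b; have hw := one_sub_sq_pos (by linarith : -1 < t) b
      rw [sub_nonneg, le_div_iff₀ hw]; nlinarith)
  linarith

theorem A_pos {r : ℝ} (h0 : 0 < r) (h1 : r < 1) : 0 < A r := h0.trans_le (le_A h0.le h1)

theorem A_le_div {r : ℝ} (h0 : 0 ≤ r) (h1 : r < 1) : A r ≤ r / (1 - r ^ 2) := by
  have := nonneg_of_deriv (F := fun t => t / (1 - t ^ 2) - A t)
    (F' := fun t => 2 * t ^ 2 / (1 - t ^ 2) ^ 2) h0 h1 (by simp)
    (fun t a b => by
      have hw := one_sub_sq_pos (by linarith : -1 < t) b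
      refine (((hasDerivAt_id t).div (((hasDerivAt_id t).pow 2).const_sub 1) hw.ne').sub
        (hasDerivAt_A (by linarith) b)).congr_deriv ?_
      simp only [id, Nat.cast_ofNat, Pi.pow_apply]; field_simp; ring)
    (by intro t a b; positivity)
  linarith

/-- Padé lower bound for `artanh`. -/
theorem pade2_le_A {r : ℝ} (h0 : 0 ≤ r) (h1 : r < 1) :
    r * (15 - 4 * r ^ 2) / (15 - 9 * r ^ 2) ≤ A r := by
  have := nonneg_of_deriv (F := fun t => A t - t * (15 - 4 * t ^ 2) / (15 - 9 * t ^ 2))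
    (F' := fun t => 36 * t ^ 6 / ((1 - t ^ 2) * (15 - 9 * t ^ 2) ^ 2)) h0 h1 (by simp)
    (fun t a b => by
      have hw := one_sub_sq_pos (by linarith : -1 < t) b
      have hd : (0:ℝ) < 15 - 9 * t ^ 2 := by nlinarith
      refine ((hasDerivAt_A (by linarith) b).sub
        (((hasDerivAt_id t).mul ((((hasDerivAt_id t).pow 2).const_mul 4).const_sub 15)).div
          ((((hasDerivAt_id t).pow 2).const_mul 9).const_sub 15) hd.ne')).congr_deriv ?_
      simp only [id, Nat.cast_ofNat, Pi.pow_apply, Pi.mul_apply]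
      rw [div_sub_div _ _ hw.ne' (by positivity),
        div_eq_div_iff (by positivity) (by positivity)]
      ring)
    (by intro t a b; have hw := one_sub_sq_pos (by linarith : -1 < t) b; positivity)
  linarith

theorem series3_le_A {r : ℝ} (h0 : 0 ≤ r) (h1 : r < 1) :
    r + r ^ 3 / 3 + r ^ 5 / 5 ≤ A r := by
  have := nonneg_of_deriv (F := fun t => A t - (t + t ^ 3 / 3 + t ^ 5 / 5))
    (F' := fun t => t ^ 6 / (1 - t ^ 2)) h0 h1 (by simp)
    (fun t a b => by
      have hw := one_sub_sq_pos (by linarith : -1 < t) b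
      refine ((hasDerivAt_A (by linarith) b).sub
        (((hasDerivAt_id t).add (((hasDerivAt_id t).pow 3).div_const 3)).add
          (((hasDerivAt_id t).pow 5).div_const 5))).congr_deriv ?_
      simp only [id, Nat.cast_ofNat, Pi.pow_apply]; field_simp; ring)
    (by intro t a b; have hw := one_sub_sq_pos (by linarith : -1 < t) b; positivity)
  linarith

theorem A_le_series {r : ℝ} (h0 : 0 ≤ r) (h1 : r < 1) :
    A r ≤ r + r ^ 3 / 3 + r ^ 5 / (5 * (1 - r ^ 2)) := by
  have := nonneg_of_deriv (F := fun t => t + t ^ 3 / 3 + t ^ 5 / (5 * (1 - t ^ 2)) - A t)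
    (F' := fun t => 2 * t ^ 6 / (5 * (1 - t ^ 2) ^ 2)) h0 h1 (by simp)
    (fun t a b => by
      have hw := one_sub_sq_pos (by linarith : -1 < t) b
      refine ((((hasDerivAt_id t).add (((hasDerivAt_id t).pow 3).div_const 3)).add
        (((hasDerivAt_id t).pow 5).div ((((hasDerivAt_id t).pow 2).const_sub 1).const_mul 5)
          (by positivity))).sub (hasDerivAt_A (by linarith) b)).congr_deriv ?_
      simp only [id, Nat.cast_ofNat, Pi.pow_apply]; field_simp; ring)
    (by intro t a b; positivity)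
  linarith

/-- `artanh s / s` is nondecreasing. -/
theorem A_div_mono {s t : ℝ} (hs : 0 < s) (hst : s ≤ t) (ht : t < 1) : A s / s ≤ A t / t := by
  have hm : MonotoneOn (fun x => A x / x) (Icc s t) := by
    apply monotoneOn_of_hasDerivWithinAt_nonneg (convex_Icc s t)
      (f' := fun x => (x / (1 - x ^ 2) - A x) / x ^ 2)
    · intro x hx
      exact ((hasDerivAt_A (by linarith [hx.1]) (by linarith [hx.2])).div (hasDerivAt_id x)
        (by simp; linarith [hx.1])).continuousAt.continuousWithinAt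
    · intro x hx; rw [interior_Icc] at hx
      refine (((hasDerivAt_A (by linarith [hx.1]) (by linarith [hx.2])).div (hasDerivAt_id x)
        (by simp; linarith [hx.1])).congr_deriv ?_).hasDerivWithinAt
      simp only [id]; ring
    · intro x hx; rw [interior_Icc] at hx
      exact div_nonneg (sub_nonneg.2 (A_le_div (by linarith [hx.1]) (by linarith [hx.2]))) (sq_nonneg _)
  exact hm (left_mem_Icc.2 hst) (right_mem_Icc.2 hst) hst

theorem A_strictMonoOn : StrictMonoOn A (Ioo (-1) 1) := by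
  apply strictMonoOn_of_deriv_pos (convex_Ioo _ _)
  · exact fun x hx => (hasDerivAt_A hx.1 hx.2).continuousAt.continuousWithinAt
  · intro x hx; rw [interior_Ioo] at hx
    rw [(hasDerivAt_A hx.1 hx.2).deriv]; exact one_div_pos.2 (one_sub_sq_pos hx.1 hx.2)

theorem continuousOn_A : ContinuousOn A (Ioo (-1) 1) :=
  fun x hx => (hasDerivAt_A hx.1 hx.2).continuousAt.continuousWithinAt

/-! ### monotonicity of `L` -/

theorem L_strictAntiOn : StrictAntiOn L (Icc 0 1) := by
  apply strictAntiOn_of_deriv_neg (convex_Icc _ _) continuous_L.continuousOn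
  intro x hx; rw [interior_Icc] at hx
  rw [(hasDerivAt_L (by linarith [hx.1]) hx.2).deriv]
  exact neg_lt_zero.2 (A_pos hx.1 hx.2)

theorem L_le_log2 {u : ℝ} (h1 : -1 ≤ u) (h2 : u ≤ 1) : L u ≤ Real.log 2 := by
  rcases le_total 0 u with h | h
  · have := L_strictAntiOn.antitoneOn ⟨le_rfl, zero_le_one⟩ ⟨h, h2⟩ h; simpa using this
  · have := L_strictAntiOn.antitoneOn ⟨le_rfl, zero_le_one⟩
      (show -u ∈ Icc (0:ℝ) 1 from ⟨by linarith, by linarith⟩) (by linarith)
    simpa [L_neg] using this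

theorem L_nonneg {u : ℝ} (h1 : -1 ≤ u) (h2 : u ≤ 1) : 0 ≤ L u := by
  rcases le_total 0 u with h | h
  · have := L_strictAntiOn.antitoneOn ⟨h, h2⟩ ⟨zero_le_one, le_rfl⟩ h2; simpa using this
  · have := L_strictAntiOn.antitoneOn
      (show -u ∈ Icc (0:ℝ) 1 from ⟨by linarith, by linarith⟩) ⟨zero_le_one, le_rfl⟩ (by linarith)
    simpa [L_neg] using this

theorem L_pos {u : ℝ} (h1 : -1 < u) (h2 : u < 1) : 0 < L u := by
  rcases le_total 0 u with h | h
  · have := L_strictAntiOn ⟨h, h2.le⟩ ⟨zero_le_one, le_rfl⟩ h2; simpa using this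
  · have := L_strictAntiOn
      (show -u ∈ Icc (0:ℝ) 1 from ⟨by linarith, by linarith⟩) ⟨zero_le_one, le_rfl⟩
      (by linarith : -u < 1)
    simpa [L_neg] using this

theorem log2_lb : (0.6931:ℝ) < Real.log 2 := by linarith [Real.log_two_gt_d9]
theorem log2_ub : Real.log 2 < (0.6932:ℝ) := by linarith [Real.log_two_lt_d9]

theorem Lam_lb {r : ℝ} (h0 : 0 ≤ r) (h1 : r < 1) : Real.log 2 + r ^ 2 / 2 ≤ Lam r := by
  have hw := one_sub_sq_pos (by linarith : -1 < r) h1
  have hp : (0:ℝ) < 1 + r := by linarith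
  have hm : (0:ℝ) < 1 - r := by linarith
  have : Real.log (1 + r) + Real.log (1 - r) ≤ -r ^ 2 := by
    rw [← Real.log_mul hp.ne' hm.ne']
    have := Real.log_le_sub_one_of_pos (by positivity : 0 < (1 + r) * (1 - r)); nlinarith
  rw [Lam_eq]; linarith

theorem Lam_pos {r : ℝ} (h0 : 0 ≤ r) (h1 : r < 1) : 0 < Lam r := by
  nlinarith [Lam_lb h0 h1, log2_lb, sq_nonneg r]

/-! ### quadratic bounds on `Phi` -/

theorem Phi_even (u : ℝ) : Phi (-u) = Phi u := by simp [Phi, L_neg]

theorem Phi_le_sq {m : ℝ} (h1 : -1 ≤ m) (h2 : m ≤ 1) : Phi m ≤ Real.log 2 * m ^ 2 := by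
  suffices ∀ s ∈ Icc (0:ℝ) 1, 0 ≤ Real.log 2 * s ^ 2 - Phi s by
    rcases le_total 0 m with h | h
    · linarith [this m ⟨h, h2⟩]
    · have := this (-m) ⟨by linarith, by linarith⟩
      rw [Phi_even] at this; nlinarith
  intro s hs
  refine nonneg_of_quasiconcave (m := fun t => t) (g := fun t => 2 * Real.log 2 - A t / t)
    ((continuous_const.mul (continuous_id.pow 2)).sub continuous_Phi).continuousOn
    (by simp) (by simp [Phi]) ?_ (fun t ht => ht.1.le) ?_ hs
  · intro t ht
    refine ((((hasDerivAt_id t).pow 2).const_mul (Real.log 2)).sub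
      (hasDerivAt_Phi (by linarith [ht.1]) ht.2)).congr_deriv ?_
    have := ht.1.ne'
    simp only [id, Nat.cast_ofNat, Pi.pow_apply]; field_simp; ring
  · intro a ha b hb hab
    have := A_div_mono ha.1 hab hb.2
    linarith

theorem half_sq_le_Phi {m : ℝ} (h0 : 0 ≤ m) (h1 : m < 1) : m ^ 2 / 2 + m ^ 4 / 12 ≤ Phi m := by
  have := nonneg_of_deriv (F := fun t => Phi t - (t ^ 2 / 2 + t ^ 4 / 12))
    (F' := fun t => A t - (t + t ^ 3 / 3)) h0 h1 (by simp)
    (fun t a b => by
      refine ((hasDerivAt_Phi (by linarith) b).sub ((((hasDerivAt_id t).pow 2).div_const 2).add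
        (((hasDerivAt_id t).pow 4).div_const 12))).congr_deriv ?_
      simp only [id, Nat.cast_ofNat]; ring)
    (by intro t a b; have := series3_le_A a.le b; nlinarith [pow_pos a 5])
  linarith

theorem half_sq_le_Phi' {m : ℝ} (h1 : -1 < m) (h2 : m < 1) : m ^ 2 / 2 ≤ Phi m := by
  rcases le_total 0 m with h | h
  · nlinarith [half_sq_le_Phi h h2, pow_nonneg h 4]
  · have := half_sq_le_Phi (neg_nonneg.2 h) (by linarith)
    rw [Phi_even] at this; nlinarith [pow_nonneg (neg_nonneg.2 h) 4]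

theorem Phi_le_series {r : ℝ} (h0 : 0 ≤ r) (h1 : r < 1) :
    Phi r ≤ r ^ 2 / 2 + r ^ 4 / 12 + r ^ 6 / (30 * (1 - r ^ 2)) := by
  have := nonneg_of_deriv
    (F := fun t => t ^ 2 / 2 + t ^ 4 / 12 + t ^ 6 / (30 * (1 - t ^ 2)) - Phi t)
    (F' := fun t => t + t ^ 3 / 3 + t ^ 5 / (5 * (1 - t ^ 2)) + t ^ 7 / (15 * (1 - t ^ 2) ^ 2) - A t)
    h0 h1 (by simp)
    (fun t a b => by
      have hw := one_sub_sq_pos (by linarith : -1 < t) b
      refine ((((((hasDerivAt_id t).pow 2).div_const 2).add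
        (((hasDerivAt_id t).pow 4).div_const 12)).add
        (((hasDerivAt_id t).pow 6).div ((((hasDerivAt_id t).pow 2).const_sub 1).const_mul 30)
          (by positivity))).sub (hasDerivAt_Phi (by linarith) b)).congr_deriv ?_
      simp only [id, Nat.cast_ofNat, Pi.pow_apply]; field_simp; ring)
    (by intro t a b; have := A_le_series a.le b
        have hw := one_sub_sq_pos (by linarith : -1 < t) b
        have : 0 ≤ t ^ 7 / (15 * (1 - t ^ 2) ^ 2) := by positivity
        linarith)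
  linarith

theorem L_lb {r : ℝ} (h0 : 0 ≤ r) (h1 : r ≤ 1) :
    Real.log 2 * (1 - r ^ 4) - r ^ 2 * (1 - r ^ 2) / 2 ≤ L r := by
  suffices 0 ≤ r ^ 2 / 2 + (Real.log 2 - 1 / 2) * r ^ 4 - Phi r by
    simp only [Phi] at this; nlinarith
  refine nonneg_of_quasiconcave (m := fun t => t ^ 3)
    (g := fun t => 4 * (Real.log 2 - 1 / 2) - (A t - t) / t ^ 3)
    (((continuous_id.pow 2).div_const 2 |>.add (continuous_const.mul (continuous_id.pow 4))).sub
      continuous_Phi).continuousOn (by simp) (by simp [Phi]) ?_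
    (fun t ht => pow_nonneg ht.1.le 3) ?_ ⟨h0, h1⟩
  · intro t ht
    refine (((((hasDerivAt_id t).pow 2).div_const 2).add
      (((hasDerivAt_id t).pow 4).const_mul (Real.log 2 - 1 / 2))).sub
      (hasDerivAt_Phi (by linarith [ht.1]) ht.2)).congr_deriv ?_
    have := ht.1.ne'
    simp only [id, Nat.cast_ofNat, Pi.pow_apply]; field_simp; ring
  · intro a ha b hb hab
    have hm : MonotoneOn (fun x => (A x - x) / x ^ 3) (Icc a b) := by
      have hd : ∀ x ∈ Icc a b, HasDerivAt (fun x => (A x - x) / x ^ 3)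
          (((1 / (1 - x ^ 2) - 1) * x ^ 3 - (A x - x) * (3 * x ^ 2)) / (x ^ 3) ^ 2) x := by
        intro x hx
        have hx0 : 0 < x := ha.1.trans_le hx.1
        refine (((hasDerivAt_A (by linarith) (hx.2.trans_lt hb.2)).sub (hasDerivAt_id x)).div
          ((hasDerivAt_id x).pow 3) (by simp; positivity)).congr_deriv ?_
        simp only [id, Nat.cast_ofNat, Pi.pow_apply, Pi.sub_apply]; ring
      apply monotoneOn_of_hasDerivWithinAt_nonneg (convex_Icc a b)
        (fun x hx => (hd x hx).continuousAt.continuousWithinAt)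
        (fun x hx => (hd x (interior_subset hx)).hasDerivWithinAt)
      intro x hx
      have hx' := interior_subset hx
      have hx0 : 0 < x := ha.1.trans_le hx'.1
      have hx1 : x < 1 := hx'.2.trans_lt hb.2
      have hA := A_le_series hx0.le hx1
      have hw := one_sub_sq_pos (by linarith : -1 < x) hx1
      apply div_nonneg _ (sq_nonneg _)
      have h3 : (A x - x) * (3 * x ^ 2) ≤
          (x ^ 3 / 3 + x ^ 5 / (5 * (1 - x ^ 2))) * (3 * x ^ 2) := by
        apply mul_le_mul_of_nonneg_right _ (by positivity); linarith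
      have : (x ^ 3 / 3 + x ^ 5 / (5 * (1 - x ^ 2))) * (3 * x ^ 2) ≤
          (1 / (1 - x ^ 2) - 1) * x ^ 3 := by
        rw [div_add_div _ _ (by norm_num) (by positivity), div_mul_eq_mul_div,
          div_le_iff₀ (by positivity)]
        field_simp
        nlinarith [pow_pos hx0 5, pow_pos hx0 7]
      linarith
    have := hm (left_mem_Icc.2 hab) (right_mem_Icc.2 hab) hab
    simp only at this ⊢; linarith

theorem A_le_div' {r : ℝ} (h0 : 0 < r) (h1 : r < 1) : (1 - r ^ 2) * A r ≤ r := by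
  have := A_le_div h0.le h1
  rwa [le_div_iff₀ (one_sub_sq_pos (by linarith) h1), mul_comm] at this

end Vale.Agent.CK
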