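import Vale.Agent.CK.Cube

/-!
Integrating the differential inequality in the noise parameter, and the passage to entropies.
-/

namespace Vale.Agent.CK

open Real Set

variable {n : ℕ}

theorem nonpos_of_crossing {F F' : ℝ → ℝ} {a b : ℝ} (hab : a ≤ b)
    (hc : ContinuousOn F (Icc a b)) (hb : F b ≤ 0)
    (hd : ∀ t ∈ Ioo a b, HasDerivAt F (F' t) t)
    (hp : ∀ t ∈ Ioo a b, 0 < F t → 0 ≤ F' t) : F a ≤ 0 := by
  by_contra h
  push Not at h
  set S := {t | t ∈ Icc a b ∧ F t ≤ 0} with hS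
  have hne : S.Nonempty := ⟨b, right_mem_Icc.2 hab, hb⟩
  have hcl : IsClosed S := isClosed_le_of_cont hc
  have hbd : BddBelow S := ⟨a, fun t ht => ht.1.1⟩
  obtain ⟨ht0, hF0⟩ := hcl.csInf_mem hne hbd
  set t0 := sInf S
  have hm : MonotoneOn F (Icc a t0) := by
    apply monotoneOn_of_hasDerivWithinAt_nonneg (convex_Icc a t0)
      (hc.mono (Icc_subset_Icc le_rfl ht0.2)) (f' := F')
    · intro t ht; rw [interior_Icc] at ht
      exact (hd t ⟨ht.1, ht.2.trans_le ht0.2⟩).hasDerivWithinAt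
    · intro t ht; rw [interior_Icc] at ht
      refine hp t ⟨ht.1, ht.2.trans_le ht0.2⟩ ?_
      by_contra hn
      have : t0 ≤ t := csInf_le hbd ⟨⟨ht.1.le, ht.2.le.trans ht0.2⟩, not_lt.1 hn⟩
      linarith [ht.2]
  linarith [hm (left_mem_Icc.2 ht0.1) (right_mem_Icc.2 ht0.1) ht0.1]
where
  isClosed_le_of_cont {F : ℝ → ℝ} {a b : ℝ} (hc : ContinuousOn F (Icc a b)) :
      IsClosed {t | t ∈ Icc a b ∧ F t ≤ 0} :=
    hc.preimage_isClosed_of_isClosed isClosed_Icc isClosed_Iic

noncomputable def info (f : (Fin n → Bool) → ℝ) (ρ : ℝ) : ℝ :=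
  L (avg f) - avg (fun x => L (Tn ρ n f x))

theorem continuous_info (f : (Fin n → Bool) → ℝ) : Continuous (info f) := by
  unfold info avg
  refine continuous_const.sub ((continuous_finsetSum _ fun x _ => ?_).div_const _)
  exact continuous_L.comp (continuous_iff_continuousAt.2 fun ρ =>
    (hasDerivAt_Tn f x ρ).choose_spec.1.continuousAt)

theorem hasDerivAt_info {f : (Fin n → Bool) → ℝ} {ρ : ℝ} (h0 : 0 < ρ)
    (hu : ∀ x, Tn ρ n f x ∈ Ioo (-1:ℝ) 1) :
    HasDerivAt (info f) (JJ n (Tn ρ n f) / ρ) ρ := by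
  choose d hd he using fun x => hasDerivAt_Tn f x ρ
  have h : HasDerivAt (fun r => ∑ x, L (Tn r n f x)) (∑ x, -A (Tn ρ n f x) * d x) ρ :=
    HasDerivAt.fun_sum fun x _ =>
      HasDerivAt.comp (h₂ := L) (h := fun r => Tn r n f x) ρ (hasDerivAt_L (hu x).1 (hu x).2) (hd x)
  refine ((h.div_const ((2:ℝ) ^ n)).const_sub (L (avg f))).congr_deriv ?_
  rw [← avg_A_mul_Lgen, avg, eq_div_iff h0.ne', ← neg_div, div_mul_eq_mul_div,
    ← Finset.sum_neg_distrib, Finset.sum_mul]
  congr 1
  refine Finset.sum_congr rfl fun x _ => ?_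
  rw [← he x]; ring

theorem poly_key {ρ : ℝ} (h0 : 0 < ρ) (h1 : ρ < 1) :
    979 / 1000 * (4 * ρ ^ 2 * (1 - ρ ^ 2) + (2 + dd ρ) * (1 - ρ ^ 2) ^ 2) ≤ 2 := by
  have hw := one_sub_sq_pos (by linarith : -1 < ρ) h1
  have hA := A_pos h0 h1
  have h3 := series3_le_A h0.le h1
  have hx : ρ / A ρ ≤ 1 - ρ ^ 2 / 3 := by
    rw [div_le_iff₀ hA]
    have := mul_le_mul_of_nonneg_left h3 (by nlinarith : 0 ≤ 1 - ρ ^ 2 / 3)
    have : 0 ≤ ρ ^ 5 * (4 / 45 - ρ ^ 2 / 15) := mul_nonneg (by positivity) (by nlinarith)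
    nlinarith
  have e : (2 + dd ρ) * (1 - ρ ^ 2) ^ 2 = (1 - ρ ^ 2) ^ 2 + (1 - ρ ^ 2) * (ρ / A ρ) := by
    rw [dd_of_pos h0]; field_simp; ring
  rw [e]
  have := mul_le_mul_of_nonneg_left hx hw.le
  nlinarith [sq_nonneg (ρ ^ 2 - 1 / 8)]

theorem info_le_large {f : (Fin n → Bool) → ℝ} (hf : ∀ x, f x = 1 ∨ f x = -1)
    (hp : ∃ x, f x ≠ 1) (hn : ∃ x, f x ≠ -1) {ρ : ℝ} (h0 : 1 / 3 ≤ ρ) (h1 : ρ ≤ 1) :
    info f ρ ≤ Phi ρ := by
  have hfi : ∀ x, f x ∈ Icc (-1:ℝ) 1 := fun x => by rcases hf x with h | h <;> simp [h]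
  set m := avg f with hm'
  have hm : m ∈ Ioo (-1:ℝ) 1 := by
    have := Tn_mem (ρ := 0) (by norm_num) (by norm_num) hfi hp hn fun _ => false
    rwa [Tn_zero] at this
  set W := Wf m with hW'
  have hW : 0 < W := Wf_pos hm
  set K := Real.log 2 * (1 - W) - Phi m with hK
  have hm2 : m ^ 2 ≤ 1 := by nlinarith [hm.1, hm.2]
  have hW1 : m ^ 2 ≤ 1 - W := by rw [hW', Wf]; nlinarith [sq_nonneg m]
  have hK0 : 0 ≤ K := by
    have := Phi_le_sq hm.1.le hm.2.le
    have := mul_le_mul_of_nonneg_left hW1 (by linarith [log2_lb] : 0 ≤ Real.log 2)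
    rw [hK]; linarith
  have hK1 : K ≤ (1 - W) * (0.6932 - 4 / 9) := by
    have h : m ^ 2 / 2 ≤ Phi m := half_sq_le_Phi' hm.1 hm.2
    have h2 : 1 - W ≤ 9 / 8 * m ^ 2 := by rw [hW', Wf]; nlinarith [sq_nonneg m]
    have := mul_le_mul_of_nonneg_right log2_ub.le ((sq_nonneg m).trans hW1)
    rw [hK]; linarith
  set B := fun t : ℝ => -(K / W * (979 / 1000) * (1 - t ^ 2) ^ 2) with hB
  set X := fun t : ℝ => (info f t - K) / W with hX
  set F := fun t : ℝ => X t - Phi t - B t with hF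
  have hi1 : info f 1 = L m := by
    simp only [info, Tn_one]
    have : (fun x => L (f x)) = fun _ => 0 := funext fun x => by
      rcases hf x with h | h <;> simp [h]
    rw [this, avg_const, sub_zero]
  have hL : L m = Real.log 2 - Phi m := by rw [Phi]; ring
  have hF1 : F 1 = 0 := by
    simp only [hF, hX, hB, hi1, Phi, L_one]
    rw [hK, hL]; field_simp; ring
  have hFc : ContinuousOn F (Icc ρ 1) :=
    ((((continuous_info f).sub continuous_const).div_const W |>.sub continuous_Phi).sub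
      ((continuous_const.mul ((continuous_const.sub (continuous_id.pow 2)).pow 2)).neg)).continuousOn
  have key : F ρ ≤ 0 := by
    refine nonpos_of_crossing h1 hFc hF1.le
      (F' := fun t => JJ n (Tn t n f) / t / W - A t - K / W * (979 / 1000) * (4 * t * (1 - t ^ 2)))
      ?_ ?_
    · intro t ht
      have t0 : 0 < t := by linarith [ht.1]
      have du := hasDerivAt_info t0 (Tn_mem (by linarith) ht.2 hfi hp hn)
      refine (((du.sub_const K).div_const W).sub (hasDerivAt_Phi (by linarith) ht.2)).sub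
        (((((hasDerivAt_id t).pow 2).const_sub 1).pow 2).const_mul (K / W * (979 / 1000))).neg
          |>.congr_deriv ?_
      simp only [id, Nat.cast_ofNat, Pi.pow_apply]; ring
    · intro t ht hpos
      have t0 : 0 < t := by linarith [ht.1]
      have hu := Tn_mem (f := f) (by linarith : -1 < t) ht.2 hfi hp hn
      have hJ := JJ_bound (Tn t n f) hu
      rw [avg_Tn] at hJ
      have hII : II (Tn t n f) = info f t := by rw [II, info, avg_Tn]
      have hb := le_Pb t0.le ht.2 hW (avg_pos fun x => L_pos (hu x).1 (hu x).2)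
      have h2 := le_max_left (Pb W (avg fun x => L (Tn t n f x))) (ff (II (Tn t n f)))
      have he : avg (fun x => L (Tn t n f x)) = W * (Real.log 2 - X t) := by
        have : info f t = L m - avg (fun x => L (Tn t n f x)) := rfl
        simp only [hX]
        rw [mul_sub, mul_div_cancel₀ _ hW.ne', this, hK, hL]; ring
      have hIe : II (Tn t n f) = W * X t + K := by
        rw [hII, hX]; simp only; rw [mul_div_cancel₀ _ hW.ne']; ring
      rw [← hm', ← hW', hIe] at hJ
      rw [hIe] at h2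
      rw [he] at hb hJ h2
      set d := dd t
      have hbeta : beta t = t * A t - 2 * Phi t + d * (Real.log 2 - Phi t) := by
        simp only [beta, R0, Phi, d]; ring
      have hd0 : 0 ≤ 2 + d := by linarith [dd_nonneg t0.le ht.2]
      have hkey : W * (2 * X t + 2 * (K / W) + beta t - d * (Real.log 2 - X t)) ≤
          JJ n (Tn t n f) := by
        have : W * (K / W) = K := mul_div_cancel₀ _ hW.ne'
        rw [show W * (2 * X t + 2 * (K / W) + beta t - d * (Real.log 2 - X t)) =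
          2 * (W * X t) + 2 * (W * (K / W)) + (beta t * W - d * (W * (Real.log 2 - X t))) by ring,
          this]
        linarith
      have h4 : (JJ n (Tn t n f) / t / W - A t -
          K / W * (979 / 1000) * (4 * t * (1 - t ^ 2))) * t =
          JJ n (Tn t n f) / W - t * A t - K / W * (979 / 1000) * (4 * t ^ 2 * (1 - t ^ 2)) := by
        field_simp
      have h5 : 2 * X t + 2 * (K / W) + beta t - d * (Real.log 2 - X t) ≤ JJ n (Tn t n f) / W := by
        rw [le_div_iff₀ hW]; linarith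
      have h6 := mul_le_mul_of_nonneg_left (poly_key t0 ht.2) (div_nonneg hK0 hW.le)
      have h7 : 0 ≤ (2 + d) * F t := mul_nonneg hd0 hpos.le
      simp only [hF, hB] at h7
      refine nonneg_of_mul_nonneg_left (?_ : 0 ≤ _ * t) t0
      rw [h4]
      rw [hbeta] at h5
      linarith
  simp only [hF, hX, hB] at key
  set q := 979 / 1000 * (1 - ρ ^ 2) ^ 2 with hq
  have hy : (0.6932 - 4 / 9) * (1 - q) ≤ Phi ρ := by
    rcases eq_or_lt_of_le h1 with h | h
    · rw [h] at hq ⊢; simp [hq, Phi]; linarith [log2_lb]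
    · refine le_trans ?_ (half_sq_le_Phi (by linarith) h)
      have hx : 1 / 9 ≤ ρ ^ 2 := by nlinarith
      have hx1 : ρ ^ 2 ≤ 1 := by nlinarith
      rw [hq]; nlinarith [mul_nonneg (sub_nonneg.2 hx) (sub_nonneg.2 hx1)]
  have hq1 : 0 ≤ 1 - q := by
    have : (1 - ρ ^ 2) ^ 2 ≤ 1 := by
      have : ρ ^ 2 ≤ 1 := by nlinarith
      nlinarith [sq_nonneg ρ]
    rw [hq]; linarith
  have h8 : info f ρ - K ≤ W * Phi ρ - K * q := by
    have hle : (info f ρ - K) / W ≤ Phi ρ - K / W * q := by rw [hq]; linarith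
    rw [div_le_iff₀ hW] at hle
    have : K / W * q * W = K * q := by field_simp
    linarith
  have h9 : K * (1 - q) ≤ (1 - W) * Phi ρ :=
    (mul_le_mul_of_nonneg_right hK1 hq1).trans (by
      rw [mul_assoc]; exact mul_le_mul_of_nonneg_left hy ((sq_nonneg m).trans hW1))
  linarith

theorem info_le {f : (Fin n → Bool) → ℝ} (hf : ∀ x, f x = 1 ∨ f x = -1)
    (hp : ∃ x, f x ≠ 1) (hn : ∃ x, f x ≠ -1) {ρ : ℝ} (h0 : 0 ≤ ρ) (h1 : ρ ≤ 1) :
    info f ρ ≤ Phi ρ := by
  rcases le_total (1 / 3) ρ with h | h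
  · exact info_le_large hf hp hn h h1
  have hfi : ∀ x, f x ∈ Icc (-1:ℝ) 1 := fun x => by rcases hf x with h | h <;> simp [h]
  suffices info f ρ - Phi ρ ≤ 0 by linarith
  refine nonpos_of_crossing (F := fun t => info f t - Phi t)
    (F' := fun t => JJ n (Tn t n f) / t - A t) h
    ((continuous_info f).sub continuous_Phi).continuousOn ?_ ?_ ?_
  · linarith [info_le_large hf hp hn le_rfl (by norm_num : (1:ℝ) / 3 ≤ 1)]
  · intro t ht
    have t0 : 0 < t := h0.trans_lt ht.1
    have t1 : t < 1 := by linarith [ht.2]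
    exact (hasDerivAt_info t0 (Tn_mem (by linarith) t1 hfi hp hn)).sub
      (hasDerivAt_Phi (by linarith) t1)
  · intro t ht hpos
    have t0 : 0 < t := h0.trans_lt ht.1
    have t1 : t < 1 := by linarith [ht.2]
    have hu := Tn_mem (f := f) (by linarith : -1 < t) t1 hfi hp hn
    have hJ := JJ_bound (Tn t n f) hu
    have hII : II (Tn t n f) = info f t := by rw [II, info, avg_Tn]
    rw [hII] at hJ
    have h2 := le_max_right (Pb (Wf (avg (Tn t n f))) (avg fun x => L (Tn t n f x))) (ff (info f t))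
    have hb := le_ff t0.le ht.2.le (info f t)
    have hbeta : beta t = t * A t - 2 * Phi t + dd t * (Real.log 2 - Phi t) := by
      simp only [beta, R0, Phi]; ring
    rw [hbeta] at hb
    have h7 : 0 ≤ (2 + dd t) * (info f t - Phi t) :=
      mul_nonneg (by linarith [dd_nonneg t0.le t1]) hpos.le
    rw [sub_nonneg, le_div_iff₀ t0]
    linarith

/-- The product kernel of the binary symmetric channel. -/
theorem Tn_eq_sum : ∀ {n : ℕ} (f : (Fin n → Bool) → ℝ) (ρ : ℝ) (y : Fin n → Bool),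
    Tn ρ n f y = ∑ x, (∏ i, if x i = y i then (1 + ρ) / 2 else (1 - ρ) / 2) * f x := by
  intro n
  induction n with
  | zero =>
    intro f ρ y
    simp [Tn]; exact congrArg f (Subsingleton.elim _ _)
  | succ n ih =>
    intro f ρ y
    rw [← (Fin.consEquiv fun _ => Bool).sum_comp, Fintype.sum_prod_type, Fintype.sum_bool]
    have h : ∀ (c : Bool) (x : Fin n → Bool),
        (∏ i, if (Fin.cons c x : Fin (n + 1) → Bool) i = y i then (1 + ρ) / 2 else (1 - ρ) / 2) =
          (if c = y 0 then (1 + ρ) / 2 else (1 - ρ) / 2) *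
            ∏ i, if x i = Fin.tail y i then (1 + ρ) / 2 else (1 - ρ) / 2 := fun c x => by
      rw [Fin.prod_univ_succ]; simp only [Fin.cons_zero, Fin.cons_succ, Fin.tail]
      rfl
    have hc : ∀ (c : Bool) (x : Fin n → Bool),
        (Fin.consEquiv fun _ => Bool) (c, x) = Fin.cons c x := fun _ _ => rfl
    simp only [hc, h, Tn, ih, Finset.mul_sum, half]
    cases y 0 <;> simp [← Finset.sum_add_distrib] <;>
      exact Finset.sum_congr rfl fun x _ => by ring

theorem sum_kernel (ρ : ℝ) (y : Fin n → Bool) :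
    ∑ x : Fin n → Bool, (∏ i, if x i = y i then (1 + ρ) / 2 else (1 - ρ) / 2) = 1 := by
  have h : ∀ {n : ℕ} (y : Fin n → Bool), Tn ρ n (fun _ => (1:ℝ)) y = 1 := by
    intro n
    induction n with
    | zero => intro y; rfl
    | succ n ih =>
      intro y
      have hh : ∀ b, half (fun _ : Fin (n + 1) → Bool => (1:ℝ)) b = fun _ => 1 := fun b => rfl
      simp only [Tn, hh, ih]; ring
  simpa [Tn_eq_sum] using h y

end Vale.Agent.CK
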