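import Vale.Agent.CK.TwoPoint

/-!
Functions on the discrete cube: averages, the noise operator, its generator, and the induction.
-/

namespace Vale.Agent.CK

open Real Set

variable {n : ℕ}

noncomputable def avg (g : (Fin n → Bool) → ℝ) : ℝ := (∑ x, g x) / 2 ^ n

def half (g : (Fin (n + 1) → Bool) → ℝ) (b : Bool) : (Fin n → Bool) → ℝ :=
  fun y => g (Fin.cons b y)

theorem avg_succ (g : (Fin (n + 1) → Bool) → ℝ) :
    avg g = (avg (half g true) + avg (half g false)) / 2 := by
  have : ∑ x, g x = ∑ p : Bool × (Fin n → Bool), g (Fin.cons p.1 p.2) :=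
    (Fintype.sum_equiv (Fin.consEquiv fun _ => Bool) _ _ fun _ => rfl).symm
  rw [avg, this, Fintype.sum_prod_type, Fintype.sum_bool, avg, avg]
  simp only [half]
  field_simp
  ring

theorem avg_zero (g : (Fin 0 → Bool) → ℝ) : avg g = g finZeroElim := by
  simp [avg, Fintype.sum_unique]; rfl

theorem avg_add (g h : (Fin n → Bool) → ℝ) :
    avg (fun x => g x + h x) = avg g + avg h := by
  simp [avg, Finset.sum_add_distrib, add_div]

theorem avg_sub (g h : (Fin n → Bool) → ℝ) :
    avg (fun x => g x - h x) = avg g - avg h := by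
  simp [avg, Finset.sum_sub_distrib, sub_div]

theorem avg_mul (c : ℝ) (g : (Fin n → Bool) → ℝ) : avg (fun x => c * g x) = c * avg g := by
  simp [avg, ← Finset.mul_sum, mul_div_assoc]

theorem avg_const (c : ℝ) : avg (fun _ : Fin n → Bool => c) = c := by
  simp [avg]

theorem avg_mono {g h : (Fin n → Bool) → ℝ} (hle : ∀ x, g x ≤ h x) : avg g ≤ avg h :=
  div_le_div_of_nonneg_right (Finset.sum_le_sum fun x _ => hle x) (by positivity)

theorem avg_lt {g h : (Fin n → Bool) → ℝ} (hlt : ∀ x, g x < h x) : avg g < avg h :=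
  div_lt_div_of_pos_right (Finset.sum_lt_sum_of_nonempty Finset.univ_nonempty fun x _ => hlt x)
    (by positivity)

theorem avg_pos {g : (Fin n → Bool) → ℝ} (h : ∀ x, 0 < g x) : 0 < avg g := by
  simpa [avg_const] using avg_lt (g := fun _ => (0:ℝ)) h

theorem avg_mem {g : (Fin n → Bool) → ℝ} (h : ∀ x, g x ∈ Ioo (-1:ℝ) 1) : avg g ∈ Ioo (-1:ℝ) 1 := by
  constructor
  · simpa [avg_const] using avg_lt (g := fun _ => (-1:ℝ)) fun x => (h x).1
  · simpa [avg_const] using avg_lt (h := fun _ => (1:ℝ)) fun x => (h x).2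

theorem avg_affine (g : (Fin n → Bool) → ℝ) (c d : ℝ) :
    avg (fun x => c * g x + d) = c * avg g + d := by
  rw [avg_add (fun x => c * g x), avg_mul, avg_const]

noncomputable def JJ : (n : ℕ) → ((Fin n → Bool) → ℝ) → ℝ
  | 0, _ => 0
  | n + 1, u => (JJ n (half u true) + JJ n (half u false)) / 2 +
      avg (fun y => hh (half u true y) (half u false y))

noncomputable def II (u : (Fin n → Bool) → ℝ) : ℝ := L (avg u) - avg (fun x => L (u x))

theorem avg_L_le {u : (Fin n → Bool) → ℝ} (h : ∀ x, u x ∈ Ioo (-1:ℝ) 1) :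
    avg (fun x => L (u x)) ≤ L (avg u) := by
  set m := avg u
  have hm : m ∈ Ioo (-1:ℝ) 1 := avg_mem h
  have : avg (fun x => L (u x)) ≤ avg (fun x => (-A m) * u x + (L m + A m * m)) :=
    avg_mono fun x => by
      have := breg_nonneg (h x) hm
      simp only [Phi] at this
      linarith
  rw [avg_affine] at this
  linarith

theorem hh_comm (a b : ℝ) : hh a b = hh b a := by simp only [hh]; ring

/-- The pair step, for ordered means. -/
theorem pair_step {U V : (Fin n → Bool) → ℝ} (hU : ∀ x, U x ∈ Ioo (-1:ℝ) 1)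
    (hV : ∀ x, V x ∈ Ioo (-1:ℝ) 1) (hle : avg V ≤ avg U) {e m : ℝ}
    (he : e = (avg (fun x => L (U x)) + avg (fun x => L (V x))) / 2)
    (hm : m = (avg U + avg V) / 2) :
    2 * (L m - e) + max (Pb (Wf m) e) (ff (L m - e)) ≤
      avg (fun x => hh (U x) (V x)) + 2 * ((L (avg U) + L (avg V)) / 2 - e) +
        max (Pb ((Wf (avg U) + Wf (avg V)) / 2) e) (ff ((L (avg U) + L (avg V)) / 2 - e)) := by
  set a := avg U with ha'
  set b := avg V with hb'
  have ha : a ∈ Ioo (-1:ℝ) 1 := avg_mem hU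
  have hb : b ∈ Ioo (-1:ℝ) 1 := avg_mem hV
  rcases eq_or_lt_of_le hle with h | h
  · have hma : m = a := by rw [hm, h]; ring
    have hH : 0 ≤ avg (fun x => hh (U x) (V x)) := by
      simpa [avg_const] using avg_mono (g := fun _ => (0:ℝ)) fun x => hh_nonneg (hU x) (hV x)
    rw [hma, h, show (L a + L a) / 2 = L a by ring, show (Wf a + Wf a) / 2 = Wf a by ring]
    linarith
  · set Δ := (a - b) / 2 with hΔ'
    have e1 : m + Δ = a := by rw [hm, hΔ']; ring
    have e2 : m - Δ = b := by rw [hm, hΔ']; ring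
    have he0 : 0 < e := by
      rw [he]
      have := avg_pos (g := fun x => L (U x)) fun x => L_pos (hU x).1 (hU x).2
      have := avg_pos (g := fun x => L (V x)) fun x => L_pos (hV x).1 (hV x).2
      linarith
    have hel : e ≤ (L a + L b) / 2 := by
      rw [he]; linarith [avg_L_le hU, avg_L_le hV]
    set G := Δ ^ 2 / (1 - a * b) with hG
    have hG0 : 0 ≤ G := by
      have : 0 < 1 - a * b := by nlinarith [ha.1, ha.2, hb.1, hb.2]
      positivity
    have H1 : hh a b + G * ((L a + L b) / 2 - e) ≤ avg (fun x => hh (U x) (V x)) := by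
      refine le_trans (le_of_eq ?_) (avg_mono (g := fun x =>
        (((A a - A b) + (a - b) / (1 - a ^ 2)) / 4 * U x +
          (-(A a - A b) - (a - b) / (1 - b ^ 2)) / 4 * V x +
          (hh a b - (((A a - A b) + (a - b) / (1 - a ^ 2)) / 4 * a +
            (-(A a - A b) - (a - b) / (1 - b ^ 2)) / 4 * b))) +
        (G / 2) * (((-1) * L (U x) + (-A a) * U x + (L a + A a * a)) +
          ((-1) * L (V x) + (-A b) * V x + (L b + A b * b)))) fun x => ?_)
      · simp only [avg_add, avg_mul, avg_const]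
        rw [he, ← ha', ← hb']
        ring
      · refine le_trans ?_ (hh_strong_convex (hU x) (hV x) ha hb h)
        have b1 := breg_le (hU x) ha
        have b2 := breg_le (hV x) hb
        simp only [Phi] at b1 b2
        have b3 : (G / 2) * (((-1) * L (U x) + (-A a) * U x + (L a + A a * a)) +
            ((-1) * L (V x) + (-A b) * V x + (L b + A b * b))) ≤
            G / 2 * ((U x - a) ^ 2 / (1 - a ^ 2) + (V x - b) ^ 2 / (1 - b ^ 2)) :=
          mul_le_mul_of_nonneg_left (by linarith) (by positivity)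
        refine le_trans (add_le_add le_rfl b3) (le_of_eq ?_)
        rw [hG, hΔ']
        ring
    have H2 : ∀ r : ℝ, 0 < r → r < 1 →
        (A r + eta r * (L r / r)) * Δ - eta r * e ≤ avg (fun x => hh (U x) (V x)) := by
      intro r r0 r1
      refine le_trans (le_of_eq ?_) (avg_mono (g := fun x =>
        (A r + eta r * (L r / r)) / 2 * U x + (-(A r + eta r * (L r / r)) / 2) * V x +
          ((-eta r / 2) * L (U x) + (-eta r / 2) * L (V x))) fun x => ?_)
      · simp only [avg_add, avg_mul]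
        rw [he, ← ha', ← hb', hΔ']
        ring
      · exact le_trans (le_of_eq (by ring)) (hh_ge_linear r0 r1 (hU x) (hV x))
    have hq : qF m Δ * Δ = hh a b := by rw [qF, e1, e2, hh, hΔ']; ring
    obtain ⟨t1, t2⟩ := two_point (M := m) (Δ := Δ) (e := e)
      (H := avg (fun x => hh (U x) (V x))) (by rw [hΔ']; linarith) (e1 ▸ ha) (e2 ▸ hb) he0
      (by rw [e1, e2]; exact hel) (by rw [hq, e1, e2, ← hG]; exact H1) H2
    simp only [JSF, WbF, e1, e2] at t1 t2
    rw [← max_add_add_left]
    apply max_le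
    · linarith [le_max_left (Pb ((Wf a + Wf b) / 2) e) (ff ((L a + L b) / 2 - e))]
    · linarith [le_max_right (Pb ((Wf a + Wf b) / 2) e) (ff ((L a + L b) / 2 - e))]

/-- The differential inequality on every cube. -/
theorem JJ_bound : ∀ {n : ℕ} (u : (Fin n → Bool) → ℝ), (∀ x, u x ∈ Ioo (-1:ℝ) 1) →
    2 * II u + max (Pb (Wf (avg u)) (avg (fun x => L (u x)))) (ff (II u)) ≤ JJ n u := by
  intro n
  induction n with
  | zero =>
    intro u hu
    set m := u finZeroElim
    have hm : m ∈ Ioo (-1:ℝ) 1 := hu _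
    have h0 : II u = 0 := by simp [II, avg_zero]
    have hP : Pb (Wf m) (L m) = 0 := by
      refine Pb_eq_zero (Wf_pos hm) ?_
      have h := Phi_le_sq hm.1.le hm.2.le
      have hw := one_sub_sq_pos hm.1 hm.2
      have : Wf m ≤ 1 - m ^ 2 := mul_le_of_le_one_right hw.le (by linarith [sq_nonneg m])
      simp only [Phi] at h
      have := mul_le_mul_of_nonneg_left this (by linarith [log2_lb] : 0 ≤ Real.log 2)
      linarith
    simp [JJ, h0, avg_zero, ff_zero, m, hP] at *
    simp [hP]
  | succ n ih =>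
    intro u hu
    set U := half u true with hU'
    set V := half u false with hV'
    have hU : ∀ x, U x ∈ Ioo (-1:ℝ) 1 := fun x => hu _
    have hV : ∀ x, V x ∈ Ioo (-1:ℝ) 1 := fun x => hu _
    have hm : avg u = (avg U + avg V) / 2 := avg_succ u
    have he : avg (fun x => L (u x)) = (avg (fun x => L (U x)) + avg (fun x => L (V x))) / 2 :=
      avg_succ (fun x => L (u x))
    have iU := ih U hU
    have iV := ih V hV
    set eU := avg (fun x => L (U x))
    set eV := avg (fun x => L (V x))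
    have hWU := Wf_pos (avg_mem hU)
    have hWV := Wf_pos (avg_mem hV)
    have heU : 0 < eU := avg_pos fun x => L_pos (hU x).1 (hU x).2
    have heV : 0 < eV := avg_pos fun x => L_pos (hV x).1 (hV x).2
    have hW : 0 < (Wf (avg U) + Wf (avg V)) / 2 := by linarith
    have hE : 0 < (eU + eV) / 2 := by linarith
    have hy := div_pos hE hW
    have p1 := le_Pb (rho_nonneg hy) (rho_lt_one hy) hWU heU
    have p2 := le_Pb (rho_nonneg hy) (rho_lt_one hy) hWV heV
    have hP : Pb ((Wf (avg U) + Wf (avg V)) / 2) ((eU + eV) / 2) ≤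
        (Pb (Wf (avg U)) eU + Pb (Wf (avg V)) eV) / 2 := by
      show beta _ * _ - dd _ * _ ≤ _
      linarith
    set Ib := (L (avg U) + L (avg V)) / 2 - (eU + eV) / 2 with hIb
    have f1 := le_ff (sig_nonneg Ib) (sig_le Ib) (II U)
    have f2 := le_ff (sig_nonneg Ib) (sig_le Ib) (II V)
    have hIb2 : Ib = (II U + II V) / 2 := by rw [hIb]; simp only [II, eU, eV]; ring
    have hF : ff Ib ≤ (ff (II U) + ff (II V)) / 2 := by
      show beta _ - dd _ * (_ - Ib) ≤ _
      conv_lhs => arg 2; arg 2; arg 2; rw [hIb2]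
      linarith
    have hmax : max (Pb ((Wf (avg U) + Wf (avg V)) / 2) ((eU + eV) / 2)) (ff Ib) ≤
        (max (Pb (Wf (avg U)) eU) (ff (II U)) + max (Pb (Wf (avg V)) eV) (ff (II V))) / 2 := by
      have := le_max_left (Pb (Wf (avg U)) eU) (ff (II U))
      have := le_max_right (Pb (Wf (avg U)) eU) (ff (II U))
      have := le_max_left (Pb (Wf (avg V)) eV) (ff (II V))
      have := le_max_right (Pb (Wf (avg V)) eV) (ff (II V))
      apply max_le <;> linarith
    have hJ : JJ (n + 1) u = (JJ n U + JJ n V) / 2 + avg (fun x => hh (U x) (V x)) := rfl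
    rw [hJ]
    simp only [II]
    rcases le_total (avg V) (avg U) with h | h
    · have := pair_step hU hV h he hm
      rw [he] at this ⊢
      linarith
    · have := pair_step hV hU h (m := avg u) (e := avg (fun x => L (u x)))
        (by rw [he]; ring) (by rw [hm]; ring)
      rw [show (fun x => hh (V x) (U x)) = fun x => hh (U x) (V x) from
        funext fun x => hh_comm _ _, show (L (avg V) + L (avg U)) / 2 = (L (avg U) + L (avg V)) / 2
        by ring, show (Wf (avg V) + Wf (avg U)) / 2 = (Wf (avg U) + Wf (avg V)) / 2 by ring] at this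
      rw [he] at this ⊢
      linarith

/-! ### noise operator -/

noncomputable def Tn (ρ : ℝ) : (n : ℕ) → ((Fin n → Bool) → ℝ) → (Fin n → Bool) → ℝ
  | 0, f => f
  | n + 1, f => fun x =>
      (1 + ρ) / 2 * Tn ρ n (half f (x 0)) (Fin.tail x) +
        (1 - ρ) / 2 * Tn ρ n (half f (!x 0)) (Fin.tail x)

theorem half_Tn (ρ : ℝ) (f : (Fin (n + 1) → Bool) → ℝ) (b : Bool) (y : Fin n → Bool) :
    half (Tn ρ (n + 1) f) b y =
      (1 + ρ) / 2 * Tn ρ n (half f b) y + (1 - ρ) / 2 * Tn ρ n (half f (!b)) y := by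
  simp [half, Tn]

noncomputable def Lgen : (n : ℕ) → ((Fin n → Bool) → ℝ) → (Fin n → Bool) → ℝ
  | 0, _ => fun _ => 0
  | n + 1, u => fun x => Lgen n (half u (x 0)) (Fin.tail x) +
      (half u (x 0) (Fin.tail x) - half u (!x 0) (Fin.tail x)) / 2

theorem Lgen_lin : ∀ {n : ℕ} (c d : ℝ) (u v : (Fin n → Bool) → ℝ) (x : Fin n → Bool),
    Lgen n (fun y => c * u y + d * v y) x = c * Lgen n u x + d * Lgen n v x := by
  intro n
  induction n with
  | zero => intros; simp [Lgen]
  | succ n ih =>
    intro c d u v x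
    have h : ∀ b, half (fun y => c * u y + d * v y) b =
        fun y => c * half u b y + d * half v b y := fun b => rfl
    simp only [Lgen, h, ih]
    ring

theorem avg_A_mul_Lgen : ∀ {n : ℕ} (u : (Fin n → Bool) → ℝ),
    avg (fun x => A (u x) * Lgen n u x) = JJ n u := by
  intro n
  induction n with
  | zero => intro u; simp [Lgen, JJ, avg_const]
  | succ n ih =>
    intro u
    have h : ∀ b, half (fun x => A (u x) * Lgen (n + 1) u x) b = fun y =>
        A (half u b y) * Lgen n (half u b) y +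
          (1 / 2) * (A (half u b y) * (half u b y - half u (!b) y)) := by
      intro b; funext y
      simp [half, Lgen]; ring
    have e : (fun y => hh (half u true y) (half u false y)) = fun y =>
        (1 / 4) * (A (half u true y) * (half u true y - half u false y)) +
          (1 / 4) * (A (half u false y) * (half u false y - half u true y)) := by
      funext y; simp only [hh]; ring
    rw [avg_succ, h, h, JJ, e]
    simp only [avg_add, avg_mul, ih, Bool.not_true, Bool.not_false]
    ring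

theorem hasDerivAt_Tn : ∀ {n : ℕ} (f : (Fin n → Bool) → ℝ) (x : Fin n → Bool) (ρ : ℝ),
    ∃ d, HasDerivAt (fun r => Tn r n f x) d ρ ∧ ρ * d = Lgen n (Tn ρ n f) x := by
  intro n
  induction n with
  | zero => intro f x ρ; exact ⟨0, by simpa [Tn] using hasDerivAt_const ρ (f x), by simp [Lgen]⟩
  | succ n ih =>
    intro f x ρ
    obtain ⟨d1, h1, e1⟩ := ih (half f (x 0)) (Fin.tail x) ρ
    obtain ⟨d2, h2, e2⟩ := ih (half f (!x 0)) (Fin.tail x) ρ
    refine ⟨_, ((((hasDerivAt_id ρ).const_add 1).div_const 2).mul h1).add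
      ((((hasDerivAt_id ρ).const_sub 1).div_const 2).mul h2), ?_⟩
    have h : ∀ b, half (Tn ρ (n + 1) f) b = fun y =>
        (1 + ρ) / 2 * Tn ρ n (half f b) y + (1 - ρ) / 2 * Tn ρ n (half f (!b)) y :=
      fun b => funext (half_Tn ρ f b)
    simp only [Lgen, h, Lgen_lin, Bool.not_not, id]
    linear_combination ((1 + ρ) / 2) * e1 + ((1 - ρ) / 2) * e2

theorem avg_Tn : ∀ {n : ℕ} (f : (Fin n → Bool) → ℝ) (ρ : ℝ), avg (Tn ρ n f) = avg f := by
  intro n
  induction n with
  | zero => intros; rfl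
  | succ n ih =>
    intro f ρ
    have h : ∀ b, half (Tn ρ (n + 1) f) b = fun y =>
        (1 + ρ) / 2 * Tn ρ n (half f b) y + (1 - ρ) / 2 * Tn ρ n (half f (!b)) y :=
      fun b => funext (half_Tn ρ f b)
    rw [avg_succ, h, h]
    simp only [avg_add, avg_mul, ih, Bool.not_true, Bool.not_false]
    rw [avg_succ f]
    ring

theorem Tn_one : ∀ {n : ℕ} (f : (Fin n → Bool) → ℝ), Tn 1 n f = f := by
  intro n
  induction n with
  | zero => intros; rfl
  | succ n ih =>
    intro f; funext x
    simp [Tn, ih, half, Fin.cons_self_tail]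

theorem Tn_zero : ∀ {n : ℕ} (f : (Fin n → Bool) → ℝ), Tn 0 n f = fun _ => avg f := by
  intro n
  induction n with
  | zero => intro f; funext x; rw [avg_zero]; exact congrArg f (Subsingleton.elim _ _)
  | succ n ih =>
    intro f; funext x
    simp only [Tn, ih]
    rw [avg_succ f]
    cases x 0 <;> simp <;> ring

theorem Tn_neg : ∀ {n : ℕ} (f : (Fin n → Bool) → ℝ) (ρ : ℝ) (x : Fin n → Bool),
    Tn ρ n (fun y => -f y) x = -Tn ρ n f x := by
  intro n
  induction n with
  | zero => intros; rfl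
  | succ n ih =>
    intro f ρ x
    have h : ∀ b, half (fun y => -f y) b = fun y => -half f b y := fun b => rfl
    simp only [Tn, h, ih]
    ring

theorem Tn_le_one : ∀ {n : ℕ} (f : (Fin n → Bool) → ℝ) (ρ : ℝ), -1 ≤ ρ → ρ ≤ 1 →
    (∀ x, f x ≤ 1) → ∀ x, Tn ρ n f x ≤ 1 := by
  intro n
  induction n with
  | zero => intro f ρ _ _ h x; exact h x
  | succ n ih =>
    intro f ρ h0 h1 h x
    have a := mul_le_mul_of_nonneg_left (ih (half f (x 0)) ρ h0 h1 (fun y => h _) (Fin.tail x))
      (by linarith : 0 ≤ (1 + ρ) / 2)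
    have b := mul_le_mul_of_nonneg_left (ih (half f (!x 0)) ρ h0 h1 (fun y => h _) (Fin.tail x))
      (by linarith : 0 ≤ (1 - ρ) / 2)
    simp only [Tn]
    linarith

theorem eq_one_of_Tn_eq_one : ∀ {n : ℕ} (f : (Fin n → Bool) → ℝ) (ρ : ℝ), -1 < ρ → ρ < 1 →
    (∀ x, f x ≤ 1) → ∀ x, Tn ρ n f x = 1 → ∀ z, f z = 1 := by
  intro n
  induction n with
  | zero => intro f ρ _ _ _ x hx z; rw [Subsingleton.elim z x]; exact hx
  | succ n ih =>
    intro f ρ h0 h1 h x hx z
    have a := Tn_le_one (half f (x 0)) ρ h0.le h1.le (fun y => h _) (Fin.tail x)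
    have b := Tn_le_one (half f (!x 0)) ρ h0.le h1.le (fun y => h _) (Fin.tail x)
    simp only [Tn] at hx
    have a' : Tn ρ n (half f (x 0)) (Fin.tail x) = 1 := by
      nlinarith [mul_le_mul_of_nonneg_left b (by linarith : 0 ≤ (1 - ρ) / 2)]
    have b' : Tn ρ n (half f (!x 0)) (Fin.tail x) = 1 := by
      nlinarith [mul_le_mul_of_nonneg_left a (by linarith : 0 ≤ (1 + ρ) / 2)]
    have ha := ih (half f (x 0)) ρ h0 h1 (fun y => h _) _ a' (Fin.tail z)
    have hb := ih (half f (!x 0)) ρ h0 h1 (fun y => h _) _ b' (Fin.tail z)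
    rw [← Fin.cons_self_tail z]
    cases hx0 : x 0 <;> cases hz : z 0 <;> simp_all [half]

theorem Tn_mem {f : (Fin n → Bool) → ℝ} {ρ : ℝ} (h0 : -1 < ρ) (h1 : ρ < 1)
    (hf : ∀ x, f x ∈ Icc (-1:ℝ) 1) (hp : ∃ x, f x ≠ 1) (hn : ∃ x, f x ≠ -1) (x : Fin n → Bool) :
    Tn ρ n f x ∈ Ioo (-1:ℝ) 1 := by
  constructor
  · have hneg : ∀ y, -f y ≤ 1 := fun y => by linarith [(hf y).1]
    have := Tn_le_one (fun y => -f y) ρ h0.le h1.le hneg x
    rw [Tn_neg] at this
    rcases eq_or_lt_of_le this with h | h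
    · obtain ⟨z, hz⟩ := hn
      have := eq_one_of_Tn_eq_one (fun y => -f y) ρ h0 h1 hneg x (by rw [Tn_neg]; exact h) z
      exact absurd (by linarith : f z = -1) hz
    · linarith
  · rcases eq_or_lt_of_le (Tn_le_one f ρ h0.le h1.le (fun y => (hf y).2) x) with h | h
    · obtain ⟨z, hz⟩ := hp
      exact absurd (eq_one_of_Tn_eq_one f ρ h0 h1 (fun y => (hf y).2) x h z) hz
    · exact h

end Vale.Agent.CK
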