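import Mathlib

/-!
The mutual information between a Boolean function of a uniform input and the channel output.
-/

namespace Vale.Agent.CK

/-- Joint law of `(f X, Y)`: `X` is uniform on the cube and `Y` is obtained from `X` by flipping
each coordinate independently with probability `ε`. -/
noncomputable def jointPmf {n : ℕ} (f : (Fin n → Bool) → Bool) (ε : ℝ) (b : Bool)
    (y : Fin n → Bool) : ℝ :=
  ∑ x : Fin n → Bool, if f x = b then (1 / 2) ^ n * ∏ i, (if x i = y i then 1 - ε else ε) else 0

/-- Mutual information `I(f X; Y)` in bits. -/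
noncomputable def mutualInfo {n : ℕ} (f : (Fin n → Bool) → Bool) (ε : ℝ) : ℝ :=
  ∑ b : Bool, ∑ y : Fin n → Bool, jointPmf f ε b y *
    Real.logb 2 (jointPmf f ε b y /
      ((∑ y' : Fin n → Bool, jointPmf f ε b y') * (∑ b' : Bool, jointPmf f ε b' y)))

end Vale.Agent.CK
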