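import Vale.Agent.CK.Defs
import Vale.Agent.CK.Bound

/-!
Passage from the entropy functional `info` to the mutual information.
-/

namespace Vale.Agent.CK

open Real Set

variable {n : ℕ}

def sgn (f : (Fin n → Bool) → Bool) (x : Fin n → Bool) : ℝ := if f x then 1 else -1

theorem jointPmf_eq (f : (Fin n → Bool) → Bool) (ε : ℝ) (b : Bool) (y : Fin n → Bool) :
    jointPmf f ε b y =
      (1 / 2) ^ n * ((1 + (if b then 1 else -1) * Tn (1 - 2 * ε) n (sgn f) y) / 2) := by
  rw [Tn_eq_sum]
  conv_rhs => arg 2; arg 1; arg 1; rw [← sum_kernel (1 - 2 * ε) y]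
  rw [Finset.mul_sum, ← Finset.sum_add_distrib, Finset.sum_div, Finset.mul_sum, jointPmf]
  refine Finset.sum_congr rfl fun x _ => ?_
  rw [show (1 + (1 - 2 * ε)) / 2 = 1 - ε by ring, show (1 - (1 - 2 * ε)) / 2 = ε by ring]
  cases b <;> cases h : f x <;> simp [sgn, h] <;> ring

theorem mul_log_div (a c : ℝ) (hc : c ≠ 0) :
    a * log (a / c) = a * log a - a * log c := by
  rcases eq_or_ne a 0 with rfl | ha
  · simp
  · rw [log_div ha hc]; ring

theorem mutualInfo_eq_info (f : (Fin n → Bool) → Bool) (ε : ℝ)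
    (hm : avg (sgn f) ∈ Ioo (-1:ℝ) 1) :
    mutualInfo f ε = info (sgn f) (1 - 2 * ε) / log 2 := by
  set u := Tn (1 - 2 * ε) n (sgn f)
  set m := avg (sgn f)
  have hmp : (1 + m) / 2 ≠ 0 := by linarith [hm.1]
  have hmm : (1 - m) / 2 ≠ 0 := by linarith [hm.2]
  have hN : ((1:ℝ) / 2) ^ n ≠ 0 := by positivity
  have hy : ∀ y, ∑ b : Bool, jointPmf f ε b y = (1 / 2) ^ n := by
    intro y; simp [Fintype.sum_bool, jointPmf_eq]; ring
  have hb : ∀ b, ∑ y, jointPmf f ε b y = (1 + (if b then 1 else -1) * m) / 2 := by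
    intro b
    have : ∑ y, jointPmf f ε b y =
        avg (fun y => (if b then (1:ℝ) else -1) / 2 * u y + 1 / 2) := by
      rw [avg, Finset.sum_div]
      refine Finset.sum_congr rfl fun y _ => ?_
      rw [jointPmf_eq, one_div_pow]; ring
    rw [this, avg_affine]
    simp only [u, m, avg_Tn]; ring
  have hterm : ∀ y, ∑ b : Bool, jointPmf f ε b y * log (jointPmf f ε b y /
      ((∑ y', jointPmf f ε b y') * (∑ b', jointPmf f ε b' y))) =
      (-L (u y) + (-A m) * u y + (L m + A m * m)) / 2 ^ n := by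
    intro y
    simp only [hb, hy]
    simp only [Fintype.sum_bool, jointPmf_eq, if_true, Bool.false_eq_true, if_false, one_mul,
      neg_one_mul, ← sub_eq_add_neg]
    change (1 / 2) ^ n * ((1 + u y) / 2) * log ((1 / 2) ^ n * ((1 + u y) / 2) /
        ((1 + m) / 2 * (1 / 2) ^ n)) +
      (1 / 2) ^ n * ((1 - u y) / 2) * log ((1 / 2) ^ n * ((1 - u y) / 2) /
        ((1 - m) / 2 * (1 / 2) ^ n)) = _
    rw [mul_comm ((1 + m) / 2), mul_comm ((1 - m) / 2), mul_div_mul_left _ _ hN,
      mul_div_mul_left _ _ hN, div_div_div_cancel_right₀ two_ne_zero,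
      div_div_div_cancel_right₀ two_ne_zero]
    have e1 := mul_log_div (1 + u y) (1 + m) (by linarith [hm.1])
    have e2 := mul_log_div (1 - u y) (1 - m) (by linarith [hm.2])
    have e3 : -L (u y) + (-A m) * u y + (L m + A m * m) =
        ((1 + u y) * log (1 + u y) - (1 + u y) * log (1 + m) +
          ((1 - u y) * log (1 - u y) - (1 - u y) * log (1 - m))) / 2 := by
      simp only [L, A]; ring
    rw [e3, ← e1, ← e2, one_div_pow]
    ring
  have hMI : mutualInfo f ε = (∑ y, ∑ b : Bool, jointPmf f ε b y * log (jointPmf f ε b y /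
      ((∑ y', jointPmf f ε b y') * (∑ b', jointPmf f ε b' y)))) / log 2 := by
    rw [mutualInfo, Finset.sum_comm, Finset.sum_div]
    refine Finset.sum_congr rfl fun y _ => ?_
    rw [Finset.sum_div]
    exact Finset.sum_congr rfl fun b _ => by rw [logb]; ring
  rw [hMI, Finset.sum_congr rfl fun y _ => hterm y, ← Finset.sum_div]
  change avg (fun y => -L (u y) + (-A m) * u y + (L m + A m * m)) / log 2 = _
  simp only [neg_eq_neg_one_mul (L _)]
  simp only [avg_add, avg_mul, avg_const]
  simp only [u, m, avg_Tn, info]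
  ring

theorem binEntropy_eq_L {ε : ℝ} (h0 : 0 ≤ ε) (h1 : ε ≤ 1 / 2) :
    binEntropy ε = L (1 - 2 * ε) := by
  rw [binEntropy_eq_negMulLog_add_negMulLog_one_sub, negMulLog, negMulLog, L]
  have e1 : (1:ℝ) + (1 - 2 * ε) = 2 * (1 - ε) := by ring
  have e2 : (1:ℝ) - (1 - 2 * ε) = 2 * ε := by ring
  rw [e1, e2, log_mul two_ne_zero (by linarith)]
  rcases eq_or_lt_of_le h0 with h | h
  · simp [← h]
  · rw [log_mul two_ne_zero h.ne']; ring

theorem mutualInfo_le (f : (Fin n → Bool) → Bool) {ε : ℝ} (h0 : 0 ≤ ε) (h1 : ε ≤ 1 / 2) :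
    mutualInfo f ε ≤ 1 - binEntropy ε / log 2 := by
  have hl : 0 < log 2 := by linarith [log2_lb]
  have hR : 1 - binEntropy ε / log 2 = Phi (1 - 2 * ε) / log 2 := by
    rw [binEntropy_eq_L h0 h1, Phi, sub_div, div_self hl.ne']
  rw [hR]
  by_cases hc : ∀ x y, f x = f y
  · have hz : mutualInfo f ε = 0 := by
      set b0 := f fun _ => false
      have hT : ∀ y, Tn (1 - 2 * ε) n (sgn f) y = if b0 then 1 else -1 := by
        intro y
        rw [Tn_eq_sum]
        have : ∀ x, sgn f x = if b0 then 1 else -1 := fun x => by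
          simp only [sgn, b0, hc x fun _ => false]
        simp only [this, ← Finset.sum_mul, sum_kernel, one_mul]
      have hN : ((1:ℝ) / 2) ^ n ≠ 0 := by positivity
      unfold mutualInfo
      refine Finset.sum_eq_zero fun b _ => Finset.sum_eq_zero fun y _ => ?_
      cases b <;> cases hb0 : b0 <;>
        simp [jointPmf_eq, hT, hb0, Finset.sum_const, div_self, ← mul_pow]
    rw [hz]
    exact div_nonneg (Phi_nonneg (by linarith) (by linarith)) hl.le
  · push Not at hc
    obtain ⟨a, b, hab⟩ := hc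
    have hs : ∀ x, sgn f x = 1 ∨ sgn f x = -1 := fun x => by
      cases h : f x <;> simp [sgn, h]
    have hp : ∃ x, sgn f x ≠ 1 := by
      cases ha : f a
      · exact ⟨a, by norm_num [sgn, ha]⟩
      · exact ⟨b, by cases hb : f b <;> simp_all [sgn] <;> norm_num⟩
    have hn : ∃ x, sgn f x ≠ -1 := by
      cases ha : f a
      · exact ⟨b, by cases hb : f b <;> simp_all [sgn] <;> norm_num⟩
      · exact ⟨a, by norm_num [sgn, ha]⟩
    have hfi : ∀ x, sgn f x ∈ Icc (-1:ℝ) 1 := fun x => by rcases hs x with h | h <;> simp [h]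
    have hm : avg (sgn f) ∈ Ioo (-1:ℝ) 1 := by
      have := Tn_mem (ρ := 0) (by norm_num) (by norm_num) hfi hp hn fun _ => false
      rwa [Tn_zero] at this
    rw [mutualInfo_eq_info f ε hm]
    exact div_le_div_of_nonneg_right (info_le hs hp hn (by linarith) (by linarith)) hl.le

end Vale.Agent.CK
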