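import Vale.Agent.CK.Kernel

/-!
Further one-variable estimates used in the two-point inequality.
-/

namespace Vale.Agent.CK

open Real Set

theorem pade4_le_A {r : ℝ} (h0 : 0 ≤ r) (h1 : r < 1) :
    r * (945 - 735 * r ^ 2 + 64 * r ^ 4) / (945 - 1050 * r ^ 2 + 225 * r ^ 4) ≤ A r := by
  have hd : ∀ t : ℝ, 0 ≤ t → t < 1 → 0 < 945 - 1050 * t ^ 2 + 225 * t ^ 4 := by
    intro t a b; nlinarith [sq_nonneg (1 - t ^ 2), one_sub_sq_pos (by linarith : -1 < t) b]
  have := nonneg_of_deriv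
    (F := fun t => A t - t * (945 - 735 * t ^ 2 + 64 * t ^ 4) / (945 - 1050 * t ^ 2 + 225 * t ^ 4))
    (F' := fun t => 14400 * t ^ 10 / ((1 - t ^ 2) * (945 - 1050 * t ^ 2 + 225 * t ^ 4) ^ 2)) h0 h1
    (by simp)
    (fun t a b => by
      have hw := one_sub_sq_pos (by linarith : -1 < t) b
      have hden := hd t a b
      refine ((hasDerivAt_A (by linarith) b).sub
        (((hasDerivAt_id t).mul (((((hasDerivAt_id t).pow 2).const_mul 735).const_sub 945).add
          (((hasDerivAt_id t).pow 4).const_mul 64))).div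
          (((((hasDerivAt_id t).pow 2).const_mul 1050).const_sub 945).add
            (((hasDerivAt_id t).pow 4).const_mul 225)) hden.ne')).congr_deriv ?_
      simp only [id, Nat.cast_ofNat, Pi.pow_apply, Pi.mul_apply, Pi.add_apply]
      rw [div_sub_div _ _ hw.ne' (by positivity),
        div_eq_div_iff (by positivity) (by positivity)]
      ring)
    (by
      intro t a b
      have hw := one_sub_sq_pos (by linarith : -1 < t) b
      have := hd t a.le b
      positivity)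
  linarith

theorem eta_Lam {r : ℝ} (h0 : 0 ≤ r) (h1 : r < 1) : eta r * Lam r = r ^ 2 / (1 - r ^ 2) := by
  have := Lam_pos h0 h1
  have := one_sub_sq_pos (by linarith : -1 < r) h1
  rw [eta]; field_simp

theorem dd_le_eta {r : ℝ} (h0 : 0 < r) (h1 : r < 1) : dd r ≤ eta r := by
  have hw := one_sub_sq_pos (by linarith : -1 < r) h1
  have hA := A_pos h0 h1
  have hL := Lam_pos h0.le h1
  rw [dd_of_pos h0, eta, sub_le_iff_le_add, div_add_one (by positivity),
    div_le_div_iff₀ (by positivity) (by positivity)]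
  have h := r_mul_L_le h0.le h1
  have h2 : Real.log 2 ≤ Lam r := by nlinarith [Lam_lb h0.le h1]
  have h3 : r * L r ≤ (1 - r ^ 2) * A r * Lam r :=
    h.trans (by nlinarith [mul_pos hw hA])
  have e : r * Lam r = r * L r + r ^ 2 * A r := by rw [Lam]; ring
  nlinarith [mul_le_mul_of_nonneg_left (by linarith : r * Lam r ≤
    (r ^ 2 + (1 - r ^ 2) * Lam r) * A r) hw.le]

/-- `g = r * Lam r / A r` is at most `x + w log 2`. -/
theorem r_mul_Lam_le {r : ℝ} (h0 : 0 ≤ r) (h1 : r < 1) :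
    r * Lam r ≤ A r * (r ^ 2 + Real.log 2 * (1 - r ^ 2)) := by
  have := r_mul_L_le h0 h1
  rw [Lam]; nlinarith

theorem breg_nonneg {a a₀ : ℝ} (ha : a ∈ Ioo (-1:ℝ) 1) (h0 : a₀ ∈ Ioo (-1:ℝ) 1) :
    0 ≤ Phi a - Phi a₀ - A a₀ * (a - a₀) := by
  have p1 : 0 < 1 + a := by linarith [ha.1]
  have p2 : 0 < 1 - a := by linarith [ha.2]
  have q1 : 0 < 1 + a₀ := by linarith [h0.1]
  have q2 : 0 < 1 - a₀ := by linarith [h0.2]
  have l1 := Real.log_le_sub_one_of_pos (div_pos q1 p1)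
  have l2 := Real.log_le_sub_one_of_pos (div_pos q2 p2)
  rw [Real.log_div q1.ne' p1.ne'] at l1
  rw [Real.log_div q2.ne' p2.ne'] at l2
  have e : Phi a - Phi a₀ - A a₀ * (a - a₀) =
      ((1 + a) * (Real.log (1 + a) - Real.log (1 + a₀)) +
        (1 - a) * (Real.log (1 - a) - Real.log (1 - a₀))) / 2 := by
    simp only [Phi, L, A]; ring
  have m1 := mul_le_mul_of_nonneg_left l1 p1.le
  have m2 := mul_le_mul_of_nonneg_left l2 p2.le
  have e1 : (1 + a) * ((1 + a₀) / (1 + a) - 1) = a₀ - a := by field_simp; ring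
  have e2 : (1 - a) * ((1 - a₀) / (1 - a) - 1) = a - a₀ := by field_simp; ring
  rw [e1] at m1; rw [e2] at m2
  rw [e]; linarith

theorem Phi_mono {a b : ℝ} (ha : 0 ≤ a) (hab : a ≤ b) (hb : b ≤ 1) : Phi a ≤ Phi b := by
  have := L_strictAntiOn.antitoneOn ⟨ha, hab.trans hb⟩ ⟨ha.trans hab, hb⟩ hab
  simp only [Phi]; linarith

theorem Phi_nonneg {a : ℝ} (h1 : -1 ≤ a) (h2 : a ≤ 1) : 0 ≤ Phi a := by
  simp only [Phi]; linarith [L_le_log2 h1 h2]

theorem sig_mono {i j : ℝ} (h : i ≤ j) : sig i ≤ sig j :=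
  rho_antitone (sig_pos_arg j) (max_le_max (by linarith) le_rfl)

theorem sig_le_of_le_Phi {i r : ℝ} (h0 : 0 ≤ r) (h1 : r < 1) (h : i ≤ Phi r) : sig i ≤ r :=
  rho_le_of (sig_pos_arg i) h0 h1 (le_max_of_le_left (by simp only [Phi] at h; linarith))

/-- The series comparison behind `dd' ≤ 1.58 A` on `[0, 1/3]`. -/
theorem cap_poly {x : ℝ} (h0 : 0 ≤ x) (h1 : x ≤ 1 / 9) :
    15 * (1 - x) + (1 + x) * (5 * (1 - x) + 3 * x) ≤
      (158 / 100) * 15 * (1 - x) ^ 3 * (1 + x / 3 + x ^ 2 / 5) ^ 3 := by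
  have h : (1 + x + 14 / 15 * x ^ 2) ≤ (1 + x / 3 + x ^ 2 / 5) ^ 3 := by
    nlinarith [pow_nonneg h0 3, pow_nonneg h0 4, pow_nonneg h0 5, pow_nonneg h0 6]
  have hw : 0 ≤ (1 - x) ^ 3 := pow_nonneg (by linarith) 3
  have := mul_le_mul_of_nonneg_left h (by positivity : 0 ≤ (158 / 100 : ℝ) * 15 * (1 - x) ^ 3)
  refine le_trans ?_ this
  nlinarith [mul_nonneg h0 (sub_nonneg.2 h1), pow_nonneg h0 2, pow_nonneg h0 3,
    mul_nonneg (pow_nonneg h0 2) (sub_nonneg.2 h1), mul_nonneg (pow_nonneg h0 3) (sub_nonneg.2 h1)]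

theorem dd_cap {a b : ℝ} (ha : 0 ≤ a) (hab : a ≤ b) (hb : b ≤ 1 / 3) :
    dd b - dd a ≤ 158 / 100 * (Phi b - Phi a) := by
  have hm : AntitoneOn (fun r => dd r - 158 / 100 * Phi r) (Icc a b) := by
    apply antitoneOn_of_hasDerivWithinAt_nonpos (convex_Icc a b)
      (f' := fun r => ((1 + r ^ 2) * A r - r) / ((1 - r ^ 2) * A r) ^ 2 - 158 / 100 * A r)
    · exact ((dd_continuousOn.mono fun x hx => ⟨ha.trans hx.1, by linarith [hx.2]⟩).sub
        (continuous_const.mul continuous_Phi).continuousOn)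
    · intro x hx; rw [interior_Icc] at hx
      exact ((dd_hasDerivAt (by linarith [hx.1]) (by linarith [hx.2])).sub
        ((hasDerivAt_Phi (by linarith [hx.1]) (by linarith [hx.2])).const_mul _)).hasDerivWithinAt
    · intro x hx; rw [interior_Icc] at hx
      have x0 : 0 < x := by linarith [hx.1]
      have x1 : x < 1 := by linarith [hx.2]
      have x9 : x ^ 2 ≤ 1 / 9 := by nlinarith [hx.2]
      have hw := one_sub_sq_pos (by linarith : -1 < x) x1
      have hA := A_pos x0 x1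
      rw [sub_nonpos, div_le_iff₀ (by positivity)]
      have hu : (1 + x ^ 2) * A x - x ≤
          x ^ 3 * ((15 * (1 - x ^ 2) + (1 + x ^ 2) * (5 * (1 - x ^ 2) + 3 * x ^ 2)) /
            (15 * (1 - x ^ 2))) := by
        have h := mul_le_mul_of_nonneg_left (A_le_series x0.le x1) (by positivity : (0:ℝ) ≤ 1 + x ^ 2)
        refine le_trans (sub_le_sub_right h x) (le_of_eq ?_)
        field_simp
        ring
      have hl : (x * (1 + x ^ 2 / 3 + (x ^ 2) ^ 2 / 5)) ^ 3 ≤ A x ^ 3 := by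
        apply pow_le_pow_left₀ (by positivity)
        refine le_trans (le_of_eq ?_) (series3_le_A x0.le x1)
        ring
      have hp := cap_poly (sq_nonneg x) x9
      calc (1 + x ^ 2) * A x - x ≤ _ := hu
        _ ≤ x ^ 3 * (158 / 100 * (1 - x ^ 2) ^ 2 * (1 + x ^ 2 / 3 + (x ^ 2) ^ 2 / 5) ^ 3) := by
          apply mul_le_mul_of_nonneg_left _ (by positivity)
          rw [div_le_iff₀ (by positivity)]; linarith
        _ = 158 / 100 * (1 - x ^ 2) ^ 2 * (x * (1 + x ^ 2 / 3 + (x ^ 2) ^ 2 / 5)) ^ 3 := by ring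
        _ ≤ 158 / 100 * (1 - x ^ 2) ^ 2 * A x ^ 3 := mul_le_mul_of_nonneg_left hl (by positivity)
        _ = _ := by ring
  have := hm (left_mem_Icc.2 hab) (right_mem_Icc.2 hab) hab
  simp only at this; linarith

theorem dd_third : dd (1 / 3) = 3 / (4 * Real.log 2) - 1 := by
  have : A (1 / 3) = Real.log 2 / 2 := by
    rw [A, ← Real.log_div (by norm_num) (by norm_num)]; norm_num
  rw [dd_of_pos (by norm_num), this]
  have := log2_lb
  field_simp
  ring

theorem small_r_bound {r : ℝ} (h0 : 0 ≤ r) (h1 : r ≤ 927 / 2000) :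
    158 / 100 * Phi r * (1 + r ^ 2) ≤ r ^ 2 := by
  have h := Phi_le_series h0 (by linarith)
  have hx : r ^ 2 ≤ (927 / 2000) ^ 2 := pow_le_pow_left₀ h0 h1 2
  have hw : 0.785 ≤ 1 - r ^ 2 := by nlinarith
  have h6 : r ^ 6 / (30 * (1 - r ^ 2)) ≤ r ^ 6 / (30 * 0.785) := by
    apply div_le_div_of_nonneg_left (by positivity) (by norm_num) (by linarith)
  have h2 : 1 / 2 + r ^ 2 / 12 + (r ^ 2) ^ 2 / (30 * 0.785) ≤
      1 / 2 + (927 / 2000) ^ 2 / 12 + ((927 / 2000) ^ 2) ^ 2 / (30 * 0.785) := by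
    gcongr
  calc 158 / 100 * Phi r * (1 + r ^ 2)
      ≤ 158 / 100 * (r ^ 2 * (1 / 2 + r ^ 2 / 12 + (r ^ 2) ^ 2 / (30 * 0.785))) * (1 + r ^ 2) := by
        gcongr
        have e : r ^ 2 * (1 / 2 + r ^ 2 / 12 + (r ^ 2) ^ 2 / (30 * 0.785)) =
            r ^ 2 / 2 + r ^ 4 / 12 + r ^ 6 / (30 * 0.785) := by ring
        linarith
    _ ≤ 158 / 100 * (r ^ 2 * (1 / 2 + (927 / 2000) ^ 2 / 12 +
          ((927 / 2000) ^ 2) ^ 2 / (30 * 0.785))) * (1 + (927 / 2000) ^ 2) := by gcongr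
    _ ≤ r ^ 2 := by norm_num; nlinarith [sq_nonneg r]

theorem large_r_bound {r : ℝ} (h0 : 927 / 2000 ≤ r) (h1 : r < 1) :
    (2 + dd (1 / 3)) * Phi r ≤ r * A r := by
  have hb : (2 + dd (1 / 3)) * Phi (927 / 2000) ≤ (927 / 2000) * A (927 / 2000) := by
    have hA := pade4_le_A (r := 927 / 2000) (by norm_num) (by norm_num)
    have hP := Phi_le_series (r := 927 / 2000) (by norm_num) (by norm_num)
    have hd : dd (1 / 3) ≤ 3 / (4 * 0.6931) - 1 := by
      rw [dd_third]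
      have : (3:ℝ) / (4 * Real.log 2) ≤ 3 / (4 * 0.6931) :=
        div_le_div_of_nonneg_left (by norm_num) (by norm_num) (by linarith [log2_lb])
      linarith
    have hd0 : 0 ≤ dd (1 / 3) := dd_nonneg (by norm_num) (by norm_num)
    have hm := mul_le_mul (by linarith : 2 + dd (1 / 3) ≤ 2 + (3 / (4 * 0.6931) - 1)) hP
      (Phi_nonneg (by norm_num) (by norm_num)) (by norm_num)
    refine hm.trans (le_trans ?_ (mul_le_mul_of_nonneg_left hA (by norm_num)))
    norm_num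
  have hm : MonotoneOn (fun t => R0 t - dd (1 / 3) * Phi t) (Icc (927 / 2000) r) := by
    apply monotoneOn_of_hasDerivWithinAt_nonneg (convex_Icc _ _)
      (f' := fun t => (dd t - dd (1 / 3)) * A t)
    · exact ((R0_continuousOn.mono fun x hx => ⟨by linarith [hx.1], hx.2.trans_lt h1⟩).sub
        (continuous_const.mul continuous_Phi).continuousOn)
    · intro x hx; rw [interior_Icc] at hx
      exact (((R0_hasDerivAt (by linarith [hx.1]) (hx.2.trans h1)).sub
        ((hasDerivAt_Phi (by linarith [hx.1]) (hx.2.trans h1)).const_mul _)).congr_deriv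
          (by ring)).hasDerivWithinAt
    · intro x hx; rw [interior_Icc] at hx
      exact mul_nonneg (sub_nonneg.2 (dd_mono (by norm_num) (by linarith [hx.1]) (hx.2.trans h1)))
        (A_pos (by linarith [hx.1]) (hx.2.trans h1)).le
  have := hm (left_mem_Icc.2 h0) (right_mem_Icc.2 h0) h0
  simp only [R0] at this
  linarith

end Vale.Agent.CK
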