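import Vale.Agent.CK.Scalar

/-!
The pair kernel `hh a b = (A a - A b)(a - b)/4`: parametrisation of pairs, entropy bounds along the
parametrisation, the linear lower bound, and the strong convexity identity.
-/

namespace Vale.Agent.CK

open Real Set

noncomputable def T (z : ℝ) : ℝ := (Real.exp (2 * z) - 1) / (Real.exp (2 * z) + 1)

theorem T_mem (z : ℝ) : T z ∈ Ioo (-1:ℝ) 1 := by
  have h := Real.exp_pos (2 * z)
  have hd : 0 < Real.exp (2 * z) + 1 := by linarith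
  constructor
  · rw [T, lt_div_iff₀ hd]; linarith
  · rw [T, div_lt_one hd]; linarith

theorem A_T (z : ℝ) : A (T z) = z := by
  have h := Real.exp_pos (2 * z)
  have hd : 0 < Real.exp (2 * z) + 1 := by linarith
  have e1 : 1 + T z = 2 * Real.exp (2 * z) / (Real.exp (2 * z) + 1) := by
    rw [T]; field_simp; ring
  have e2 : 1 - T z = 2 / (Real.exp (2 * z) + 1) := by rw [T]; field_simp; ring
  rw [A, e1, e2, Real.log_div (by positivity) hd.ne', Real.log_div two_ne_zero hd.ne',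
    Real.log_mul two_ne_zero h.ne', Real.log_exp]
  ring

theorem T_zero : T 0 = 0 := by simp [T]

theorem T_nonneg {z : ℝ} (h : 0 ≤ z) : 0 ≤ T z := by
  have := Real.one_le_exp (by linarith : 0 ≤ 2 * z)
  exact div_nonneg (by linarith) (by linarith)

theorem T_pos {z : ℝ} (h : 0 < z) : 0 < T z := by
  have := Real.one_lt_exp_iff.2 (by linarith : 0 < 2 * z)
  exact div_pos (by linarith) (by linarith)

theorem hasDerivAt_T (z : ℝ) : HasDerivAt T (1 - T z ^ 2) z := by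
  have h := Real.exp_pos (2 * z)
  have he : HasDerivAt (fun y : ℝ => Real.exp (2 * y)) (2 * Real.exp (2 * z)) z :=
    (((hasDerivAt_id z).const_mul 2).exp).congr_deriv (by simp; ring)
  refine ((he.sub_const 1).div (he.add_const 1) (by positivity)).congr_deriv ?_
  rw [T]; field_simp; ring

theorem continuous_T : Continuous T :=
  continuous_iff_continuousAt.2 fun z => (hasDerivAt_T z).continuousAt

noncomputable def addv (s r : ℝ) : ℝ := (s + r) / (1 + s * r)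

theorem addv_den {s r : ℝ} (hs : s ∈ Icc (-1:ℝ) 1) (hr : r ∈ Ioo (-1:ℝ) 1) : 0 < 1 + s * r := by
  have h : |s * r| < 1 := by
    rw [abs_mul]
    calc |s| * |r| ≤ 1 * |r| :=
          mul_le_mul_of_nonneg_right (abs_le.2 ⟨hs.1, hs.2⟩) (abs_nonneg _)
      _ < 1 := by rw [one_mul]; exact abs_lt.2 ⟨hr.1, hr.2⟩
  linarith [(abs_lt.1 h).1]

theorem addv_mem {s r : ℝ} (hs : s ∈ Ioo (-1:ℝ) 1) (hr : r ∈ Ioo (-1:ℝ) 1) :
    addv s r ∈ Ioo (-1:ℝ) 1 := by
  have hd := addv_den (Ioo_subset_Icc_self hs) hr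
  constructor
  · rw [addv, lt_div_iff₀ hd]; nlinarith [hs.1, hr.1]
  · rw [addv, div_lt_one hd]; nlinarith [hs.2, hr.2]

theorem A_addv {s r : ℝ} (hs : s ∈ Ioo (-1:ℝ) 1) (hr : r ∈ Ioo (-1:ℝ) 1) :
    A (addv s r) = A s + A r := by
  have hd := addv_den (Ioo_subset_Icc_self hs) hr
  have e1 : 1 + addv s r = (1 + s) * (1 + r) / (1 + s * r) := by
    rw [addv]; field_simp; ring
  have e2 : 1 - addv s r = (1 - s) * (1 - r) / (1 + s * r) := by
    rw [addv]; field_simp; ring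
  have a1 : 0 < 1 + s := by linarith [hs.1]
  have a2 : 0 < 1 + r := by linarith [hr.1]
  have a3 : 0 < 1 - s := by linarith [hs.2]
  have a4 : 0 < 1 - r := by linarith [hr.2]
  simp only [A, e1, e2]
  rw [Real.log_div (by positivity) hd.ne', Real.log_div (by positivity) hd.ne',
    Real.log_mul a1.ne' a2.ne', Real.log_mul a3.ne' a4.ne']
  ring

theorem addv_neg (s r : ℝ) : addv (-s) r = -addv s (-r) := by
  simp only [addv]; ring_nf

theorem exists_param {a b : ℝ} (ha : a ∈ Ioo (-1:ℝ) 1) (hb : b ∈ Ioo (-1:ℝ) 1) :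
    a = addv (T ((A a + A b) / 2)) (T ((A a - A b) / 2)) ∧
      b = addv (T ((A a + A b) / 2)) (-T ((A a - A b) / 2)) := by
  have hs := T_mem ((A a + A b) / 2)
  have hr := T_mem ((A a - A b) / 2)
  have hr' : -T ((A a - A b) / 2) ∈ Ioo (-1:ℝ) 1 := ⟨by linarith [hr.2], by linarith [hr.1]⟩
  constructor
  · apply A_strictMonoOn.injOn ha (addv_mem hs hr)
    rw [A_addv hs hr, A_T, A_T]; ring
  · apply A_strictMonoOn.injOn hb (addv_mem hs hr')
    rw [A_addv hs hr', A_neg, A_T, A_T]; ring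

section param

variable {s r : ℝ}

theorem D_pos (hs : s ∈ Icc (-1:ℝ) 1) (hr : r ∈ Ioo (-1:ℝ) 1) : 0 < 1 - r ^ 2 * s ^ 2 := by
  have h2 : r ^ 2 < 1 := by nlinarith [hr.1, hr.2]
  have h1 : s ^ 2 ≤ 1 := by nlinarith [hs.1, hs.2]
  nlinarith [sq_nonneg r, sq_nonneg s]

theorem half_diff (hs : s ∈ Icc (-1:ℝ) 1) (hr : r ∈ Ioo (-1:ℝ) 1) :
    (addv s r - addv s (-r)) / 2 = r * ((1 - s ^ 2) / (1 - r ^ 2 * s ^ 2)) := by
  have hd := addv_den hs hr
  have hd' := addv_den hs (show -r ∈ Ioo (-1:ℝ) 1 from ⟨by linarith [hr.2], by linarith [hr.1]⟩)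
  have := D_pos hs hr
  rw [addv, addv, div_sub_div _ _ hd.ne' hd'.ne', div_div, mul_div_assoc',
    div_eq_div_iff (by positivity) this.ne']
  ring

theorem half_sum (hs : s ∈ Icc (-1:ℝ) 1) (hr : r ∈ Ioo (-1:ℝ) 1) :
    (addv s r + addv s (-r)) / 2 = s * (1 - r ^ 2) / (1 - r ^ 2 * s ^ 2) := by
  have hd := addv_den hs hr
  have hd' := addv_den hs (show -r ∈ Ioo (-1:ℝ) 1 from ⟨by linarith [hr.2], by linarith [hr.1]⟩)
  have := D_pos hs hr
  rw [addv, addv, div_add_div _ _ hd.ne' hd'.ne', div_div,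
    div_eq_div_iff (by positivity) this.ne']
  ring

end param

theorem hasDerivAt_addv {s r : ℝ} (hs : s ∈ Icc (-1:ℝ) 1) (hr : r ∈ Ioo (-1:ℝ) 1) :
    HasDerivAt (fun t => addv t r) ((1 - r ^ 2) / (1 + s * r) ^ 2) s := by
  have hd := addv_den hs hr
  refine (((hasDerivAt_id s).add_const r).div (((hasDerivAt_id s).mul_const r).const_add 1)
    hd.ne').congr_deriv ?_
  simp only [id]; ring

theorem continuousOn_addv {r : ℝ} (hr : r ∈ Ioo (-1:ℝ) 1) :
    ContinuousOn (fun t => addv t r) (Icc 0 1) := fun t ht =>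
  (hasDerivAt_addv ⟨by linarith [ht.1], ht.2⟩ hr).continuousAt.continuousWithinAt

theorem addv_one {r : ℝ} (hr : r ∈ Ioo (-1:ℝ) 1) : addv 1 r = 1 := by
  have := addv_den (right_mem_Icc.2 (by norm_num : (-1:ℝ) ≤ 1)) hr
  rw [addv, div_eq_one_iff_eq this.ne']; ring

@[simp] theorem addv_zero (r : ℝ) : addv 0 r = r := by simp [addv]

theorem hasDerivAt_scale {s r : ℝ} (hs : s ∈ Icc (-1:ℝ) 1) (hr : r ∈ Ioo (-1:ℝ) 1) :
    HasDerivAt (fun t => (1 - t ^ 2) / (1 - r ^ 2 * t ^ 2))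
      (-2 * s * (1 - r ^ 2) / (1 - r ^ 2 * s ^ 2) ^ 2) s := by
  refine ((((hasDerivAt_id s).pow 2).const_sub 1).div
    ((((hasDerivAt_id s).pow 2).const_mul (r ^ 2)).const_sub 1) (D_pos hs hr).ne').congr_deriv ?_
  simp only [id, Nat.cast_ofNat, Pi.pow_apply]; ring

theorem hasDerivAt_mid {s r : ℝ} (hs : s ∈ Icc (-1:ℝ) 1) (hr : r ∈ Ioo (-1:ℝ) 1) :
    HasDerivAt (fun t => t * (1 - r ^ 2) / (1 - r ^ 2 * t ^ 2))
      ((1 - r ^ 2) * (1 + r ^ 2 * s ^ 2) / (1 - r ^ 2 * s ^ 2) ^ 2) s := by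
  refine (((hasDerivAt_id s).mul_const (1 - r ^ 2)).div
    ((((hasDerivAt_id s).pow 2).const_mul (r ^ 2)).const_sub 1) (D_pos hs hr).ne').congr_deriv ?_
  simp only [id, Nat.cast_ofNat, Pi.pow_apply]; ring

/-- `L` of the two endpoints dominates `(1-τ) L(r)`. -/
theorem Lbar_ge {s r : ℝ} (hs : s ∈ Ioo (-1:ℝ) 1) (hr0 : 0 < r) (hr1 : r < 1) :
    (1 - s ^ 2) / (1 - r ^ 2 * s ^ 2) * L r ≤ (L (addv s r) + L (addv s (-r))) / 2 := by
  have hr : r ∈ Ioo (-1:ℝ) 1 := ⟨by linarith, hr1⟩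
  have hr' : -r ∈ Ioo (-1:ℝ) 1 := ⟨by linarith, by linarith⟩
  suffices key : ∀ t ∈ Icc (0:ℝ) 1,
      0 ≤ (L (addv t r) + L (addv t (-r))) / 2 - (1 - t ^ 2) / (1 - r ^ 2 * t ^ 2) * L r by
    rcases le_total 0 s with h | h
    · linarith [key s ⟨h, hs.2.le⟩]
    · have := key (-s) ⟨by linarith, by linarith [hs.1]⟩
      rw [addv_neg, addv_neg, neg_neg, L_neg, L_neg, neg_sq] at this
      linarith
  intro t ht
  refine nonneg_of_quasiconcave
    (F := fun t => (L (addv t r) + L (addv t (-r))) / 2 - (1 - t ^ 2) / (1 - r ^ 2 * t ^ 2) * L r)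
    (m := fun t => t * ((1 - r ^ 2) / (1 - r ^ 2 * t ^ 2) ^ 2))
    (g := fun t => 2 * Lam r - A t / t * (1 + r ^ 2 * t ^ 2)) ?_ ?_ ?_ ?_ ?_ ?_ ht
  · refine (((continuous_L.comp_continuousOn (continuousOn_addv hr)).add
      (continuous_L.comp_continuousOn (continuousOn_addv hr'))).div_const 2).sub ?_
    exact fun x hx => ((hasDerivAt_scale ⟨by linarith [hx.1], hx.2⟩ hr).mul_const
      (L r)).continuousAt.continuousWithinAt
  · simp [L_neg]
  · simp [addv_one hr, addv_one hr']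
  · intro x hx
    have hx' : x ∈ Icc (-1:ℝ) 1 := ⟨by linarith [hx.1], hx.2.le⟩
    have hxo : x ∈ Ioo (-1:ℝ) 1 := ⟨by linarith [hx.1], hx.2⟩
    have m1 := addv_mem hxo hr
    have m2 := addv_mem hxo hr'
    refine ((((hasDerivAt_L m1.1 m1.2).comp x (hasDerivAt_addv hx' hr)).add
      ((hasDerivAt_L m2.1 m2.2).comp x (hasDerivAt_addv hx' hr'))).div_const 2 |>.sub
      ((hasDerivAt_scale hx' hr).mul_const (L r))).congr_deriv ?_
    rw [A_addv hxo hr, A_addv hxo hr', A_neg]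
    have d1 := addv_den hx' hr
    have d2 : 0 < 1 - x * r := by simpa [sub_eq_add_neg] using addv_den hx' hr'
    have e : 1 - r ^ 2 * x ^ 2 = (1 + x * r) * (1 - x * r) := by ring
    have := hx.1.ne'
    rw [e, Lam, show 1 + x * -r = 1 - x * r by ring]
    have n1 : 1 + r * x ≠ 0 := by rw [mul_comm]; exact d1.ne'
    have n2 : 1 - r * x ≠ 0 := by rw [mul_comm]; exact d2.ne'
    field_simp
    ring
  · intro x hx; have := D_pos ⟨by linarith [hx.1], hx.2.le⟩ hr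
    exact mul_nonneg hx.1.le (div_nonneg (one_sub_sq_pos (by linarith) hr1).le (sq_nonneg _))
  · intro x hx y hy hxy
    have := A_div_mono hx.1 hxy hy.2
    have h2 : 1 + r ^ 2 * x ^ 2 ≤ 1 + r ^ 2 * y ^ 2 := by
      nlinarith [pow_le_pow_left₀ hx.1.le hxy 2, sq_nonneg r]
    have h3 : 0 ≤ A x / x := div_nonneg (A_pos hx.1 hx.2).le hx.1.le
    have := mul_le_mul this h2 (by positivity) (h3.trans this)
    linarith

/-- The Jensen–Shannon term is at most `(1-τ) Phi r`. -/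
theorem JS_le {s r : ℝ} (hs : s ∈ Ioo (-1:ℝ) 1) (hr0 : 0 < r) (hr1 : r < 1) :
    L ((addv s r + addv s (-r)) / 2) - (L (addv s r) + L (addv s (-r))) / 2 ≤
      (1 - s ^ 2) / (1 - r ^ 2 * s ^ 2) * Phi r := by
  have hr : r ∈ Ioo (-1:ℝ) 1 := ⟨by linarith, hr1⟩
  have hr' : -r ∈ Ioo (-1:ℝ) 1 := ⟨by linarith, by linarith⟩
  rw [half_sum (Ioo_subset_Icc_self hs) hr]
  suffices key : ∀ t ∈ Icc (0:ℝ) 1,
      0 ≤ (1 - t ^ 2) / (1 - r ^ 2 * t ^ 2) * Phi r - L (t * (1 - r ^ 2) / (1 - r ^ 2 * t ^ 2))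
        + (L (addv t r) + L (addv t (-r))) / 2 by
    rcases le_total 0 s with h | h
    · linarith [key s ⟨h, hs.2.le⟩]
    · have := key (-s) ⟨by linarith, by linarith [hs.1]⟩
      rw [addv_neg, addv_neg, neg_neg, L_neg, L_neg, neg_sq, neg_mul, neg_div, L_neg] at this
      linarith
  intro t ht
  refine nonneg_of_quasiconcave
    (F := fun t => (1 - t ^ 2) / (1 - r ^ 2 * t ^ 2) * Phi r
      - L (t * (1 - r ^ 2) / (1 - r ^ 2 * t ^ 2)) + (L (addv t r) + L (addv t (-r))) / 2)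
    (m := fun t => t * ((1 - r ^ 2) / (1 - r ^ 2 * t ^ 2) ^ 2))
    (g := fun t => 2 * (Lam r - Real.log 2) - A (t * r ^ 2) / t * (1 + r ^ 2 * t ^ 2))
    ?_ ?_ ?_ ?_ ?_ ?_ ht
  · have c1 : ContinuousOn (fun t => (1 - t ^ 2) / (1 - r ^ 2 * t ^ 2) * Phi r) (Icc 0 1) :=
      fun x hx => ((hasDerivAt_scale ⟨by linarith [hx.1], hx.2⟩ hr).mul_const
        (Phi r)).continuousAt.continuousWithinAt
    have c2 : ContinuousOn (fun t => L (t * (1 - r ^ 2) / (1 - r ^ 2 * t ^ 2))) (Icc 0 1) :=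
      continuous_L.comp_continuousOn fun x hx =>
        (hasDerivAt_mid ⟨by linarith [hx.1], hx.2⟩ hr).continuousAt.continuousWithinAt
    exact (c1.sub c2).add (((continuous_L.comp_continuousOn (continuousOn_addv hr)).add
      (continuous_L.comp_continuousOn (continuousOn_addv hr'))).div_const 2)
  · simp [L_neg, Phi]
  · have hne : (1:ℝ) - r ^ 2 ≠ 0 := (one_sub_sq_pos hr.1 hr1).ne'
    simp [addv_one hr, addv_one hr', div_self hne]
  · intro x hx
    have hx' : x ∈ Icc (-1:ℝ) 1 := ⟨by linarith [hx.1], hx.2.le⟩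
    have hxo : x ∈ Ioo (-1:ℝ) 1 := ⟨by linarith [hx.1], hx.2⟩
    have m1 := addv_mem hxo hr
    have m2 := addv_mem hxo hr'
    have hD := D_pos hx' hr
    have hM : x * (1 - r ^ 2) / (1 - r ^ 2 * x ^ 2) ∈ Ioo (-1:ℝ) 1 := by
      rw [← half_sum hx' hr]
      constructor <;> linarith [m1.1, m2.1, m1.2, m2.2]
    have hxr : x * r ^ 2 ∈ Ioo (-1:ℝ) 1 := by
      have : r ^ 2 < 1 := by nlinarith
      constructor <;> nlinarith [hx.1, hx.2, sq_nonneg r]
    have hA : A x = A (x * (1 - r ^ 2) / (1 - r ^ 2 * x ^ 2)) + A (x * r ^ 2) := by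
      rw [← A_addv hM hxr]; congr 1
      have h2 : 0 < 1 - r ^ 4 * x ^ 2 := by
        nlinarith [hxr.1, hxr.2]
      have hden : (1 - r ^ 2 * x ^ 2) + x * (1 - r ^ 2) * (x * r ^ 2) = 1 - r ^ 4 * x ^ 2 := by ring
      rw [addv, div_mul_eq_mul_div, div_add' _ _ _ hD.ne', ← one_mul (1 - r ^ 2 * x ^ 2),
        one_mul, one_add_div hD.ne', div_div_div_cancel_right₀ hD.ne', hden, eq_div_iff h2.ne']
      ring
    refine ((((hasDerivAt_scale hx' hr).mul_const (Phi r)).sub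
      ((hasDerivAt_L hM.1 hM.2).comp x (hasDerivAt_mid hx' hr))).add
      (((hasDerivAt_L m1.1 m1.2).comp x (hasDerivAt_addv hx' hr)).add
      ((hasDerivAt_L m2.1 m2.2).comp x (hasDerivAt_addv hx' hr')) |>.div_const 2)).congr_deriv ?_
    rw [A_addv hxo hr, A_addv hxo hr', A_neg, hA]
    have d1 := addv_den hx' hr
    have d2 : 0 < 1 - x * r := by simpa [sub_eq_add_neg] using addv_den hx' hr'
    have e : 1 - r ^ 2 * x ^ 2 = (1 + x * r) * (1 - x * r) := by ring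
    have := hx.1.ne'
    generalize A (x * (1 - r ^ 2) / (1 - r ^ 2 * x ^ 2)) = AM
    rw [e, Lam, Phi, show 1 + x * -r = 1 - x * r by ring]
    field_simp
    ring
  · intro x hx; have := D_pos ⟨by linarith [hx.1], hx.2.le⟩ hr
    exact mul_nonneg hx.1.le (div_nonneg (one_sub_sq_pos (by linarith) hr1).le (sq_nonneg _))
  · intro x hx y hy hxy
    have hr2 : 0 < r ^ 2 := by positivity
    have hr2' : r ^ 2 < 1 := by nlinarith
    have ha : x * r ^ 2 < 1 := by nlinarith [hx.2]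
    have hb : y * r ^ 2 < 1 := by nlinarith [hy.2]
    have := A_div_mono (mul_pos hx.1 hr2) (mul_le_mul_of_nonneg_right hxy hr2.le) hb
    rw [div_mul_eq_div_div, div_mul_eq_div_div, div_le_div_iff_of_pos_right hr2] at this
    have h2 : 1 + r ^ 2 * x ^ 2 ≤ 1 + r ^ 2 * y ^ 2 := by
      nlinarith [pow_le_pow_left₀ hx.1.le hxy 2, sq_nonneg r]
    have h3 : 0 ≤ A (x * r ^ 2) / x := div_nonneg (A_pos (mul_pos hx.1 hr2) ha).le hx.1.le
    have := mul_le_mul this h2 (by positivity) (h3.trans this)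
    linarith

noncomputable def hh (a b : ℝ) : ℝ := (A a - A b) * (a - b) / 4

theorem hh_nonneg {a b : ℝ} (ha : a ∈ Ioo (-1:ℝ) 1) (hb : b ∈ Ioo (-1:ℝ) 1) : 0 ≤ hh a b := by
  unfold hh
  rcases le_total b a with h | h
  · have := A_strictMonoOn.monotoneOn hb ha h
    exact div_nonneg (mul_nonneg (by linarith) (by linarith)) (by norm_num)
  · have := A_strictMonoOn.monotoneOn ha hb h
    exact div_nonneg (mul_nonneg_of_nonpos_of_nonpos (by linarith) (by linarith)) (by norm_num)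

noncomputable def eta (r : ℝ) : ℝ := r ^ 2 / ((1 - r ^ 2) * Lam r)

theorem eta_pos {r : ℝ} (h0 : 0 < r) (h1 : r < 1) : 0 < eta r :=
  div_pos (by positivity) (mul_pos (one_sub_sq_pos (by linarith) h1) (Lam_pos h0.le h1))

theorem eta_mono {a b : ℝ} (ha : 0 < a) (hab : a ≤ b) (hb : b < 1) : eta a ≤ eta b := by
  have hd : ∀ x, 0 < x → x < 1 → HasDerivAt eta
      (x * (2 * Lam x - x ^ 2) / ((1 - x ^ 2) * Lam x) ^ 2) x := by
    intro x a b
    have hw := one_sub_sq_pos (by linarith : -1 < x) b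
    have hL := Lam_pos a.le b
    refine (((hasDerivAt_id x).pow 2).div ((((hasDerivAt_id x).pow 2).const_sub 1).mul
      (hasDerivAt_Lam (by linarith) b)) (mul_pos hw hL).ne').congr_deriv ?_
    simp only [id, Nat.cast_ofNat, Pi.pow_apply, Pi.mul_apply]; field_simp; ring
  have hm : MonotoneOn eta (Icc a b) := by
    apply monotoneOn_of_hasDerivWithinAt_nonneg (convex_Icc a b)
      (fun x hx => (hd x (ha.trans_le hx.1) (hx.2.trans_lt hb)).continuousAt.continuousWithinAt)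
      (fun x hx => (hd x (ha.trans_le (interior_subset hx).1)
        ((interior_subset hx).2.trans_lt hb)).hasDerivWithinAt)
    intro x hx
    have h0 := ha.trans_le (interior_subset hx).1
    have h1 := (interior_subset hx).2.trans_lt hb
    refine div_nonneg (mul_nonneg h0.le ?_) (sq_nonneg _)
    nlinarith [Lam_lb h0.le h1, log2_lb]
  exact hm (left_mem_Icc.2 hab) (right_mem_Icc.2 hab) hab

theorem phi_ge {r t : ℝ} (hr0 : 0 < r) (hr1 : r < 1) (ht0 : 0 < t) (ht1 : t < 1) :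
    A r + eta r * (L r / r) ≤ A t + eta r * (L t / t) := by
  set F := fun x => A x + eta r * (L x / x)
  have hd : ∀ x, 0 < x → x < 1 →
      HasDerivAt F ((eta x - eta r) * (Lam x / x ^ 2)) x := by
    intro x a b
    have hw := one_sub_sq_pos (by linarith : -1 < x) b
    have hL := Lam_pos a.le b
    refine ((hasDerivAt_A (by linarith) b).add (((hasDerivAt_L (by linarith) b).div
      (hasDerivAt_id x) a.ne').const_mul (eta r))).congr_deriv ?_
    simp only [id]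
    have : eta x * (Lam x / x ^ 2) = 1 / (1 - x ^ 2) := by rw [eta]; field_simp
    rw [sub_mul, this, Lam]; ring
  rcases le_total r t with h | h
  · have hm : MonotoneOn F (Icc r t) := by
      apply monotoneOn_of_hasDerivWithinAt_nonneg (convex_Icc r t)
        (fun x hx => (hd x (hr0.trans_le hx.1) (hx.2.trans_lt ht1)).continuousAt.continuousWithinAt)
        (fun x hx => (hd x (hr0.trans_le (interior_subset hx).1)
          ((interior_subset hx).2.trans_lt ht1)).hasDerivWithinAt)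
      intro x hx
      have a := hr0.trans_le (interior_subset hx).1
      have b := (interior_subset hx).2.trans_lt ht1
      exact mul_nonneg (sub_nonneg.2 (eta_mono hr0 (interior_subset hx).1 b))
        (div_nonneg (Lam_pos a.le b).le (sq_nonneg _))
    exact hm (left_mem_Icc.2 h) (right_mem_Icc.2 h) h
  · have hm : AntitoneOn F (Icc t r) := by
      apply antitoneOn_of_hasDerivWithinAt_nonpos (convex_Icc t r)
        (fun x hx => (hd x (ht0.trans_le hx.1) (hx.2.trans_lt hr1)).continuousAt.continuousWithinAt)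
        (fun x hx => (hd x (ht0.trans_le (interior_subset hx).1)
          ((interior_subset hx).2.trans_lt hr1)).hasDerivWithinAt)
      intro x hx
      have a := ht0.trans_le (interior_subset hx).1
      have b := (interior_subset hx).2.trans_lt hr1
      exact mul_nonpos_of_nonpos_of_nonneg (sub_nonpos.2 (eta_mono a (interior_subset hx).2 hr1))
        (div_nonneg (Lam_pos a.le b).le (sq_nonneg _))
    exact hm (left_mem_Icc.2 h) (right_mem_Icc.2 h) h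

/-- The linear lower bound for the pair kernel, tight at `(r, -r)`. -/
theorem hh_ge_linear {r a b : ℝ} (hr0 : 0 < r) (hr1 : r < 1) (ha : a ∈ Ioo (-1:ℝ) 1)
    (hb : b ∈ Ioo (-1:ℝ) 1) :
    (A r + eta r * (L r / r)) * ((a - b) / 2) - eta r * ((L a + L b) / 2) ≤ hh a b := by
  have he := eta_pos hr0 hr1
  have hLs : 0 ≤ (L a + L b) / 2 := by
    linarith [L_nonneg ha.1.le ha.2.le, L_nonneg hb.1.le hb.2.le]
  have hco : 0 ≤ A r + eta r * (L r / r) :=
    add_nonneg (A_pos hr0 hr1).le (mul_nonneg he.le (div_nonneg (L_nonneg (by linarith) hr1.le) hr0.le))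
  rcases le_or_gt a b with h | h
  · have := hh_nonneg ha hb
    nlinarith [mul_nonneg he.le hLs, mul_nonpos_of_nonneg_of_nonpos hco (by linarith : (a - b) / 2 ≤ 0)]
  · obtain ⟨hpa, hpb⟩ := exists_param ha hb
    set s := T ((A a + A b) / 2)
    set t := T ((A a - A b) / 2)
    have hq : 0 < (A a - A b) / 2 := by linarith [A_strictMonoOn hb ha h]
    have ht0 : 0 < t := T_pos hq
    have ht1 : t < 1 := (T_mem _).2
    have hAt : A t = (A a - A b) / 2 := A_T _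
    have hL := Lbar_ge (s := s) (T_mem _) ht0 ht1
    have hdl := half_diff (s := s) (r := t) (Ioo_subset_Icc_self (T_mem _)) (T_mem _)
    rw [← hpa, ← hpb] at hL hdl
    have hph := phi_ge hr0 hr1 ht0 ht1
    have e1 : L t / t * ((a - b) / 2) ≤ (L a + L b) / 2 := by
      rw [hdl]; refine le_trans (le_of_eq ?_) hL; field_simp
    have e2 : hh a b = A t * ((a - b) / 2) := by rw [hAt, hh]; ring
    have h3 := mul_le_mul_of_nonneg_right hph (by linarith : 0 ≤ (a - b) / 2)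
    have h4 := mul_le_mul_of_nonneg_left e1 he.le
    nlinarith

/-- Chi-square bound for the Bregman divergence of `Phi`. -/
theorem breg_le {a a₀ : ℝ} (ha : a ∈ Ioo (-1:ℝ) 1) (h0 : a₀ ∈ Ioo (-1:ℝ) 1) :
    Phi a - Phi a₀ - A a₀ * (a - a₀) ≤ (a - a₀) ^ 2 / (1 - a₀ ^ 2) := by
  have p1 : 0 < 1 + a := by linarith [ha.1]
  have p2 : 0 < 1 - a := by linarith [ha.2]
  have q1 : 0 < 1 + a₀ := by linarith [h0.1]
  have q2 : 0 < 1 - a₀ := by linarith [h0.2]
  have l1 := Real.log_le_sub_one_of_pos (div_pos p1 q1)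
  have l2 := Real.log_le_sub_one_of_pos (div_pos p2 q2)
  rw [Real.log_div p1.ne' q1.ne'] at l1
  rw [Real.log_div p2.ne' q2.ne'] at l2
  have e : Phi a - Phi a₀ - A a₀ * (a - a₀) =
      ((1 + a) * (Real.log (1 + a) - Real.log (1 + a₀)) +
        (1 - a) * (Real.log (1 - a) - Real.log (1 - a₀))) / 2 := by
    simp only [Phi, L, A]; ring
  have e2 : ((1 + a) * ((1 + a) / (1 + a₀) - 1) + (1 - a) * ((1 - a) / (1 - a₀) - 1)) / 2
      = (a - a₀) ^ 2 / (1 - a₀ ^ 2) := by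
    have : 1 - a₀ ^ 2 = (1 + a₀) * (1 - a₀) := by ring
    rw [this]; field_simp; ring
  rw [e, ← e2]
  have := mul_le_mul_of_nonneg_left l1 p1.le
  have := mul_le_mul_of_nonneg_left l2 p2.le
  linarith

theorem two_mul_div_one_sub_sq (u v : ℝ) (h1 : 1 - v ≠ 0) (h2 : 1 + v ≠ 0) :
    2 * (u / (1 - v ^ 2)) = u / (1 + v) + u / (1 - v) := by
  have : 1 - v ^ 2 = (1 + v) * (1 - v) := by ring
  rw [this]; field_simp; ring

theorem quad_cs {zp zm κ c : ℝ} (hκ0 : 0 ≤ κ) (hκ1 : κ ≤ 1) (p1 : 0 < 1 + c) (p2 : 0 < 1 - c) :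
    (zp ^ 2 + zm ^ 2 + 2 * κ * zp * zm) / 2 ≤ zp ^ 2 / (1 + c) + zm ^ 2 / (1 - c) := by
  have h1 : 2 * κ * zp * zm ≤ 2 * |zp| * |zm| := by
    calc 2 * κ * zp * zm = κ * (2 * (zp * zm)) := by ring
      _ ≤ κ * (2 * |zp * zm|) :=
          mul_le_mul_of_nonneg_left (by linarith [le_abs_self (zp * zm)]) hκ0
      _ ≤ 1 * (2 * |zp * zm|) := mul_le_mul_of_nonneg_right hκ1 (by positivity)
      _ = 2 * |zp| * |zm| := by rw [abs_mul]; ring
  rw [div_add_div _ _ p1.ne' p2.ne', div_le_div_iff₀ two_pos (mul_pos p1 p2)]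
  calc (zp ^ 2 + zm ^ 2 + 2 * κ * zp * zm) * ((1 + c) * (1 - c))
      ≤ (|zp| + |zm|) ^ 2 * ((1 + c) * (1 - c)) := by
        apply mul_le_mul_of_nonneg_right _ (mul_pos p1 p2).le
        rw [add_sq, sq_abs, sq_abs]; linarith
    _ ≤ (zp ^ 2 * (1 - c) + (1 + c) * zm ^ 2) * 2 := by
        nlinarith [sq_nonneg (|zp| * (1 - c) - |zm| * (1 + c)), sq_abs zp, sq_abs zm]

/-- Exact second-order expansion along the interpolation, with the cross term dropped by `κ ≤ 1`. -/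
theorem pointwise_kernel {d d0 c c0 κ : ℝ} (hκ0 : 0 ≤ κ) (hκ1 : κ ≤ 1) (p1 : 0 < 1 + c)
    (p2 : 0 < 1 - c) (q1 : 0 < 1 + c0) (q2 : 0 < 1 - c0) :
    0 ≤ d ^ 2 / (1 - c ^ 2) - d0 ^ 2 / (1 - c0 ^ 2) -
      (2 * d0 * (d - d0) / (1 - c0 ^ 2) + 2 * c0 * d0 ^ 2 * (c - c0) / (1 - c0 ^ 2) ^ 2) -
      ((d * (1 + c0) - d0 * (1 + c)) ^ 2 / (1 + c0) ^ 2 +
        (-(d * (1 - c0) - d0 * (1 - c))) ^ 2 / (1 - c0) ^ 2 +
        2 * κ * (d * (1 + c0) - d0 * (1 + c)) * (-(d * (1 - c0) - d0 * (1 - c))) /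
          (1 - c0 ^ 2)) / 4 := by
  set Cp := d * (1 + c0) - d0 * (1 + c) with hCp
  set Cm := -(d * (1 - c0) - d0 * (1 - c)) with hCm
  have id1 : d ^ 2 / (1 + c) = d0 ^ 2 / (1 + c0) +
      (2 * d0 * (d - d0) / (1 + c0) - d0 ^ 2 * (c - c0) / (1 + c0) ^ 2) +
      (Cp / (1 + c0)) ^ 2 / (1 + c) := by
    rw [hCp]; field_simp; ring
  have id2 : d ^ 2 / (1 - c) = d0 ^ 2 / (1 - c0) +
      (2 * d0 * (d - d0) / (1 - c0) + d0 ^ 2 * (c - c0) / (1 - c0) ^ 2) +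
      (Cm / (1 - c0)) ^ 2 / (1 - c) := by
    rw [hCm]; field_simp; ring
  have hcs := quad_cs (zp := Cp / (1 + c0)) (zm := Cm / (1 - c0)) hκ0 hκ1 p1 p2
  have s1 := two_mul_div_one_sub_sq (d ^ 2) c p2.ne' p1.ne'
  have s2 := two_mul_div_one_sub_sq (d0 ^ 2) c0 q2.ne' q1.ne'
  have s3 := two_mul_div_one_sub_sq (2 * d0 * (d - d0)) c0 q2.ne' q1.ne'
  have e : 1 - c0 ^ 2 = (1 + c0) * (1 - c0) := by ring
  have s4 : 2 * (2 * c0 * d0 ^ 2 * (c - c0) / (1 - c0 ^ 2) ^ 2) =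
      d0 ^ 2 * (c - c0) / (1 - c0) ^ 2 - d0 ^ 2 * (c - c0) / (1 + c0) ^ 2 := by
    rw [e]; field_simp; ring
  have s5 : (Cp / (1 + c0)) ^ 2 + (Cm / (1 - c0)) ^ 2 + 2 * κ * (Cp / (1 + c0)) * (Cm / (1 - c0))
      = Cp ^ 2 / (1 + c0) ^ 2 + Cm ^ 2 / (1 - c0) ^ 2 + 2 * κ * Cp * Cm / (1 - c0 ^ 2) := by
    rw [e]; field_simp
  linarith

theorem hasDerivAt_interp (a b t : ℝ) :
    HasDerivAt (fun x => x * a + (1 - x) * b) (a - b) t :=
  (((hasDerivAt_id t).mul_const a).add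
    (((hasDerivAt_id t).const_sub 1).mul_const b)).congr_deriv (by ring)

theorem interp_mem {a b t : ℝ} (ha : a ∈ Ioo (-1:ℝ) 1) (hb : b ∈ Ioo (-1:ℝ) 1)
    (ht : t ∈ Icc (0:ℝ) 1) : t * a + (1 - t) * b ∈ Ioo (-1:ℝ) 1 := by
  have := (convex_Ioo (-1:ℝ) 1) ha hb ht.1 (by linarith [ht.2] : 0 ≤ 1 - t) (by ring)
  simpa [smul_eq_mul] using this

theorem hasDerivAt_div_interp {a b t : ℝ} (h : 1 + (t * a + (1 - t) * b) ≠ 0)
    (hb : 1 + b ≠ 0) :
    HasDerivAt (fun x => x / ((1 + b) * (1 + (x * a + (1 - x) * b))))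
      (1 / (1 + (t * a + (1 - t) * b)) ^ 2) t := by
  refine ((hasDerivAt_id t).div (((hasDerivAt_interp a b t).const_add 1).const_mul (1 + b))
    (mul_ne_zero hb h)).congr_deriv ?_
  simp only [id]
  rw [div_eq_div_iff (pow_ne_zero 2 (mul_ne_zero hb h)) (pow_ne_zero 2 h)]
  ring

/-- The second-order part of the interpolation comparison. -/
noncomputable def Tot (a b a₀ b₀ κ : ℝ) (t : ℝ) : ℝ :=
  (a - b) * A (t * a + (1 - t) * b) - (a₀ - b₀) * A (t * a₀ + (1 - t) * b₀) -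
    (((a - a₀) - (b - b₀)) * A (t * a₀ + (1 - t) * b₀) +
      (a₀ - b₀) * ((b - b₀) + t * ((a - a₀) - (b - b₀))) / (1 - (t * a₀ + (1 - t) * b₀) ^ 2)) -
    (((a - a₀) * (1 + b₀) - (b - b₀) * (1 + a₀)) ^ 2 *
        (t / ((1 + b₀) * (1 + (t * a₀ + (1 - t) * b₀)))) +
      (-(a - a₀) * (1 - b₀) + (b - b₀) * (1 - a₀)) ^ 2 *
        (t / ((1 + -b₀) * (1 + (t * -a₀ + (1 - t) * -b₀)))) +
      2 * κ * ((a - a₀) * (1 + b₀) - (b - b₀) * (1 + a₀)) *
        (-(a - a₀) * (1 - b₀) + (b - b₀) * (1 - a₀)) *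
        (A (t * a₀ + (1 - t) * b₀) / (a₀ - b₀))) / 4

theorem Tot_mono {a b a₀ b₀ κ : ℝ} (ha : a ∈ Ioo (-1:ℝ) 1) (hb : b ∈ Ioo (-1:ℝ) 1)
    (ha0 : a₀ ∈ Ioo (-1:ℝ) 1) (hb0 : b₀ ∈ Ioo (-1:ℝ) 1) (hd : a₀ - b₀ ≠ 0)
    (hκ0 : 0 ≤ κ) (hκ1 : κ ≤ 1) : Tot a b a₀ b₀ κ 0 ≤ Tot a b a₀ b₀ κ 1 := by
  have hder : ∀ t ∈ Icc (0:ℝ) 1, ∃ v, 0 ≤ v ∧ HasDerivAt (Tot a b a₀ b₀ κ) v t := by
    intro t ht
    have m1 := interp_mem ha hb ht
    have m2 := interp_mem ha0 hb0 ht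
    have n2 : t * -a₀ + (1 - t) * -b₀ = -(t * a₀ + (1 - t) * b₀) := by ring
    have q1 : 0 < 1 + (t * a₀ + (1 - t) * b₀) := by linarith [m2.1]
    have q2 : 0 < 1 - (t * a₀ + (1 - t) * b₀) := by linarith [m2.2]
    have dA := (hasDerivAt_A m1.1 m1.2).comp t (hasDerivAt_interp a b t)
    have dA0 := (hasDerivAt_A m2.1 m2.2).comp t (hasDerivAt_interp a₀ b₀ t)
    have dl : HasDerivAt
        (fun x => (a₀ - b₀) * ((b - b₀) + x * ((a - a₀) - (b - b₀))))
        ((a₀ - b₀) * ((a - a₀) - (b - b₀))) t :=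
      ((((hasDerivAt_id t).mul_const _).const_add _).const_mul _).congr_deriv (by ring)
    have dw := dl.div (((hasDerivAt_interp a₀ b₀ t).pow 2).const_sub 1)
      (one_sub_sq_pos m2.1 m2.2).ne'
    have dp := hasDerivAt_div_interp (a := a₀) (b := b₀) q1.ne' (by linarith [hb0.1])
    have dm := hasDerivAt_div_interp (a := -a₀) (b := -b₀) (t := t)
      (by rw [n2]; exact (by linarith : (0:ℝ) < 1 + -(t * a₀ + (1 - t) * b₀)).ne')
      (by linarith [hb0.2])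
    rw [n2, ← sub_eq_add_neg] at dm
    have hp := pointwise_kernel (d := a - b) (d0 := a₀ - b₀) (c := t * a + (1 - t) * b)
      hκ0 hκ1 (by linarith [m1.1]) (by linarith [m1.2]) q1 q2
    rw [show a - b - (a₀ - b₀) = (a - a₀) - (b - b₀) by ring,
      show t * a + (1 - t) * b - (t * a₀ + (1 - t) * b₀) =
        (b - b₀) + t * ((a - a₀) - (b - b₀)) by ring,
      show (a - b) * (1 + (t * a₀ + (1 - t) * b₀)) - (a₀ - b₀) * (1 + (t * a + (1 - t) * b)) =
        (a - a₀) * (1 + b₀) - (b - b₀) * (1 + a₀) by ring,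
      show -((a - b) * (1 - (t * a₀ + (1 - t) * b₀)) - (a₀ - b₀) * (1 - (t * a + (1 - t) * b))) =
        -(a - a₀) * (1 - b₀) + (b - b₀) * (1 - a₀) by ring] at hp
    refine ⟨_, hp, ((((dA.const_mul (a - b)).sub (dA0.const_mul (a₀ - b₀))).sub
      ((dA0.const_mul _).add dw)).sub
      ((((dp.const_mul _).add (dm.const_mul _)).add
        ((dA0.div_const _).const_mul _)).div_const 4)).congr_deriv ?_⟩
    have w1 := (one_sub_sq_pos m1.1 m1.2).ne'
    have w2 := (one_sub_sq_pos m2.1 m2.2).ne'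
    revert w1 w2
    simp only [Nat.cast_ofNat, Pi.pow_apply]
    generalize (a - a₀) * (1 + b₀) - (b - b₀) * (1 + a₀) = Cp
    generalize -(a - a₀) * (1 - b₀) + (b - b₀) * (1 - a₀) = Cm
    generalize t * a₀ + (1 - t) * b₀ = c0
    generalize t * a + (1 - t) * b = c
    generalize b - b₀ + t * (a - a₀ - (b - b₀)) = ell
    generalize a - a₀ - (b - b₀) = g
    generalize hD0 : a₀ - b₀ = D0
    intro w1 w2
    have : D0 ≠ 0 := hD0 ▸ hd
    field_simp
    ring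
  choose v hv0 hv using hder
  have hm : MonotoneOn (Tot a b a₀ b₀ κ) (Icc 0 1) :=
    monotoneOn_of_deriv_nonneg (convex_Icc 0 1)
      (fun t ht => (hv t ht).continuousAt.continuousWithinAt)
      (fun t ht => (hv t (interior_subset ht)).differentiableAt.differentiableWithinAt)
      (fun t ht => (hv t (interior_subset ht)).deriv ▸ hv0 t (interior_subset ht))
  exact hm (left_mem_Icc.2 zero_le_one) (right_mem_Icc.2 zero_le_one) zero_le_one

/-- Strong convexity of the pair kernel at an off-diagonal point. -/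
theorem hh_strong_convex {a b a₀ b₀ : ℝ} (ha : a ∈ Ioo (-1:ℝ) 1) (hb : b ∈ Ioo (-1:ℝ) 1)
    (ha0 : a₀ ∈ Ioo (-1:ℝ) 1) (hb0 : b₀ ∈ Ioo (-1:ℝ) 1) (hlt : b₀ < a₀) :
    hh a₀ b₀ + (((a - a₀) - (b - b₀)) * (A a₀ - A b₀) +
        (a₀ - b₀) * ((a - a₀) / (1 - a₀ ^ 2) - (b - b₀) / (1 - b₀ ^ 2))) / 4 +
      ((a₀ - b₀) / 2) ^ 2 / (1 - a₀ * b₀) / 2 *
        ((a - a₀) ^ 2 / (1 - a₀ ^ 2) + (b - b₀) ^ 2 / (1 - b₀ ^ 2)) ≤ hh a b := by
  have hd0p : 0 < a₀ - b₀ := by linarith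
  have hPp : 0 < 1 - a₀ * b₀ := by nlinarith [ha0.1, ha0.2, hb0.1, hb0.2]
  have hApos : 0 < A a₀ - A b₀ := by linarith [A_strictMonoOn hb0 ha0 hlt]
  have hnb : -b₀ ∈ Ioo (-1:ℝ) 1 := ⟨by linarith [hb0.2], by linarith [hb0.1]⟩
  have hI : a₀ - b₀ ≤ (1 - a₀ * b₀) * (A a₀ - A b₀) := by
    have hz0 : (a₀ - b₀) / (1 - a₀ * b₀) = addv a₀ (-b₀) := by rw [addv]; ring
    have hm : addv a₀ (-b₀) ∈ Ioo (-1:ℝ) 1 := addv_mem ha0 hnb
    have := le_A (r := addv a₀ (-b₀)) (by rw [← hz0]; positivity) hm.2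
    rw [A_addv ha0 hnb, A_neg, ← hz0, div_le_iff₀ hPp] at this
    linarith
  set κ := (a₀ - b₀) / ((1 - a₀ * b₀) * (A a₀ - A b₀)) with hκ
  have hκ1 : κ ≤ 1 := (div_le_one (by positivity)).2 hI
  have h01 := Tot_mono (κ := κ) ha hb ha0 hb0 hd0p.ne' (by positivity) hκ1
  simp only [Tot, one_mul, zero_mul, sub_self, sub_zero, zero_add, add_zero, mul_zero,
    zero_div] at h01
  rw [show 1 + -b₀ = 1 - b₀ by ring, show 1 + -a₀ = 1 - a₀ by ring] at h01
  have r1 : 0 < 1 + b₀ := by linarith [hb0.1]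
  have r2 : 0 < 1 - b₀ := by linarith [hb0.2]
  have r3 : 0 < 1 + a₀ := by linarith [ha0.1]
  have r4 : 0 < 1 - a₀ := by linarith [ha0.2]
  have e1 : 2 * κ * ((a - a₀) * (1 + b₀) - (b - b₀) * (1 + a₀)) *
      (-(a - a₀) * (1 - b₀) + (b - b₀) * (1 - a₀)) * ((A a₀ - A b₀) / (a₀ - b₀)) =
      2 * ((a - a₀) * (1 + b₀) - (b - b₀) * (1 + a₀)) *
        (-(a - a₀) * (1 - b₀) + (b - b₀) * (1 - a₀)) / (1 - a₀ * b₀) := by
    rw [hκ]; field_simp
  have key : ((a - a₀) * (1 + b₀) - (b - b₀) * (1 + a₀)) ^ 2 / ((1 + b₀) * (1 + a₀)) +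
      (-(a - a₀) * (1 - b₀) + (b - b₀) * (1 - a₀)) ^ 2 / ((1 - b₀) * (1 - a₀)) +
      2 * ((a - a₀) * (1 + b₀) - (b - b₀) * (1 + a₀)) *
        (-(a - a₀) * (1 - b₀) + (b - b₀) * (1 - a₀)) / (1 - a₀ * b₀) =
      16 * (((a₀ - b₀) / 2) ^ 2 / (1 - a₀ * b₀) / 2 *
        ((a - a₀) ^ 2 / (1 - a₀ ^ 2) + (b - b₀) ^ 2 / (1 - b₀ ^ 2))) := by
    rw [show 1 - a₀ ^ 2 = (1 + a₀) * (1 - a₀) by ring,
      show 1 - b₀ ^ 2 = (1 + b₀) * (1 - b₀) by ring]
    field_simp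
    ring
  rw [← sub_nonneg] at h01
  simp only [hh]
  linear_combination (1/4 : ℝ) * h01 - (1/16 : ℝ) * (key + e1)

end Vale.Agent.CK
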