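import Mathlib

/-!
Polynomial inequalities in `w = 1 - r^2` and `t = tau` used for the two-point inequality.
Each is certified by nonnegative Bernstein coefficients in local charts.
-/

namespace Vale.Agent.CK

noncomputable def mm (w t : ℝ) : ℝ := t * (w + (1 - w) * t)
noncomputable def vv (w t : ℝ) : ℝ := (1 + (1 - w) * t) * (1 - 1 / 8 * mm w t)
noncomputable def vone (w t : ℝ) : ℝ :=
  (1 - w) - 1 / 8 * (w + (1 - w) * t) * (1 + (1 - w) * t)
noncomputable def cone (w t : ℝ) : ℝ :=
  1 + 1 / 8 - 1 / 8 * (6 * mm w t + (1 - w) * (1 - t) * (1 - t))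
noncomputable def ctwo (w t : ℝ) : ℝ :=
  1 + 1 / 8 - 2 * (1 / 8) * (3 * mm w t + (1 - w) * (1 - t) * (1 - t))
noncomputable def om (w t : ℝ) : ℝ := (1 - w) * (1 - t) * cone w t
noncomputable def gUp (w : ℝ) : ℝ := (1 - w) + w * (6932 / 10000)
noncomputable def NN (w : ℝ) : ℝ := 15 - 4 * (1 - w)
noncomputable def DE (w : ℝ) : ℝ := 15 - 9 * (1 - w)

noncomputable def Z0 (w t : ℝ) : ℝ :=
  w * (DE w * ((1 - w) - gUp w * vv w t - 1 / 2 * vone w t * w) + gUp w * (w * NN w)) +
    (1 - w) * (DE w * (t * ((1 - w) - gUp w * om w t) + 1 / 2 * w * (1 - om w t)) -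
      1 / 2 * w * (w * NN w))

noncomputable def ZZ (w t : ℝ) : ℝ :=
  NN w * Z0 w t -
    DE w * (1 - w) * (6932 / 10000) * w * (1 - t) * ctwo w t * ((vv w t - om w t) * DE w - w * NN w)

noncomputable def yCF (w t : ℝ) : ℝ :=
  6931 / 10000 * (1 - (1 - w) * (1 - w) - (vv w t - om w t)) - 1 / 2 * (1 - w) * w

theorem Z0_eq (w t : ℝ) : Z0 w t =
    (9/2) * t^2 +
    (27/4) * t^3 +
    (-21/4) * t^4 +
    (-1662/625) * w^1 * t^1 +
    (18111/2500) * w^1 * t^2 +
    (-185709/10000) * w^1 * t^3 +
    (94857/10000) * w^1 * t^4 +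
    (4829/5000) * w^2 +
    (3801/2000) * w^2 * t^1 +
    (-98991/5000) * w^2 * t^2 +
    (-1113/20000) * w^2 * t^3 +
    (109179/20000) * w^2 * t^4 +
    (-15511/10000) * w^3 +
    (57873/20000) * w^3 * t^1 +
    (-16347/2000) * w^3 * t^2 +
    (23496/625) * w^3 * t^3 +
    (-415821/20000) * w^3 * t^4 +
    (20853/10000) * w^4 +
    (-113607/20000) * w^4 * t^1 +
    (53727/2000) * w^4 * t^2 +
    (-689733/20000) * w^4 * t^3 +
    (270249/20000) * w^4 * t^4 +
    (-9/16) * w^5 +
    (96903/20000) * w^5 * t^1 +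
    (-53181/5000) * w^5 * t^2 +
    (5481/625) * w^5 * t^3 +
    (-48321/20000) * w^5 * t^4 := by
  unfold Z0 DE gUp NN om vv vone cone mm
  ring

theorem ZZ_eq (w t : ℝ) : ZZ w t =
    (99/2) * t^2 +
    (297/4) * t^3 +
    (-231/4) * t^4 +
    (-1349277/20000) * w^1 * t^1 +
    (1844589/20000) * w^1 * t^2 +
    (-161157/2000) * w^1 * t^3 +
    (677457/10000) * w^1 * t^4 +
    (-15597/250) * w^1 * t^5 +
    (15597/625) * w^1 * t^6 +
    (1261991/40000) * w^2 +
    (-2786637/40000) * w^2 * t^1 +
    (-94269/800) * w^2 * t^2 +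
    (-239757/20000) * w^2 * t^3 +
    (-46383/800) * w^2 * t^4 +
    (265149/2500) * w^2 * t^5 +
    (-15597/625) * w^2 * t^6 +
    (-543553/40000) * w^3 +
    (6008823/80000) * w^3 * t^1 +
    (5734191/80000) * w^3 * t^2 +
    (-1669149/20000) * w^3 * t^3 +
    (-316353/2500) * w^3 * t^4 +
    (46791/200) * w^3 * t^5 +
    (-46791/500) * w^3 * t^6 +
    (-4637569/160000) * w^4 +
    (20194269/160000) * w^4 * t^1 +
    (255771/4000) * w^4 * t^2 +
    (-15912651/40000) * w^4 * t^3 +
    (3263499/5000) * w^4 * t^4 +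
    (-951417/2000) * w^4 * t^5 +
    (15597/125) * w^4 * t^6 +
    (256233/20000) * w^5 +
    (12113451/160000) * w^5 * t^1 +
    (-78186327/160000) * w^5 * t^2 +
    (29373591/40000) * w^5 * t^3 +
    (-5720529/20000) * w^5 * t^4 +
    (-202761/2000) * w^5 * t^5 +
    (15597/250) * w^5 * t^6 +
    (1683207/160000) * w^6 +
    (-3763503/40000) * w^6 * t^1 +
    (30485259/160000) * w^6 * t^2 +
    (7750521/80000) * w^6 * t^3 +
    (-11844243/20000) * w^6 * t^4 +
    (1076193/2000) * w^6 * t^5 +
    (-93582/625) * w^6 * t^6 +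
    (140373/80000) * w^7 +
    (-421119/16000) * w^7 * t^1 +
    (11089467/80000) * w^7 * t^2 +
    (-26530497/80000) * w^7 * t^3 +
    (8001261/20000) * w^7 * t^4 +
    (-2386341/10000) * w^7 * t^5 +
    (140373/2500) * w^7 * t^6 := by
  unfold ZZ
  rw [Z0_eq]
  unfold DE NN ctwo om vv cone mm
  ring

theorem z0_chartA {a b : ℝ} (ha : 0 ≤ a) (ha1 : a ≤ 1) (hb : 0 ≤ b) (hb1 : b ≤ 1) :
    0 ≤ Z0 a (a * b) := by
  have key : Z0 a (a * b) = a^2 * (
      (1-b)^4 * (
        (4829/5000) * (1-a)^7 +
        (10419/2000) * a^1 * (1-a)^6 +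
        (26121/2000) * a^2 * (1-a)^5 +
        (40801/2000) * a^3 * (1-a)^4 +
        (2673/125) * a^4 * (1-a)^3 +
        (144933/10000) * a^5 * (1-a)^2 +
        (11261/2000) * a^6 * (1-a)^1 +
        (15/16) * a^7) +
      b^1 * (1-b)^3 * (
        (301/250) * (1-a)^7 +
        (41241/10000) * a^1 * (1-a)^6 +
        (213909/20000) * a^2 * (1-a)^5 +
        (129127/5000) * a^3 * (1-a)^4 +
        (166137/4000) * a^4 * (1-a)^3 +
        (800547/20000) * a^5 * (1-a)^2 +
        (215929/10000) * a^6 * (1-a)^1 +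
        (20199/4000) * a^7) +
      b^2 * (1-b)^2 * (
        (5793/2500) * (1-a)^7 +
        (198597/10000) * a^1 * (1-a)^6 +
        (1437831/20000) * a^2 * (1-a)^5 +
        (1140747/10000) * a^3 * (1-a)^4 +
        (379497/4000) * a^4 * (1-a)^3 +
        (1184391/20000) * a^5 * (1-a)^2 +
        (20997/625) * a^6 * (1-a)^1 +
        (38097/4000) * a^7) +
      b^3 * (1-b)^1 * (
        (6107/1250) * (1-a)^7 +
        (549351/10000) * a^1 * (1-a)^6 +
        (3717357/20000) * a^2 * (1-a)^5 +
        (4812301/20000) * a^3 * (1-a)^4 +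
        (4395/32) * a^4 * (1-a)^3 +
        (99663/2000) * a^5 * (1-a)^2 +
        (249337/10000) * a^6 * (1-a)^1 +
        (30597/4000) * a^7) +
      b^4 * (
        (14033/5000) * (1-a)^7 +
        (3399/100) * a^1 * (1-a)^6 +
        (85089/800) * a^2 * (1-a)^5 +
        (2304019/20000) * a^3 * (1-a)^4 +
        (107043/2000) * a^4 * (1-a)^3 +
        (8073/500) * a^5 * (1-a)^2 +
        (73009/10000) * a^6 * (1-a)^1 +
        (8949/4000) * a^7)) := by
    rw [Z0_eq]
    ring
  rw [key]
  have : 0 ≤ 1 - a := sub_nonneg.2 ha1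
  have : 0 ≤ 1 - b := sub_nonneg.2 hb1
  positivity

theorem z0_chartB {a b : ℝ} (ha : 0 ≤ a) (ha1 : a ≤ 1) (hb : 0 ≤ b) (hb1 : b ≤ 1) :
    0 ≤ Z0 (a * b) b := by
  have key : Z0 (a * b) b = b^2 * (
      (1-b)^7 * (
        (9/2) * (1-a)^6 +
        (15213/625) * a^1 * (1-a)^5 +
        (275849/5000) * a^2 * (1-a)^4 +
        (84089/1250) * a^3 * (1-a)^3 +
        (116757/2500) * a^4 * (1-a)^2 +
        (21959/1250) * a^5 * (1-a)^1 +
        (14033/5000) * a^6) +
      b^1 * (1-b)^6 * (
        (153/4) * (1-a)^6 +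
        (21813/100) * a^1 * (1-a)^5 +
        (5255611/10000) * a^2 * (1-a)^4 +
        (6843933/10000) * a^3 * (1-a)^3 +
        (5073633/10000) * a^4 * (1-a)^2 +
        (2026411/10000) * a^5 * (1-a)^1 +
        (3399/100) * a^6) +
      b^2 * (1-b)^5 * (
        (519/4) * (1-a)^6 +
        (7475523/10000) * a^1 * (1-a)^5 +
        (18033981/10000) * a^2 * (1-a)^4 +
        (46533129/20000) * a^3 * (1-a)^3 +
        (33818781/20000) * a^4 * (1-a)^2 +
        (13124793/20000) * a^5 * (1-a)^1 +
        (85089/800) * a^6) +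
      b^3 * (1-b)^4 * (
        (465/2) * (1-a)^6 +
        (3318063/2500) * a^1 * (1-a)^5 +
        (62237797/20000) * a^2 * (1-a)^4 +
        (76166713/20000) * a^3 * (1-a)^3 +
        (1271583/500) * a^4 * (1-a)^2 +
        (17343919/20000) * a^5 * (1-a)^1 +
        (2304019/20000) * a^6) +
      b^4 * (1-b)^3 * (
        240 * (1-a)^6 +
        (6720249/5000) * a^1 * (1-a)^5 +
        (59986327/20000) * a^2 * (1-a)^4 +
        (6719163/2000) * a^3 * (1-a)^3 +
        (3896679/2000) * a^4 * (1-a)^2 +
        (10750921/20000) * a^5 * (1-a)^1 +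
        (107043/2000) * a^6) +
      b^5 * (1-b)^2 * (
        (573/4) * (1-a)^6 +
        (97941/125) * a^1 * (1-a)^5 +
        (6542961/4000) * a^2 * (1-a)^4 +
        (6485199/4000) * a^3 * (1-a)^3 +
        (61509/80) * a^4 * (1-a)^2 +
        (159171/1000) * a^5 * (1-a)^1 +
        (8073/500) * a^6) +
      b^6 * (1-b)^1 * (
        (183/4) * (1-a)^6 +
        (2444403/10000) * a^1 * (1-a)^5 +
        (9425567/20000) * a^2 * (1-a)^4 +
        (1597507/4000) * a^3 * (1-a)^3 +
        (1414479/10000) * a^4 * (1-a)^2 +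
        (219601/10000) * a^5 * (1-a)^1 +
        (73009/10000) * a^6) +
      b^7 * (
        6 * (1-a)^6 +
        (63/2) * a^1 * (1-a)^5 +
        (279857/5000) * a^2 * (1-a)^4 +
        (97143/2500) * a^3 * (1-a)^3 +
        (160749/20000) * a^4 * (1-a)^2 +
        (18889/10000) * a^5 * (1-a)^1 +
        (8949/4000) * a^6)) := by
    rw [Z0_eq]
    ring
  rw [key]
  have : 0 ≤ 1 - a := sub_nonneg.2 ha1
  have : 0 ≤ 1 - b := sub_nonneg.2 hb1
  positivity

set_option maxRecDepth 10000 in
set_option maxHeartbeats 2000000 in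
theorem zz_chartA {a b : ℝ} (ha : 0 ≤ a) (ha1 : a ≤ 1) (hb : 0 ≤ b) (hb1 : b ≤ 1) :
    0 ≤ ZZ a (a * b) := by
  have key : ZZ a (a * b) = a^2 * (
      (1-b)^9 * (
        (1261991/40000) * (1-a)^12 +
        (14600339/40000) * a^1 * (1-a)^11 +
        (304611723/160000) * a^2 * (1-a)^10 +
        (473322297/80000) * a^3 * (1-a)^9 +
        (975719289/80000) * a^4 * (1-a)^8 +
        (1405765377/80000) * a^5 * (1-a)^7 +
        (181701681/10000) * a^6 * (1-a)^6 +
        (1091636139/80000) * a^7 * (1-a)^5 +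
        (596648097/80000) * a^8 * (1-a)^4 +
        (235786549/80000) * a^9 * (1-a)^3 +
        (5268557/6400) * a^10 * (1-a)^2 +
        (7551/50) * a^11 * (1-a)^1 +
        (225/16) * a^12) +
      b^1 * (1-b)^8 * (
        (1731873/8000) * (1-a)^12 +
        (48116883/20000) * a^1 * (1-a)^11 +
        (1918492869/160000) * a^2 * (1-a)^10 +
        (1134476883/32000) * a^3 * (1-a)^9 +
        (2778821451/40000) * a^4 * (1-a)^8 +
        (7663680837/80000) * a^5 * (1-a)^7 +
        (7745546457/80000) * a^6 * (1-a)^6 +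
        (2965150701/40000) * a^7 * (1-a)^5 +
        (176105871/4000) * a^8 * (1-a)^4 +
        (1617962547/80000) * a^9 * (1-a)^3 +
        (1087609209/160000) * a^10 * (1-a)^2 +
        (46702689/32000) * a^11 * (1-a)^1 +
        (116847/800) * a^12) +
      b^2 * (1-b)^7 * (
        (6455811/10000) * (1-a)^12 +
        (135853551/20000) * a^1 * (1-a)^11 +
        (1262027739/40000) * a^2 * (1-a)^10 +
        (6838409739/80000) * a^3 * (1-a)^9 +
        (12145390191/80000) * a^4 * (1-a)^8 +
        (30700207353/160000) * a^5 * (1-a)^7 +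
        (15088973289/80000) * a^6 * (1-a)^6 +
        (25207224561/160000) * a^7 * (1-a)^5 +
        (9109429869/80000) * a^8 * (1-a)^4 +
        (10456814907/160000) * a^9 * (1-a)^3 +
        (2090785581/80000) * a^10 * (1-a)^2 +
        (199724457/32000) * a^11 * (1-a)^1 +
        (33111/50) * a^12) +
      b^3 * (1-b)^6 * (
        (11076933/10000) * (1-a)^12 +
        (218401371/20000) * a^1 * (1-a)^11 +
        (1831037133/40000) * a^2 * (1-a)^10 +
        (8475837483/80000) * a^3 * (1-a)^9 +
        (12038859909/80000) * a^4 * (1-a)^8 +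
        (24037674579/160000) * a^5 * (1-a)^7 +
        (11810070087/80000) * a^6 * (1-a)^6 +
        (28382550381/160000) * a^7 * (1-a)^5 +
        (15062987691/80000) * a^8 * (1-a)^4 +
        (21773021877/160000) * a^9 * (1-a)^3 +
        (4887301311/80000) * a^10 * (1-a)^2 +
        (496805577/32000) * a^11 * (1-a)^1 +
        (345429/200) * a^12) +
      b^4 * (1-b)^5 * (
        (24735921/20000) * (1-a)^12 +
        (116103873/10000) * a^1 * (1-a)^11 +
        (3489922341/80000) * a^2 * (1-a)^10 +
        (6395794233/80000) * a^3 * (1-a)^9 +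
        (1060715229/16000) * a^4 * (1-a)^8 +
        (2788027641/160000) * a^5 * (1-a)^7 +
        (3923820213/80000) * a^6 * (1-a)^6 +
        (28718469357/160000) * a^7 * (1-a)^5 +
        (20795946699/80000) * a^8 * (1-a)^4 +
        (32728186371/160000) * a^9 * (1-a)^3 +
        (3791654571/40000) * a^10 * (1-a)^2 +
        (793057809/32000) * a^11 * (1-a)^1 +
        (572733/200) * a^12) +
      b^5 * (1-b)^4 * (
        (19706043/20000) * (1-a)^12 +
        (191531997/20000) * a^1 * (1-a)^11 +
        (2903727579/80000) * a^2 * (1-a)^10 +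
        (2645452341/40000) * a^3 * (1-a)^9 +
        (4924275009/80000) * a^4 * (1-a)^8 +
        (1831389519/32000) * a^5 * (1-a)^7 +
        (11487517989/80000) * a^6 * (1-a)^6 +
        (44902908669/160000) * a^7 * (1-a)^5 +
        (25524350607/80000) * a^8 * (1-a)^4 +
        (35981250813/160000) * a^9 * (1-a)^3 +
        (400808817/4000) * a^10 * (1-a)^2 +
        (168657159/6400) * a^11 * (1-a)^1 +
        (250929/80) * a^12) +
      b^6 * (1-b)^3 * (
        (1209411/2000) * (1-a)^12 +
        (138534873/20000) * a^1 * (1-a)^11 +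
        (1269669231/40000) * a^2 * (1-a)^10 +
        (1289155173/16000) * a^3 * (1-a)^9 +
        (11617462317/80000) * a^4 * (1-a)^8 +
        (7432282287/32000) * a^5 * (1-a)^7 +
        (26458256907/80000) * a^6 * (1-a)^6 +
        (58668894123/160000) * a^7 * (1-a)^5 +
        (4740051363/16000) * a^8 * (1-a)^4 +
        (27714720369/160000) * a^9 * (1-a)^3 +
        (5721217827/80000) * a^10 * (1-a)^2 +
        (597729459/32000) * a^11 * (1-a)^1 +
        (56826/25) * a^12) +
      b^7 * (1-b)^2 * (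
        (2863041/10000) * (1-a)^12 +
        (80927481/20000) * a^1 * (1-a)^11 +
        (896517609/40000) * a^2 * (1-a)^10 +
        (5645104989/80000) * a^3 * (1-a)^9 +
        (12324686871/80000) * a^4 * (1-a)^8 +
        (8122208229/32000) * a^5 * (1-a)^7 +
        (24860036013/80000) * a^6 * (1-a)^6 +
        (43888307487/160000) * a^7 * (1-a)^5 +
        (14127389409/80000) * a^8 * (1-a)^4 +
        (13907033727/160000) * a^9 * (1-a)^3 +
        (2640986121/80000) * a^10 * (1-a)^2 +
        (272481387/32000) * a^11 * (1-a)^1 +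
        (210429/200) * a^12) +
      b^8 * (1-b)^1 * (
        (3629487/40000) * (1-a)^12 +
        (60013017/40000) * a^1 * (1-a)^11 +
        (1481259267/160000) * a^2 * (1-a)^10 +
        (1276661829/40000) * a^3 * (1-a)^9 +
        (2935651917/40000) * a^4 * (1-a)^8 +
        (19065212769/160000) * a^5 * (1-a)^7 +
        (10795730319/80000) * a^6 * (1-a)^6 +
        (3373864557/32000) * a^7 * (1-a)^5 +
        (586337607/10000) * a^8 * (1-a)^4 +
        (4037647527/160000) * a^9 * (1-a)^3 +
        (1425022767/160000) * a^10 * (1-a)^2 +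
        (72518547/32000) * a^11 * (1-a)^1 +
        (113013/400) * a^12) +
      b^9 * (
        (543437/40000) * (1-a)^12 +
        (1231279/5000) * a^1 * (1-a)^11 +
        (256336557/160000) * a^2 * (1-a)^10 +
        (917172861/160000) * a^3 * (1-a)^9 +
        (213597417/16000) * a^4 * (1-a)^8 +
        (3393364959/160000) * a^5 * (1-a)^7 +
        (181722363/8000) * a^6 * (1-a)^6 +
        (2612813763/160000) * a^7 * (1-a)^5 +
        (656137209/80000) * a^8 * (1-a)^4 +
        (511710761/160000) * a^9 * (1-a)^3 +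
        (170825039/160000) * a^10 * (1-a)^2 +
        (1073433/4000) * a^11 * (1-a)^1 +
        (26847/800) * a^12)) := by
    rw [ZZ_eq]
    ring
  rw [key]
  have : 0 ≤ 1 - a := sub_nonneg.2 ha1
  have : 0 ≤ 1 - b := sub_nonneg.2 hb1
  positivity

set_option maxRecDepth 10000 in
set_option maxHeartbeats 2000000 in
theorem zz_chartB {a b : ℝ} (ha : 0 ≤ a) (ha1 : a ≤ 1) (hb : 0 ≤ b) (hb1 : b ≤ 1) :
    0 ≤ ZZ (a * b) b := by
  have key : ZZ (a * b) b = b^2 * (
      (1-b)^11 * (
        (99/2) * (1-a)^7 +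
        (5580723/20000) * a^1 * (1-a)^6 +
        (26650667/40000) * a^2 * (1-a)^5 +
        (7026329/8000) * a^3 * (1-a)^4 +
        (2794883/4000) * a^4 * (1-a)^3 +
        (8576/25) * a^5 * (1-a)^2 +
        (3978631/40000) * a^6 * (1-a)^1 +
        (543437/40000) * a^7) +
      b^1 * (1-b)^10 * (
        (2475/4) * (1-a)^7 +
        (36813771/10000) * a^1 * (1-a)^6 +
        (46859471/5000) * a^2 * (1-a)^5 +
        (531259027/40000) * a^3 * (1-a)^4 +
        (113782527/10000) * a^4 * (1-a)^3 +
        (118758791/20000) * a^5 * (1-a)^2 +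
        (17645653/10000) * a^6 * (1-a)^1 +
        (1861359/8000) * a^7) +
      b^2 * (1-b)^9 * (
        (13629/4) * (1-a)^7 +
        (83927817/4000) * a^1 * (1-a)^6 +
        (442081741/8000) * a^2 * (1-a)^5 +
        (6461179713/80000) * a^3 * (1-a)^4 +
        (2266021107/32000) * a^4 * (1-a)^3 +
        (5964178049/160000) * a^5 * (1-a)^2 +
        (1745859177/160000) * a^6 * (1-a)^1 +
        (219109377/160000) * a^7) +
      b^3 * (1-b)^8 * (
        10989 * (1-a)^7 +
        (173210823/2500) * a^1 * (1-a)^6 +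
        (3718704147/20000) * a^2 * (1-a)^5 +
        (687905679/2500) * a^3 * (1-a)^4 +
        (9689357913/40000) * a^4 * (1-a)^3 +
        (5063886441/40000) * a^5 * (1-a)^2 +
        (1449940137/40000) * a^6 * (1-a)^1 +
        (174515871/40000) * a^7) +
      b^4 * (1-b)^7 * (
        23166 * (1-a)^7 +
        (1485452151/10000) * a^1 * (1-a)^6 +
        (1006102047/2500) * a^2 * (1-a)^5 +
        (1192798281/2000) * a^3 * (1-a)^4 +
        (20852515167/40000) * a^4 * (1-a)^3 +
        (42950073327/160000) * a^5 * (1-a)^2 +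
        (12071929233/160000) * a^6 * (1-a)^1 +
        (718955343/80000) * a^7) +
      b^5 * (1-b)^6 * (
        (67221/2) * (1-a)^7 +
        (1090949553/5000) * a^1 * (1-a)^6 +
        (11854628379/20000) * a^2 * (1-a)^5 +
        (17438555403/20000) * a^3 * (1-a)^4 +
        (29959066377/40000) * a^4 * (1-a)^3 +
        (30083953041/80000) * a^5 * (1-a)^2 +
        (16490935989/160000) * a^6 * (1-a)^1 +
        (1955454273/160000) * a^7) +
      b^6 * (1-b)^5 * (
        (68607/2) * (1-a)^7 +
        (2246784741/10000) * a^1 * (1-a)^6 +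
        (6085926891/10000) * a^2 * (1-a)^5 +
        (7049475051/8000) * a^3 * (1-a)^4 +
        (58782569997/80000) * a^4 * (1-a)^3 +
        (56555689839/160000) * a^5 * (1-a)^2 +
        (7373368083/80000) * a^6 * (1-a)^1 +
        (1678992987/160000) * a^7) +
      b^7 * (1-b)^4 * (
        24651 * (1-a)^7 +
        (16244217/100) * a^1 * (1-a)^6 +
        (349211157/800) * a^2 * (1-a)^5 +
        (385379316/625) * a^3 * (1-a)^4 +
        (3932704077/8000) * a^4 * (1-a)^3 +
        (4418056899/20000) * a^5 * (1-a)^2 +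
        (169606419/3200) * a^6 * (1-a)^1 +
        (116727597/20000) * a^7) +
      b^8 * (1-b)^3 * (
        (24453/2) * (1-a)^7 +
        (1617243759/20000) * a^1 * (1-a)^6 +
        (8581409949/40000) * a^2 * (1-a)^5 +
        (11715074019/40000) * a^3 * (1-a)^4 +
        (8765402193/40000) * a^4 * (1-a)^3 +
        (14241939201/160000) * a^5 * (1-a)^2 +
        (3075992661/160000) * a^6 * (1-a)^1 +
        (189226821/80000) * a^7) +
      b^9 * (1-b)^2 * (
        (15939/4) * (1-a)^7 +
        (263932971/10000) * a^1 * (1-a)^6 +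
        (1376526541/20000) * a^2 * (1-a)^5 +
        (719401619/8000) * a^3 * (1-a)^4 +
        (2470016147/40000) * a^4 * (1-a)^3 +
        (347963117/16000) * a^5 * (1-a)^2 +
        (694011289/160000) * a^6 * (1-a)^1 +
        (133257119/160000) * a^7) +
      b^10 * (1-b)^1 * (
        (3069/4) * (1-a)^7 +
        (101614329/20000) * a^1 * (1-a)^6 +
        (518869531/40000) * a^2 * (1-a)^5 +
        (1285377257/80000) * a^3 * (1-a)^4 +
        (1577056623/160000) * a^4 * (1-a)^3 +
        (7085251/2500) * a^5 * (1-a)^2 +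
        (99398383/160000) * a^6 * (1-a)^1 +
        (469599/2000) * a^7) +
      b^11 * (
        66 * (1-a)^7 +
        (873/2) * a^1 * (1-a)^6 +
        (5440927/5000) * a^2 * (1-a)^5 +
        (6335001/5000) * a^3 * (1-a)^4 +
        (13425399/20000) * a^4 * (1-a)^3 +
        (2826793/20000) * a^5 * (1-a)^2 +
        (211773/4000) * a^6 * (1-a)^1 +
        (26847/800) * a^7)) := by
    rw [ZZ_eq]
    ring
  rw [key]
  have : 0 ≤ 1 - a := sub_nonneg.2 ha1
  have : 0 ≤ 1 - b := sub_nonneg.2 hb1
  positivity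

noncomputable def cfN (w : ℝ) : ℝ := (9 / 4 * (6932 / 10000) - 4 / 3 + 1 / 3 * w)
noncomputable def cfD (w : ℝ) : ℝ := (2 * (6931 / 10000) + (1 - w) + 9 / 4 * (6932 / 10000) * w)

noncomputable def cfG (w z : ℝ) : ℝ :=
  ((22379/80000) * w^1 + (-22379/80000) * w^2) * (cfD w)^3 +
  ((-48517/40000) + (20793/40000) * w^1 + (62379/80000) * w^2) * z^1 * (cfD w)^2 +
  ((-6931/10000) + (20793/10000) * w^1 + (-6931/5000) * w^2) * z^2 * (cfD w)^1 +
  ((6931/10000) + (-6931/5000) * w^1 + (6931/10000) * w^2) * z^3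

theorem cfD_pow_mul_yCF (w t : ℝ) : (cfD w)^3 * yCF w t = cfG w (t * cfD w) := by
  unfold cfG yCF vv om cone mm
  ring

theorem cf_chart {a b : ℝ} (ha : 0 ≤ a) (ha1 : a ≤ 1) (hb : 0 ≤ b) (hb1 : b ≤ 1) :
    0 ≤ cfG a (a * cfN a * b) := by
  have key : cfG a (a * cfN a * b) = a * (
      (1-b)^3 * (
        (38007667087381089/10000000000000000) * (1-a)^9 +
        (661612467888434853/20000000000000000) * a^1 * (1-a)^8 +
        (5030808651986450697/40000000000000000) * a^2 * (1-a)^7 +
        (21825615173953749151/80000000000000000) * a^3 * (1-a)^6 +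
        (1181810729824907777/3200000000000000) * a^4 * (1-a)^5 +
        (12779478336588581261/40000000000000000) * a^5 * (1-a)^4 +
        (3449720650198613833/20000000000000000) * a^6 * (1-a)^3 +
        (4250937711333077219/80000000000000000) * a^7 * (1-a)^2 +
        (572129942928628441/80000000000000000) * a^8 * (1-a)^1) +
      b^1 * (1-b)^2 * (
        (49194680650899189/5000000000000000) * (1-a)^9 +
        (1656121993930449833/20000000000000000) * a^1 * (1-a)^8 +
        (9097367276210484493/30000000000000000) * a^2 * (1-a)^7 +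
        (50496679792413705961/80000000000000000) * a^3 * (1-a)^6 +
        (1021482760943499853/1250000000000000) * a^4 * (1-a)^5 +
        (161942191961809294027/240000000000000000) * a^5 * (1-a)^4 +
        (1742100928717519077/5000000000000000) * a^6 * (1-a)^3 +
        (8338270974951327323/80000000000000000) * a^7 * (1-a)^2 +
        (441960953457105511/30000000000000000) * a^8 * (1-a)^1 +
        (33665665702325567/80000000000000000) * a^9) +
      b^2 * (1-b)^1 * (
        (82755721341453489/10000000000000000) * (1-a)^9 +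
        (3977134893266134333/60000000000000000) * a^1 * (1-a)^8 +
        (16451085475130497421/72000000000000000) * a^2 * (1-a)^7 +
        (318148938068927715373/720000000000000000) * a^3 * (1-a)^6 +
        (41910701253209315469/80000000000000000) * a^4 * (1-a)^5 +
        (70363855800790898837/180000000000000000) * a^5 * (1-a)^4 +
        (32755850554306942399/180000000000000000) * a^6 * (1-a)^3 +
        (493068860595402191/9600000000000000) * a^7 * (1-a)^2 +
        (2075715444860237671/240000000000000000) * a^8 * (1-a)^1 +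
        (33665665702325567/40000000000000000) * a^9) +
      b^3 * (
        (111870135635181/50000000000000) * (1-a)^9 +
        (993606315140089393/60000000000000000) * a^1 * (1-a)^8 +
        (5510157653271359519/108000000000000000) * a^2 * (1-a)^7 +
        (180491610960641020289/2160000000000000000) * a^3 * (1-a)^6 +
        (82391220331807608617/1080000000000000000) * a^4 * (1-a)^5 +
        (1040088688611660053/28800000000000000) * a^5 * (1-a)^4 +
        (578996155687082897/90000000000000000) * a^6 * (1-a)^3 +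
        (3755498726018639/9600000000000000) * a^7 * (1-a)^2 +
        (128208822994639453/120000000000000000) * a^8 * (1-a)^1 +
        (33665665702325567/80000000000000000) * a^9)) := by
    unfold cfG cfD cfN
    ring
  rw [key]
  have : 0 ≤ 1 - a := sub_nonneg.2 ha1
  have : 0 ≤ 1 - b := sub_nonneg.2 hb1
  positivity

end Vale.Agent.CK
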