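import Vale.Agent.CK.Estimates
import Vale.Agent.CK.Poly

/-!
The derivative of the two-point deficit along a path with fixed mean is nonnegative.
-/

namespace Vale.Agent.CK

open Real Set

theorem Z0_nonneg {w t : ℝ} (hw : 0 < w) (hw1 : w ≤ 1) (ht : 0 ≤ t) (ht1 : t ≤ 1) :
    0 ≤ Z0 w t := by
  rcases le_or_gt t w with h | h
  · have := z0_chartA (a := w) (b := t / w) hw.le hw1 (div_nonneg ht hw.le)
      ((div_le_one hw).2 h)
    rwa [mul_div_cancel₀ _ hw.ne'] at this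
  · have ht0 : 0 < t := hw.trans h
    have := z0_chartB (a := w / t) (b := t) (div_nonneg hw.le ht) ((div_le_one ht0).2 h.le) ht ht1
    rwa [div_mul_cancel₀ _ ht0.ne'] at this

theorem ZZ_nonneg {w t : ℝ} (hw : 0 < w) (hw1 : w ≤ 1) (ht : 0 ≤ t) (ht1 : t ≤ 1) :
    0 ≤ ZZ w t := by
  rcases le_or_gt t w with h | h
  · have := zz_chartA (a := w) (b := t / w) hw.le hw1 (div_nonneg ht hw.le)
      ((div_le_one hw).2 h)
    rwa [mul_div_cancel₀ _ hw.ne'] at this
  · have ht0 : 0 < t := hw.trans h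
    have := zz_chartB (a := w / t) (b := t) (div_nonneg hw.le ht) ((div_le_one ht0).2 h.le) ht ht1
    rwa [div_mul_cancel₀ _ ht0.ne'] at this

theorem mm_bounds {w t : ℝ} (hw : 0 ≤ w) (hw1 : w ≤ 1) (ht : 0 ≤ t) (ht1 : t ≤ 1) :
    0 ≤ mm w t ∧ mm w t ≤ 1 ∧ 0 ≤ (1 - w) * (1 - t) * (1 - t) ∧
      (1 - w) * (1 - t) * (1 - t) ≤ 1 := by
  have hx : 0 ≤ 1 - w := by linarith
  have h1 : 0 ≤ w + (1 - w) * t := by positivity
  have h2 : w + (1 - w) * t ≤ 1 := by nlinarith
  have h3 : 0 ≤ (1 - w) * (1 - t) := mul_nonneg hx (by linarith)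
  have h4 : (1 - w) * (1 - t) ≤ 1 := by nlinarith
  refine ⟨mul_nonneg ht h1, ?_, mul_nonneg h3 (by linarith), ?_⟩
  · unfold mm; nlinarith
  · nlinarith

theorem ctwo_nonneg {w t : ℝ} (hw : 0 ≤ w) (hw1 : w ≤ 1) (ht : 0 ≤ t) (ht1 : t ≤ 1) :
    0 ≤ ctwo w t := by
  obtain ⟨a, b, c, d⟩ := mm_bounds hw hw1 ht ht1
  unfold ctwo; linarith

theorem ctwo_le {w t : ℝ} (hw : 0 ≤ w) (hw1 : w ≤ 1) (ht : 0 ≤ t) (ht1 : t ≤ 1) :
    ctwo w t ≤ 9 / 8 := by
  obtain ⟨a, b, c, d⟩ := mm_bounds hw hw1 ht ht1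
  unfold ctwo; linarith

theorem om_nonneg {w t : ℝ} (hw : 0 ≤ w) (hw1 : w ≤ 1) (ht : 0 ≤ t) (ht1 : t ≤ 1) :
    0 ≤ om w t := by
  obtain ⟨a, b, c, d⟩ := mm_bounds hw hw1 ht ht1
  unfold om cone
  exact mul_nonneg (mul_nonneg (by linarith) (by linarith)) (by linarith)

/-- If the crossover coefficient is negative then the averaged ratio is at least `log 2`. -/
theorem cf_neg {r τ : ℝ} (h0 : 0 < r) (h1 : r < 1) (ht : 0 ≤ τ) (ht1 : τ < 1)
    (hcf : A r + 2 * Lam r * r * τ / (1 - r ^ 2) -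
      6932 / 10000 * 2 * r * (1 - τ) * ctwo (1 - r ^ 2) τ < 0) :
    Real.log 2 * (vv (1 - r ^ 2) τ - om (1 - r ^ 2) τ) ≤ L r := by
  set w := 1 - r ^ 2 with hw
  have hw0 : 0 < w := one_sub_sq_pos (by linarith) h1
  have hw1 : w ≤ 1 := by nlinarith
  have hA : r * (1 + r ^ 2 / 3) ≤ A r := by
    have := series3_le_A h0.le h1; nlinarith [pow_pos h0 5]
  have hc := ctwo_le hw0.le hw1 ht ht1.le
  have hkey : τ * cfD w < w * cfN w := by
    have e : (A r + 2 * Lam r * r * τ / w - 6932 / 10000 * 2 * r * (1 - τ) * ctwo w τ) * w =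
        A r * w + 2 * Lam r * r * τ - 6932 / 10000 * 2 * r * (1 - τ) * ctwo w τ * w := by
      field_simp
    have hneg := mul_neg_of_neg_of_pos hcf hw0
    rw [e] at hneg
    have hL := Lam_lb h0.le h1
    have t1 := mul_le_mul_of_nonneg_right hA hw0.le
    have t2 : (2 * (6931 / 10000) + r ^ 2) * (r * τ) ≤ 2 * Lam r * (r * τ) :=
      mul_le_mul_of_nonneg_right (by linarith [log2_lb]) (by positivity)
    have t3 : ctwo w τ * (6932 / 10000 * 2 * r * (1 - τ) * w) ≤
        9 / 8 * (6932 / 10000 * 2 * r * (1 - τ) * w) :=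
      mul_le_mul_of_nonneg_right hc (by
        have : 0 ≤ 1 - τ := by linarith
        positivity)
    have : r * ((1 + r ^ 2 / 3) * w + (2 * (6931 / 10000) + r ^ 2) * τ
        - 9 / 4 * (6932 / 10000) * (1 - τ) * w) < 0 := by nlinarith
    have hneg2 := neg_of_mul_neg_right this h0.le
    have hx : r ^ 2 = 1 - w := by rw [hw]; ring
    rw [hx] at hneg2
    unfold cfD cfN; nlinarith
  have hN : 0 < cfN w := by unfold cfN; linarith
  have hD : 0 < cfD w := by unfold cfD; nlinarith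
  have hy := cf_chart (a := w) (b := τ * cfD w / (w * cfN w)) hw0.le hw1
    (by positivity) ((div_le_one (by positivity)).2 hkey.le)
  rw [mul_div_cancel₀ _ (by positivity : w * cfN w ≠ 0), ← cfD_pow_mul_yCF] at hy
  have hy' : 0 ≤ yCF w τ := nonneg_of_mul_nonneg_right hy (by positivity)
  have hl := L_lb h0.le h1.le
  unfold yCF at hy'
  have hx : r ^ 2 = 1 - w := by rw [hw]; ring
  have e4 : r ^ 4 = (1 - w) * (1 - w) := by rw [← hx]; ring
  rw [e4, hx] at hl
  have hS : 0 ≤ 1 - (1 - w) * (1 - w) - (vv w τ - om w τ) := by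
    nlinarith [mul_nonneg (by linarith : 0 ≤ 1 - w) hw0.le]
  nlinarith [mul_le_mul_of_nonneg_right log2_lb.le hS]

/-- The normalised inequality: replace `g` and `h` by their polynomial bounds. -/
theorem normalised {w t g h : ℝ} (hw : 0 < w) (hw1 : w ≤ 1) (ht : 0 ≤ t) (ht1 : t ≤ 1)
    (hh : 0 < h) (hhv : h ≤ vv w t) (hlo : w * NN w ≤ DE w * h) (hg : g ≤ gUp w)
    (hvo : 0 < vv w t - om w t) :
    0 ≤ w * ((1 - w) - g * (vv w t - h) - vone w t * w / 2) +
        (1 - w) * (t * ((1 - w) - g * om w t) + w / 2 * (1 - h - om w t)) ∧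
    0 ≤ w * ((1 - w) - g * (vv w t - h) - vone w t * w / 2) +
        (1 - w) * (t * ((1 - w) - g * om w t) + w / 2 * (1 - h - om w t) -
          6932 / 10000 * w ^ 2 * (1 - t) * ctwo w t * ((vv w t - om w t) / h - 1)) := by
  have ho0 := om_nonneg hw.le hw1 ht ht1
  have hc0 := ctwo_nonneg hw.le hw1 ht ht1
  have hx : 0 ≤ 1 - w := by linarith
  have hgU : (1 - w) ≤ gUp w := by rw [gUp]; linarith
  have hDE : 0 < DE w := by rw [DE]; linarith
  have hN : 0 < NN w := by rw [NN]; linarith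
  have e : DE w * (w * ((1 - w) - g * (vv w t - h) - vone w t * w / 2) +
        (1 - w) * (t * ((1 - w) - g * om w t) + w / 2 * (1 - h - om w t))) = Z0 w t +
      (DE w * h - w * NN w) * (w * gUp w - (1 - w) * w / 2) +
      DE w * (gUp w - g) * (w * (vv w t - h) + (1 - w) * t * om w t) := by
    rw [Z0]; ring
  have hgc : 0 ≤ w * gUp w - (1 - w) * w / 2 := by
    have := mul_le_mul_of_nonneg_left hgU hw.le
    have := mul_nonneg hw.le hx
    linarith
  have p1 := mul_nonneg (sub_nonneg.2 hlo) hgc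
  have p2 := mul_nonneg (mul_nonneg hDE.le (sub_nonneg.2 hg))
    (add_nonneg (mul_nonneg hw.le (sub_nonneg.2 hhv)) (mul_nonneg (mul_nonneg hx ht) ho0))
  refine ⟨nonneg_of_mul_nonneg_right (by linarith [Z0_nonneg hw hw1 ht ht1]) hDE, ?_⟩
  generalize hS : w * ((1 - w) - g * (vv w t - h) - vone w t * w / 2) +
        (1 - w) * (t * ((1 - w) - g * om w t) + w / 2 * (1 - h - om w t)) = S at e
  have hS' : Z0 w t ≤ DE w * S := by linarith
  have q : w * NN w * ((vv w t - om w t) / h - 1) ≤ (vv w t - om w t) * DE w - w * NN w := by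
    have : w * NN w * ((vv w t - om w t) / h) ≤ (vv w t - om w t) * DE w := by
      rw [mul_div_assoc', div_le_iff₀ hh]
      have := mul_le_mul_of_nonneg_right hlo hvo.le
      linarith
    linarith
  have hcoef : 0 ≤ DE w * (1 - w) * (6932 / 10000) * w * (1 - t) * ctwo w t := by
    have : 0 ≤ 1 - t := by linarith
    positivity
  have q2 := mul_le_mul_of_nonneg_left q hcoef
  have z := ZZ_nonneg hw hw1 ht ht1
  rw [ZZ] at z
  have m := mul_le_mul_of_nonneg_left hS' hN.le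
  have e2 : NN w * DE w * (w * ((1 - w) - g * (vv w t - h) - vone w t * w / 2) +
      (1 - w) * (t * ((1 - w) - g * om w t) + w / 2 * (1 - h - om w t) -
          6932 / 10000 * w ^ 2 * (1 - t) * ctwo w t * ((vv w t - om w t) / h - 1))) =
      NN w * (DE w * S) - DE w * (1 - w) * (6932 / 10000) * w * (1 - t) * ctwo w t *
        (w * NN w * ((vv w t - om w t) / h - 1)) := by
    rw [← hS]; ring
  exact nonneg_of_mul_nonneg_right (by linarith) (mul_pos hN hDE)

theorem ident1 {r w τ a l v u : ℝ} (hr : r ≠ 0) (hw : w ≠ 0) (ha : a ≠ 0)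
    (hx : r ^ 2 = 1 - w) (hv : v = 1 + τ * u) :
    r / w * (1 + 2 * r ^ 2 * τ / w) - a - (v / (w * a / r) - 1) * (a + 2 * l * r * τ / w) =
      2 * r / w ^ 2 * (τ * (r ^ 2 - r * l / a * (v - w * a / r) - u * w / 2)) := by
  rw [hv, hx]; field_simp; ring

theorem ident2 {r w τ a l o : ℝ} (hr : r ≠ 0) (hw : w ≠ 0) (ha : a ≠ 0)
    (hx : r ^ 2 = 1 - w) :
    r / w * (1 + 2 * r ^ 2 * τ / w) - a - o / (w * a / r) * (a + 2 * l * r * τ / w) =
      2 * r / w ^ 2 * (τ * (r ^ 2 - r * l / a * o) + w / 2 * (1 - w * a / r - o)) := by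
  rw [hx]; field_simp; ring

/-- Combining the two certificates with the bounds on `D` and `D - Db`. -/
theorem combine {w x τ c K e1 cf D Db v o h g1 g2 b4 : ℝ} (hw : 0 < w) (hx : 0 ≤ x) (ht : 0 ≤ τ)
    (hc : 0 ≤ c) (he : 0 ≤ e1) (hZ : 0 ≤ w * g1 + x * g2) (hZ2 : 0 ≤ w * g1 + x * (g2 - b4))
    (hD : D ≤ v / h - 1) (hDD : D - Db ≤ o / h) (hDb : 0 ≤ Db) (hDb0 : cf < 0 → Db = 0)
    (hec : 0 ≤ e1 - cf)
    (E1 : K - (v / h - 1) * e1 = c * (τ * g1)) (E2 : K - o / h * e1 = c * g2)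
    (E3 : ((v - o) / h - 1) * (e1 - cf) = c * b4) :
    0 ≤ K - D * e1 + Db * cf := by
  have hDcf : 0 ≤ Db * cf := by
    rcases le_or_gt 0 cf with hc | hc
    · exact mul_nonneg hDb hc
    · simp [hDb0 hc]
  have s0 := mul_le_mul_of_nonneg_right hD he
  by_cases hg : 0 ≤ g1
  · have : 0 ≤ c * (τ * g1) := mul_nonneg hc (mul_nonneg ht hg)
    linarith
  push Not at hg
  have hwg' : w * g1 < 0 := mul_neg_of_pos_of_neg hw hg
  rcases le_or_gt 0 cf with hc2 | hc2
  · have hp : 0 ≤ g2 - b4 := by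
      by_contra hn
      nlinarith [mul_nonpos_of_nonneg_of_nonpos hx (not_le.1 hn).le]
    have := mul_nonneg hc hp
    have s1 := mul_le_mul_of_nonneg_right hDD hc2
    have s2 := mul_le_mul_of_nonneg_right hD hec
    have e4 : D * e1 - Db * cf = (D - Db) * cf + D * (e1 - cf) := by ring
    have e5 : o / h * cf + (v / h - 1) * (e1 - cf) =
        o / h * e1 + ((v - o) / h - 1) * (e1 - cf) := by ring
    linarith
  · have hp : 0 ≤ g2 := by
      by_contra hn
      nlinarith [mul_nonpos_of_nonneg_of_nonpos hx (not_le.1 hn).le]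
    have := mul_nonneg hc hp
    rw [hDb0 hc2, sub_zero] at hDD
    have := mul_le_mul_of_nonneg_right hDD he
    linarith

theorem path_ineq {r τ : ℝ} (h0 : 0 < r) (h1 : r < 1) (ht : 0 ≤ τ) (ht1 : τ < 1)
    (hvo : 0 < vv (1 - r ^ 2) τ - om (1 - r ^ 2) τ) :
    0 ≤ r / (1 - r ^ 2) * (1 + 2 * r ^ 2 * τ / (1 - r ^ 2)) - A r -
      dd (rho (L r / vv (1 - r ^ 2) τ)) * (A r + 2 * Lam r * r * τ / (1 - r ^ 2)) +
      dd (rho (L r / (vv (1 - r ^ 2) τ - om (1 - r ^ 2) τ))) *
        (A r + 2 * Lam r * r * τ / (1 - r ^ 2) -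
          6932 / 10000 * 2 * r * (1 - τ) * ctwo (1 - r ^ 2) τ) := by
  set w := 1 - r ^ 2 with hw
  set v := vv w τ with hv
  set o := om w τ with ho
  set c2 := ctwo w τ with hc2
  set D := dd (rho (L r / v))
  set Db := dd (rho (L r / (v - o)))
  set e1 := A r + 2 * Lam r * r * τ / w with he1
  set cf := e1 - 6932 / 10000 * 2 * r * (1 - τ) * c2 with hcf
  have hw0 : 0 < w := one_sub_sq_pos (by linarith) h1
  have hw1 : w ≤ 1 := by nlinarith
  have ho0 : 0 ≤ o := om_nonneg hw0.le hw1 ht ht1.le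
  have hc0 : 0 ≤ c2 := ctwo_nonneg hw0.le hw1 ht ht1.le
  have hv0 : 0 < v := by linarith
  have hLp : 0 < L r := L_pos (by linarith) h1
  have hA := A_pos h0 h1
  have hLam := Lam_pos h0.le h1
  have he1p : 0 ≤ e1 := by positivity
  have hDb0 : 0 ≤ Db := dd_nonneg (rho_nonneg (div_pos hLp hvo)) (rho_lt_one (div_pos hLp hvo))
  have hDcf : 0 ≤ Db * cf := by
    rcases le_or_gt 0 cf with h | h
    · exact mul_nonneg hDb0 h
    · have := cf_neg h0 h1 ht ht1 h
      have : Db = 0 := by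
        simp only [Db]; rw [rho_of_ge ((le_div_iff₀ hvo).2 this), dd_zero]
      simp [this]
  rcases le_or_gt v 1 with hv1 | hv1
  · have hy : L r ≤ L r / v := by rw [le_div_iff₀ hv0]; nlinarith
    have hD : D ≤ dd r :=
      dd_mono (rho_nonneg (div_pos hLp hv0)) (rho_le_of (div_pos hLp hv0) h0.le h1 hy) h1
    have hb : dd r * Lam r ≤ r ^ 2 / w := by
      rw [hw, ← eta_Lam h0.le h1]
      exact mul_le_mul_of_nonneg_right (dd_le_eta h0 h1) hLam.le
    have e : r / w * (1 + 2 * r ^ 2 * τ / w) - A r - dd r * e1 =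
        2 * r * τ / w * (r ^ 2 / w - dd r * Lam r) := by
      rw [he1, dd_of_pos h0, hw]
      have : 1 - r ^ 2 ≠ 0 := hw0.ne'
      field_simp
      ring
    have : 0 ≤ 2 * r * τ / w * (r ^ 2 / w - dd r * Lam r) :=
      mul_nonneg (by positivity) (by linarith)
    nlinarith [mul_le_mul_of_nonneg_right hD he1p]
  · set h := w * A r / r with hh0
    set g := r * Lam r / A r with hg
    have hh1 : h ≤ 1 := by rw [hh0, div_le_one h0]; exact A_le_div' h0 h1
    have hhp : 0 < h := by positivity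
    have hy : L r / v ≤ L r := by rw [div_le_iff₀ hv0]; nlinarith
    have hq : qq r = L r / h := by rw [qq, hh0, hw]; field_simp
    have hD : D ≤ v / h - 1 := by
      refine (dd_rho_le_of_le h0 h1 (div_pos hLp hv0) hy).trans (le_of_eq ?_)
      rw [hq]; field_simp
    have hDD : D - Db ≤ o / h := by
      refine (dd_rho_sub_le_qq h0 h1 (div_pos hLp hv0) hy
        (div_le_div_of_nonneg_left hLp.le hvo (by linarith))).trans (le_of_eq ?_)
      rw [hq]; field_simp; ring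
    have hgU : g ≤ gUp w := by
      rw [hg, div_le_iff₀ hA]
      refine (r_mul_Lam_le h0.le h1).trans ?_
      rw [mul_comm]
      apply mul_le_mul_of_nonneg_right _ hA.le
      rw [gUp, hw]; nlinarith [log2_ub]
    have hgU0 : 1 - w ≤ gUp w := by rw [gUp]; linarith
    have hDE : 0 < DE w := by rw [DE]; linarith
    have hN : 0 < NN w := by rw [NN]; linarith
    have hlo : w * NN w ≤ DE w * h := by
      have := pade2_le_A h0.le h1
      have hd : 0 < 15 - 9 * r ^ 2 := by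
        have : 0 < 1 - r ^ 2 := one_sub_sq_pos (by linarith) h1
        linarith
      rw [div_le_iff₀ hd] at this
      rw [hh0, DE, NN, hw, mul_div_assoc', le_div_iff₀ h0]
      have := mul_le_mul_of_nonneg_left this hw0.le
      rw [hw] at this
      linear_combination this
    set g1 := r ^ 2 - g * (v - h) - vone w τ * w / 2 with hg1
    set g2 := τ * (r ^ 2 - g * o) + w / 2 * (1 - h - o) with hg2
    set b4 := 6932 / 10000 * w ^ 2 * (1 - τ) * c2 * ((v - o) / h - 1) with hb4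
    have hx : r ^ 2 = 1 - w := by rw [hw]; ring
    obtain ⟨hZ, hZ2⟩ := normalised (g := g) hw0 hw1 ht ht1.le hhp (by linarith) hlo hgU hvo
    rw [← hx, ← hv, ← ho] at hZ
    rw [← hx, ← hv, ← ho, ← hc2, ← hb4] at hZ2
    exact combine (K := r / w * (1 + 2 * r ^ 2 * τ / w) - A r)
      (c := 2 * r / w ^ 2) hw0 (sq_nonneg r) ht (by positivity) he1p hZ hZ2 hD hDD hDb0
      (fun hc => by simp only [Db]; rw [rho_of_ge ((le_div_iff₀ hvo).2 (cf_neg h0 h1 ht ht1 hc)), dd_zero])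
      (by
        have : 0 ≤ 1 - τ := by linarith
        show 0 ≤ e1 - cf
        rw [hcf, sub_sub_cancel]; positivity)
      (ident1 h0.ne' hw0.ne' hA.ne' hx (by rw [hv, vv, vone, mm]; ring))
      (ident2 h0.ne' hw0.ne' hA.ne' hx)
      (by rw [hcf, hb4]; field_simp; ring)

end Vale.Agent.CK
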