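import Vale.Agent.CK.Basic

/-!
The function `dd r = r / ((1 - r^2) artanh r) - 1`, the branch coefficients `beta`, and the two
envelopes `Pb` (perspective branch) and `ff` (capped small-information branch).
-/

namespace Vale.Agent.CK

open Real Set Filter Topology

noncomputable def dd (r : ℝ) : ℝ := if r = 0 then 0 else r / ((1 - r ^ 2) * A r) - 1

noncomputable def R0 (r : ℝ) : ℝ := r * A r - 2 * Phi r

noncomputable def beta (r : ℝ) : ℝ := R0 r + dd r * L r

@[simp] theorem dd_zero : dd 0 = 0 := by simp [dd]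
@[simp] theorem R0_zero : R0 0 = 0 := by simp [R0]
@[simp] theorem beta_zero : beta 0 = 0 := by simp [beta]

theorem dd_of_pos {r : ℝ} (h : 0 < r) : dd r = r / ((1 - r ^ 2) * A r) - 1 := if_neg h.ne'

theorem dd_nonneg {r : ℝ} (h0 : 0 ≤ r) (h1 : r < 1) : 0 ≤ dd r := by
  rcases eq_or_lt_of_le h0 with h | h
  · simp [← h]
  rw [dd_of_pos h, sub_nonneg,
    le_div_iff₀ (mul_pos (one_sub_sq_pos (by linarith) h1) (A_pos h h1))]
  linarith [A_le_div' h h1]

theorem dd_le_sq {r : ℝ} (h0 : 0 ≤ r) (h1 : r < 1) : dd r ≤ r ^ 2 / (1 - r ^ 2) := by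
  have hw := one_sub_sq_pos (by linarith : -1 < r) h1
  rcases eq_or_lt_of_le h0 with h | h
  · simp [← h]
  rw [dd_of_pos h, sub_le_iff_le_add, div_le_iff₀ (mul_pos hw (A_pos h h1))]
  have : (r ^ 2 / (1 - r ^ 2) + 1) * ((1 - r ^ 2) * A r) = A r := by field_simp; ring
  rw [this]; exact le_A h0 h1

theorem dd_hasDerivAt {r : ℝ} (h0 : 0 < r) (h1 : r < 1) :
    HasDerivAt dd (((1 + r ^ 2) * A r - r) / ((1 - r ^ 2) * A r) ^ 2) r := by
  have hw := one_sub_sq_pos (by linarith : -1 < r) h1
  have hA := A_pos h0 h1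
  have h : HasDerivAt (fun x => x / ((1 - x ^ 2) * A x) - 1)
      (((1 + r ^ 2) * A r - r) / ((1 - r ^ 2) * A r) ^ 2) r := by
    refine (((hasDerivAt_id r).div ((((hasDerivAt_id r).pow 2).const_sub 1).mul
      (hasDerivAt_A (by linarith) h1)) (mul_pos hw hA).ne').sub_const 1).congr_deriv ?_
    simp only [id, Nat.cast_ofNat, Pi.pow_apply, Pi.mul_apply]; field_simp; ring
  apply h.congr_of_eventuallyEq
  filter_upwards [Ioi_mem_nhds h0] with x hx using dd_of_pos hx

theorem dd_mono {a b : ℝ} (ha : 0 ≤ a) (hab : a ≤ b) (hb : b < 1) : dd a ≤ dd b := by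
  rcases eq_or_lt_of_le ha with h | h
  · rw [← h, dd_zero]; exact dd_nonneg (by linarith) hb
  have hm : MonotoneOn dd (Icc a b) := by
    apply monotoneOn_of_hasDerivWithinAt_nonneg (convex_Icc a b)
      (f' := fun r => ((1 + r ^ 2) * A r - r) / ((1 - r ^ 2) * A r) ^ 2)
    · exact fun x hx => (dd_hasDerivAt (h.trans_le hx.1)
        (hx.2.trans_lt hb)).continuousAt.continuousWithinAt
    · exact fun x hx => (dd_hasDerivAt (h.trans_le (interior_subset hx).1)
        ((interior_subset hx).2.trans_lt hb)).hasDerivWithinAt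
    · intro x hx
      have hx' := interior_subset hx
      have hx0 := h.trans_le hx'.1
      have := le_A hx0.le (hx'.2.trans_lt hb)
      exact div_nonneg (by nlinarith) (sq_nonneg _)
  exact hm (left_mem_Icc.2 hab) (right_mem_Icc.2 hab) hab

theorem dd_continuousOn : ContinuousOn dd (Ico 0 1) := by
  intro r hr
  rcases eq_or_lt_of_le hr.1 with h | h
  · subst h
    have t1 : Tendsto (fun x : ℝ => x ^ 2 / (1 - x ^ 2)) (𝓝[Ico 0 1] 0) (𝓝 0) := by
      have hc : ContinuousAt (fun x : ℝ => x ^ 2 / (1 - x ^ 2)) 0 :=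
        (continuousAt_id.pow 2).div (continuousAt_const.sub (continuousAt_id.pow 2)) (by simp)
      simpa using hc.tendsto.mono_left nhdsWithin_le_nhds
    show Tendsto dd (𝓝[Ico 0 1] 0) (𝓝 (dd 0))
    rw [dd_zero]
    exact tendsto_of_tendsto_of_tendsto_of_le_of_le' tendsto_const_nhds t1
      (eventually_nhdsWithin_of_forall fun x hx => dd_nonneg hx.1 hx.2)
      (eventually_nhdsWithin_of_forall fun x hx => dd_le_sq hx.1 hx.2)
  · exact (dd_hasDerivAt h hr.2).continuousAt.continuousWithinAt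

theorem continuousOn_A' : ContinuousOn A (Ico 0 1) :=
  continuousOn_A.mono fun _ h => ⟨by linarith [h.1], h.2⟩

theorem R0_continuousOn : ContinuousOn R0 (Ico 0 1) :=
  (continuousOn_id.mul continuousOn_A').sub (continuous_const.mul continuous_Phi).continuousOn

theorem beta_continuousOn : ContinuousOn beta (Ico 0 1) :=
  R0_continuousOn.add (dd_continuousOn.mul continuous_L.continuousOn)

theorem R0_hasDerivAt {r : ℝ} (h0 : 0 < r) (h1 : r < 1) :
    HasDerivAt R0 (dd r * A r) r := by
  have hw := one_sub_sq_pos (by linarith : -1 < r) h1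
  have hA := A_pos h0 h1
  refine (((hasDerivAt_id r).mul (hasDerivAt_A (by linarith) h1)).sub
    ((hasDerivAt_Phi (by linarith) h1).const_mul 2)).congr_deriv ?_
  rw [dd_of_pos h0]; simp only [id]; field_simp; ring

/-- Tangent inequality for the convex function `Phi r ↦ R0 r`. -/
theorem tangent {r s : ℝ} (hr0 : 0 ≤ r) (hr1 : r < 1) (hs0 : 0 ≤ s) (hs1 : s < 1) :
    beta r ≤ R0 s + dd r * L s := by
  have hc : ContinuousOn (fun x => R0 x + dd r * L x) (Ico 0 1) :=
    R0_continuousOn.add (continuous_const.mul continuous_L).continuousOn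
  have hd : ∀ x, 0 < x → x < 1 →
      HasDerivAt (fun x => R0 x + dd r * L x) ((dd x - dd r) * A x) x := fun x a b =>
    ((R0_hasDerivAt a b).add ((hasDerivAt_L (by linarith) b).const_mul (dd r))).congr_deriv
      (by ring)
  rcases le_total r s with h | h
  · have hm : MonotoneOn (fun x => R0 x + dd r * L x) (Icc r s) := by
      apply monotoneOn_of_hasDerivWithinAt_nonneg (convex_Icc r s)
        (hc.mono fun x hx => ⟨hr0.trans hx.1, hx.2.trans_lt hs1⟩)
        (f' := fun x => (dd x - dd r) * A x)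
      · intro x hx; rw [interior_Icc] at hx
        exact (hd x (hr0.trans_lt hx.1) (hx.2.trans hs1)).hasDerivWithinAt
      · intro x hx; rw [interior_Icc] at hx
        exact mul_nonneg (sub_nonneg.2 (dd_mono hr0 hx.1.le (hx.2.trans hs1)))
          (A_pos (hr0.trans_lt hx.1) (hx.2.trans hs1)).le
    exact hm (left_mem_Icc.2 h) (right_mem_Icc.2 h) h
  · have hm : AntitoneOn (fun x => R0 x + dd r * L x) (Icc s r) := by
      apply antitoneOn_of_hasDerivWithinAt_nonpos (convex_Icc s r)
        (hc.mono fun x hx => ⟨hs0.trans hx.1, hx.2.trans_lt hr1⟩)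
        (f' := fun x => (dd x - dd r) * A x)
      · intro x hx; rw [interior_Icc] at hx
        exact (hd x (hs0.trans_lt hx.1) (hx.2.trans hr1)).hasDerivWithinAt
      · intro x hx; rw [interior_Icc] at hx
        exact mul_nonpos_of_nonpos_of_nonneg
          (sub_nonpos.2 (dd_mono (hs0.trans hx.1.le) hx.2.le hr1))
          (A_pos (hs0.trans_lt hx.1) (hx.2.trans hr1)).le
    exact hm (left_mem_Icc.2 h) (right_mem_Icc.2 h) h

theorem beta_le_log2_mul {r : ℝ} (h0 : 0 ≤ r) (h1 : r < 1) : beta r ≤ dd r * Real.log 2 := by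
  simpa using tangent h0 h1 le_rfl zero_lt_one

/-! ### `qq = L (dd + 1)` is antitone and at most `log 2` -/

theorem A_le_rat {r : ℝ} (h0 : 0 ≤ r) (h1 : r < 1) :
    A r ≤ r * (3 - r ^ 2) / ((1 - r ^ 2) * (3 + r ^ 2)) := by
  have := nonneg_of_deriv (F := fun t => t * (3 - t ^ 2) / ((1 - t ^ 2) * (3 + t ^ 2)) - A t)
    (F' := fun t => 16 * t ^ 4 / ((1 - t ^ 2) ^ 2 * (3 + t ^ 2) ^ 2)) h0 h1 (by simp)
    (fun t a b => by
      have hw := one_sub_sq_pos (by linarith : -1 < t) b
      refine ((((hasDerivAt_id t).mul (((hasDerivAt_id t).pow 2).const_sub 3)).div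
        ((((hasDerivAt_id t).pow 2).const_sub 1).mul (((hasDerivAt_id t).pow 2).const_add 3))
        (by simp only [id, Pi.mul_apply, Pi.pow_apply]; positivity)).sub
          (hasDerivAt_A (by linarith) b)).congr_deriv ?_
      simp only [id, Nat.cast_ofNat, Pi.pow_apply, Pi.mul_apply]
      rw [div_sub_div _ _ (by positivity) hw.ne', div_eq_div_iff (by positivity) (by positivity)]
      ring)
    (by intro t a b; positivity)
  linarith

theorem A_quad {r : ℝ} (h0 : 0 ≤ r) (h1 : r < 1) :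
    (1 - r ^ 2) * (2 * A r ^ 2 - r * A r) ≤ r ^ 2 := by
  have := nonneg_of_deriv (F := fun t => t ^ 2 / (1 - t ^ 2) + t * A t - 2 * A t ^ 2)
    (F' := fun t => (t * (3 - t ^ 2) - A t * ((1 - t ^ 2) * (3 + t ^ 2))) / (1 - t ^ 2) ^ 2)
    h0 h1 (by simp)
    (fun t a b => by
      have hw := one_sub_sq_pos (by linarith : -1 < t) b
      refine (((((hasDerivAt_id t).pow 2).div (((hasDerivAt_id t).pow 2).const_sub 1) hw.ne').add
        ((hasDerivAt_id t).mul (hasDerivAt_A (by linarith) b))).sub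
        (((hasDerivAt_A (by linarith) b).pow 2).const_mul 2)).congr_deriv ?_
      simp only [id, Nat.cast_ofNat, Pi.pow_apply]; field_simp; ring)
    (by
      intro t a b
      have hw := one_sub_sq_pos (by linarith : -1 < t) b
      have h := A_le_rat a.le b
      rw [le_div_iff₀ (by positivity)] at h
      exact div_nonneg (by linarith) (sq_nonneg _))
  have hw := one_sub_sq_pos (by linarith : -1 < r) h1
  have h2 : 2 * A r ^ 2 - r * A r ≤ r ^ 2 / (1 - r ^ 2) := by linarith
  rw [le_div_iff₀ hw] at h2; linarith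

theorem den_pos {r : ℝ} (h0 : 0 < r) (h1 : r < 1) : 0 < (1 + r ^ 2) * A r - r := by
  nlinarith [le_A h0.le h1, pow_pos h0 3]

theorem L_mul_den_le {r : ℝ} (h0 : 0 < r) (h1 : r < 1) :
    L r * ((1 + r ^ 2) * A r - r) ≤ A r ^ 2 * r * (1 - r ^ 2) := by
  set D := fun t => A t ^ 2 * t * (1 - t ^ 2) / ((1 + t ^ 2) * A t - t) - L t
  have hd : ∀ t, 0 < t → t < 1 → HasDerivAt D
      (A t * ((1 - t ^ 2) * (2 * A t ^ 2 - t * A t) - t ^ 2) / ((1 + t ^ 2) * A t - t) ^ 2) t := by
    intro t a b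
    have hw := one_sub_sq_pos (by linarith : -1 < t) b
    have hden := den_pos a b
    have hA := hasDerivAt_A (by linarith : -1 < t) b
    refine (((((hA.pow 2).mul (hasDerivAt_id t)).mul (((hasDerivAt_id t).pow 2).const_sub 1)).div
      (((((hasDerivAt_id t).pow 2).const_add 1).mul hA).sub (hasDerivAt_id t)) hden.ne').sub
      (hasDerivAt_L (by linarith) b)).congr_deriv ?_
    simp only [id, Nat.cast_ofNat, Pi.pow_apply, Pi.mul_apply, Pi.sub_apply]
    rw [div_sub' (by positivity), div_eq_div_iff (by positivity) (by positivity)]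
    field_simp
    ring
  have key : ∀ s, r < s → s < 1 → -L s ≤ D r := by
    intro s hs hs1
    have hm : AntitoneOn D (Icc r s) := by
      apply antitoneOn_of_hasDerivWithinAt_nonpos (convex_Icc r s)
        (fun x hx => (hd x (h0.trans_le hx.1) (hx.2.trans_lt hs1)).continuousAt.continuousWithinAt)
        (fun x hx => (hd x (h0.trans_le (interior_subset hx).1)
          ((interior_subset hx).2.trans_lt hs1)).hasDerivWithinAt)
      intro x hx
      have a := h0.trans_le (interior_subset hx).1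
      have b := (interior_subset hx).2.trans_lt hs1
      exact div_nonpos_of_nonpos_of_nonneg
        (mul_nonpos_of_nonneg_of_nonpos (A_pos a b).le (by linarith [A_quad a.le b])) (sq_nonneg _)
    have hs0 := h0.trans hs
    refine le_trans ?_ (hm (left_mem_Icc.2 hs.le) (right_mem_Icc.2 hs.le) hs.le)
    have hw := one_sub_sq_pos (by linarith : -1 < s) hs1
    have := den_pos hs0 hs1
    simp only [D, neg_le_sub_iff_le_add]
    have : 0 ≤ A s ^ 2 * s * (1 - s ^ 2) / ((1 + s ^ 2) * A s - s) := by positivity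
    linarith
  have hD : 0 ≤ D r := by
    have t : Tendsto (fun s => -L s) (𝓝[<] 1) (𝓝 0) := by
      have := (continuous_L.neg.tendsto 1).mono_left (nhdsWithin_le_nhds (s := Iio (1:ℝ)))
      simpa [Pi.neg_def] using this
    refine le_of_tendsto t ?_
    filter_upwards [Ioo_mem_nhdsLT h1] with s hs using key s hs.1 hs.2
  simp only [D, sub_nonneg, le_div_iff₀ (den_pos h0 h1)] at hD
  exact hD

noncomputable def qq (r : ℝ) : ℝ := L r * (r / ((1 - r ^ 2) * A r))

theorem qq_eq {r : ℝ} (h0 : 0 < r) : qq r = L r * (dd r + 1) := by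
  rw [qq, dd_of_pos h0]; ring

theorem qq_antitone {a b : ℝ} (ha : 0 < a) (hab : a ≤ b) (hb : b < 1) : qq b ≤ qq a := by
  have hd : ∀ t, 0 < t → t < 1 → HasDerivAt qq
      ((L t * ((1 + t ^ 2) * A t - t) - A t ^ 2 * t * (1 - t ^ 2)) /
        ((1 - t ^ 2) * A t) ^ 2) t := by
    intro t a b
    have hw := one_sub_sq_pos (by linarith : -1 < t) b
    have hA := A_pos a b
    refine ((hasDerivAt_L (by linarith) b).mul ((hasDerivAt_id t).div
      ((((hasDerivAt_id t).pow 2).const_sub 1).mul (hasDerivAt_A (by linarith) b))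
      (mul_pos hw hA).ne')).congr_deriv ?_
    simp only [id, Nat.cast_ofNat, Pi.pow_apply, Pi.mul_apply, Pi.div_apply]; field_simp; ring
  have hm : AntitoneOn qq (Icc a b) := by
    apply antitoneOn_of_hasDerivWithinAt_nonpos (convex_Icc a b)
      (fun x hx => (hd x (ha.trans_le hx.1) (hx.2.trans_lt hb)).continuousAt.continuousWithinAt)
      (fun x hx => (hd x (ha.trans_le (interior_subset hx).1)
        ((interior_subset hx).2.trans_lt hb)).hasDerivWithinAt)
    intro x hx
    have h0 := ha.trans_le (interior_subset hx).1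
    have h1 := (interior_subset hx).2.trans_lt hb
    exact div_nonpos_of_nonpos_of_nonneg (by linarith [L_mul_den_le h0 h1]) (sq_nonneg _)
  exact hm (left_mem_Icc.2 hab) (right_mem_Icc.2 hab) hab

theorem qq_le_log2 {r : ℝ} (h0 : 0 < r) (h1 : r < 1) : qq r ≤ Real.log 2 := by
  have t : Tendsto (fun s : ℝ => Real.log 2 / (1 - s ^ 2)) (𝓝[>] 0) (𝓝 (Real.log 2)) := by
    have hc : ContinuousAt (fun s : ℝ => Real.log 2 / (1 - s ^ 2)) 0 :=
      continuousAt_const.div (continuousAt_const.sub (continuousAt_id.pow 2)) (by simp)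
    simpa using hc.tendsto.mono_left nhdsWithin_le_nhds
  refine ge_of_tendsto t ?_
  filter_upwards [Ioo_mem_nhdsGT h0] with s hs
  have hs1 := hs.2.trans h1
  refine (qq_antitone hs.1 hs.2.le h1).trans ?_
  have hw := one_sub_sq_pos (by linarith [hs.1] : -1 < s) hs1
  have hA := A_pos hs.1 hs1
  calc qq s ≤ Real.log 2 * (1 / (1 - s ^ 2)) := by
        unfold qq
        apply mul_le_mul (L_le_log2 (by linarith [hs.1]) hs1.le) _
          (div_nonneg hs.1.le (mul_nonneg hw.le hA.le)) (by linarith [log2_lb])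
        rw [div_le_div_iff₀ (mul_pos hw hA) hw]
        nlinarith [le_A hs.1.le hs1]
    _ = Real.log 2 / (1 - s ^ 2) := by ring

/-- `r L(r) ≤ log 2 * (1 - r^2) * artanh r`. -/
theorem r_mul_L_le {r : ℝ} (h0 : 0 ≤ r) (h1 : r < 1) :
    r * L r ≤ Real.log 2 * (1 - r ^ 2) * A r := by
  rcases eq_or_lt_of_le h0 with h | h
  · simp [← h]
  have := qq_le_log2 h h1
  rw [qq, ← mul_div_assoc,
    div_le_iff₀ (mul_pos (one_sub_sq_pos (by linarith) h1) (A_pos h h1))] at this
  linarith

/-! ### the inverse `rho` of `L` -/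

noncomputable def rho (y : ℝ) : ℝ := Function.invFunOn L (Icc 0 1) (min y (Real.log 2))

theorem rho_spec {y : ℝ} (hy : 0 < y) :
    rho y ∈ Icc (0:ℝ) 1 ∧ L (rho y) = min y (Real.log 2) := by
  have hm : min y (Real.log 2) ∈ L '' Icc 0 1 := by
    apply intermediate_value_Icc' zero_le_one continuous_L.continuousOn
    simp only [L_one, L_zero]
    exact ⟨le_min hy.le (by linarith [log2_lb]), min_le_right _ _⟩
  obtain ⟨a, ha, ha'⟩ := hm
  exact ⟨Function.invFunOn_mem ⟨a, ha, ha'⟩, Function.invFunOn_eq ⟨a, ha, ha'⟩⟩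

theorem rho_nonneg {y : ℝ} (hy : 0 < y) : 0 ≤ rho y := (rho_spec hy).1.1

theorem rho_lt_one {y : ℝ} (hy : 0 < y) : rho y < 1 := by
  rcases eq_or_lt_of_le (rho_spec hy).1.2 with h | h
  · have := (rho_spec hy).2
    rw [h, L_one] at this
    have : 0 < min y (Real.log 2) := lt_min hy (by linarith [log2_lb])
    linarith
  · exact h

theorem L_rho {y : ℝ} (hy : 0 < y) : L (rho y) = min y (Real.log 2) := (rho_spec hy).2

theorem rho_mem {y : ℝ} (hy : 0 < y) : rho y ∈ Ico (0:ℝ) 1 := ⟨rho_nonneg hy, rho_lt_one hy⟩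

theorem rho_L {r : ℝ} (h0 : 0 ≤ r) (h1 : r < 1) : rho (L r) = r := by
  have hp := L_pos (by linarith : -1 < r) h1
  refine L_strictAntiOn.injOn (rho_spec hp).1 ⟨h0, h1.le⟩ ?_
  rw [L_rho hp, min_eq_left (L_le_log2 (by linarith) h1.le)]

theorem rho_of_ge {y : ℝ} (hy : Real.log 2 ≤ y) : rho y = 0 := by
  have hp : 0 < y := by linarith [log2_lb]
  refine L_strictAntiOn.injOn (rho_spec hp).1 ⟨le_rfl, zero_le_one⟩ ?_
  rw [L_rho hp, min_eq_right hy, L_zero]

theorem rho_antitone {x y : ℝ} (hx : 0 < x) (hxy : x ≤ y) : rho y ≤ rho x := by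
  by_contra h
  push Not at h
  have := L_strictAntiOn (rho_spec hx).1 (rho_spec (hx.trans_le hxy)).1 h
  rw [L_rho hx, L_rho (hx.trans_le hxy)] at this
  exact absurd (min_le_min_right (Real.log 2) hxy) (not_le.2 this)

theorem rho_le_of {y r : ℝ} (hy : 0 < y) (h0 : 0 ≤ r) (h1 : r < 1) (h : L r ≤ y) :
    rho y ≤ r := by
  have := rho_antitone (L_pos (by linarith) h1) h
  rwa [rho_L h0 h1] at this

theorem le_rho_of {y r : ℝ} (hy : 0 < y) (h0 : 0 ≤ r) (h1 : r < 1) (h : y ≤ L r) :
    r ≤ rho y := by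
  have := rho_antitone hy h
  rwa [rho_L h0 h1] at this

theorem rho_continuousOn : ContinuousOn rho (Ioi 0) := by
  intro y hy
  refine ContinuousAt.continuousWithinAt ?_
  have hev : ∀ᶠ z in 𝓝 y, (0:ℝ) < z := Ioi_mem_nhds hy
  rw [ContinuousAt, tendsto_order]
  constructor
  · intro a ha
    rcases lt_or_ge a 0 with h | h
    · filter_upwards [hev] with z hz using h.trans_le (rho_nonneg hz)
    · have hlt : min y (Real.log 2) < L a := by
        have := L_strictAntiOn ⟨h, (ha.trans (rho_lt_one hy)).le⟩ (rho_spec hy).1 ha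
        rwa [L_rho hy] at this
      filter_upwards [hev, (continuous_id.min continuous_const).continuousAt.eventually_lt
        continuousAt_const hlt] with z hz hz'
      by_contra hc
      push Not at hc
      have := L_strictAntiOn.antitoneOn (rho_spec hz).1 ⟨h, (ha.trans (rho_lt_one hy)).le⟩ hc
      rw [L_rho hz] at this
      exact absurd this (not_le.2 hz')
  · intro a ha
    set b := min a ((rho y + 1) / 2) with hb
    have hb1 : b < 1 := (min_le_right _ _).trans_lt (by linarith [rho_lt_one hy])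
    have hb2 : rho y < b := lt_min ha (by linarith [rho_lt_one hy])
    have hb0 : 0 ≤ b := (rho_nonneg hy).trans hb2.le
    have hlt : L b < min y (Real.log 2) := by
      have := L_strictAntiOn (rho_spec hy).1 ⟨hb0, hb1.le⟩ hb2
      rwa [L_rho hy] at this
    filter_upwards [hev, continuousAt_const.eventually_lt
      (continuous_id.min continuous_const).continuousAt hlt] with z hz hz'
    refine lt_of_lt_of_le ?_ (min_le_left a ((rho y + 1) / 2))
    by_contra hc
    push Not at hc
    have := L_strictAntiOn.antitoneOn ⟨hb0, hb1.le⟩ (rho_spec hz).1 hc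
    rw [L_rho hz] at this
    exact absurd this (not_le.2 hz')

/-- `D y = dd (rho y)` and its difference bound. -/
theorem dd_rho_sub_le {y yb : ℝ} (hy : 0 < y) (hyb : y ≤ yb) :
    0 ≤ dd (rho y) - dd (rho yb) :=
  sub_nonneg.2 (dd_mono (rho_nonneg (hy.trans_le hyb)) (rho_antitone hy hyb) (rho_lt_one hy))

theorem dd_rho_le_of_le {y r : ℝ} (h0 : 0 < r) (h1 : r < 1) (hy : 0 < y) (h : y ≤ L r) :
    dd (rho y) ≤ qq r / y - 1 := by
  have hr := le_rho_of hy h0.le h1 h
  have hp := h0.trans_le hr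
  have hy2 : y ≤ Real.log 2 := h.trans (L_le_log2 (by linarith) h1.le)
  have e := qq_eq hp
  rw [L_rho hy, min_eq_left hy2] at e
  have := qq_antitone h0 hr (rho_lt_one hy)
  rw [le_sub_iff_add_le, le_div_iff₀ hy]
  linarith

theorem dd_rho_sub_le_qq {y yb r : ℝ} (h0 : 0 < r) (h1 : r < 1) (hy : 0 < y) (h : y ≤ L r)
    (hyb : y ≤ yb) : dd (rho y) - dd (rho yb) ≤ qq r * (1 / y - 1 / yb) := by
  have hp : 0 < rho y := h0.trans_le (le_rho_of hy h0.le h1 h)
  have hy2 : y ≤ Real.log 2 := h.trans (L_le_log2 (by linarith) h1.le)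
  have hyb0 := hy.trans_le hyb
  have e : dd (rho y) = qq (rho y) / y - 1 := by
    rw [qq_eq hp, L_rho hy, min_eq_left hy2]; field_simp; ring
  have e2 : qq (rho y) / yb - 1 ≤ dd (rho yb) := by
    rcases le_or_gt yb (Real.log 2) with h2 | h2
    · rcases eq_or_lt_of_le (rho_nonneg hyb0) with hz | hz
      · rw [← hz, dd_zero, sub_nonpos, div_le_one hyb0]
        have := L_rho hyb0
        rw [← hz, L_zero, min_eq_left h2] at this
        exact (qq_le_log2 hp (rho_lt_one hy)).trans this.le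
      · have := qq_antitone hz (rho_antitone hy hyb) (rho_lt_one hy)
        have e3 := qq_eq hz
        rw [L_rho hyb0, min_eq_left h2] at e3
        rw [sub_le_iff_le_add, div_le_iff₀ hyb0]; linarith
    · rw [rho_of_ge h2.le, dd_zero, sub_nonpos, div_le_one hyb0]
      exact (qq_le_log2 hp (rho_lt_one hy)).trans h2.le
  have hq : qq (rho y) ≤ qq r := qq_antitone h0 (le_rho_of hy h0.le h1 h) (rho_lt_one hy)
  have h3 : 0 ≤ 1 / y - 1 / yb := sub_nonneg.2 (one_div_le_one_div_of_le hy hyb)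
  calc dd (rho y) - dd (rho yb) ≤ qq (rho y) * (1 / y - 1 / yb) := by
        rw [mul_sub, mul_one_div, mul_one_div]; linarith
    _ ≤ qq r * (1 / y - 1 / yb) := mul_le_mul_of_nonneg_right hq h3

/-! ### the two envelopes -/

noncomputable def Pb (w e : ℝ) : ℝ := beta (rho (e / w)) * w - dd (rho (e / w)) * e

noncomputable def sig (i : ℝ) : ℝ := rho (max (Real.log 2 - i) (L (1/3)))

noncomputable def ff (i : ℝ) : ℝ := beta (sig i) - dd (sig i) * (Real.log 2 - i)

theorem branch_rho {r y : ℝ} (h0 : 0 ≤ r) (h1 : r < 1) (hy : 0 < y) :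
    beta r - dd r * y ≤ beta (rho y) - dd (rho y) * y := by
  rcases le_or_gt y (Real.log 2) with h | h
  · have := tangent h0 h1 (rho_nonneg hy) (rho_lt_one hy)
    rw [L_rho hy, min_eq_left h] at this
    simp only [beta, L_rho hy, min_eq_left h] at this ⊢
    linarith
  · rw [rho_of_ge h.le]
    simp only [beta_zero, dd_zero, zero_mul, sub_zero]
    have h2 := beta_le_log2_mul h0 h1
    nlinarith [dd_nonneg h0 h1]

theorem le_Pb {r w e : ℝ} (h0 : 0 ≤ r) (h1 : r < 1) (hw : 0 < w) (he : 0 < e) :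
    beta r * w - dd r * e ≤ Pb w e := by
  have := mul_le_mul_of_nonneg_right (branch_rho h0 h1 (div_pos he hw)) hw.le
  simp only [sub_mul, mul_assoc, div_mul_cancel₀ _ hw.ne'] at this
  exact this

theorem Pb_nonneg {w e : ℝ} (hw : 0 < w) (he : 0 < e) : 0 ≤ Pb w e := by
  simpa using le_Pb le_rfl zero_lt_one hw he

theorem Pb_eq_zero {w e : ℝ} (hw : 0 < w) (h : Real.log 2 * w ≤ e) : Pb w e = 0 := by
  simp [Pb, rho_of_ge ((le_div_iff₀ hw).2 h)]

theorem L_third_pos : 0 < L (1/3 : ℝ) := L_pos (by norm_num) (by norm_num)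

theorem sig_pos_arg (i : ℝ) : 0 < max (Real.log 2 - i) (L (1/3 : ℝ)) :=
  L_third_pos.trans_le (le_max_right _ _)

theorem sig_nonneg (i : ℝ) : 0 ≤ sig i := rho_nonneg (sig_pos_arg i)

theorem sig_le (i : ℝ) : sig i ≤ 1/3 :=
  rho_le_of (sig_pos_arg i) (by norm_num) (by norm_num) (le_max_right _ _)

theorem sig_lt_one (i : ℝ) : sig i < 1 := (sig_le i).trans_lt (by norm_num)

theorem continuous_sig : Continuous sig :=
  rho_continuousOn.comp_continuous ((continuous_const.sub continuous_id).max continuous_const)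
    sig_pos_arg

theorem le_ff {r : ℝ} (h0 : 0 ≤ r) (h1 : r ≤ 1/3) (i : ℝ) :
    beta r - dd r * (Real.log 2 - i) ≤ ff i := by
  have h1' : r < 1 := h1.trans_lt (by norm_num)
  rcases le_total (L (1/3)) (Real.log 2 - i) with h | h
  · simp only [ff, sig, max_eq_left h]
    exact branch_rho h0 h1' (L_third_pos.trans_le h)
  · simp only [ff, sig, max_eq_right h]
    have := branch_rho h0 h1' L_third_pos
    rw [rho_L (by norm_num) (by norm_num)] at this ⊢
    have := dd_mono h0 h1 (by norm_num : (1/3:ℝ) < 1)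
    nlinarith

theorem ff_nonneg (i : ℝ) : 0 ≤ ff i := by simpa using le_ff le_rfl (by norm_num) i

theorem ff_zero : ff 0 = 0 := by
  have : sig 0 = 0 := by
    simp only [sig, sub_zero, max_eq_left (L_le_log2 (by norm_num : (-1:ℝ) ≤ 1/3) (by norm_num))]
    exact rho_of_ge le_rfl
  simp [ff, this]

theorem Phi_sig {i : ℝ} (hi : 0 ≤ i) : Phi (sig i) = min i (Phi (1/3)) := by
  simp only [Phi, sig]
  rw [L_rho (sig_pos_arg i), min_eq_left]
  · rcases le_total (Real.log 2 - i) (L (1/3)) with h | h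
    · rw [max_eq_right h]; rw [min_eq_right (by linarith)]
    · rw [max_eq_left h]; rw [min_eq_left (by linarith)]; ring
  · exact max_le (by linarith) (L_le_log2 (by norm_num) (by norm_num))

/-- Differentiating a supremum along a continuous selection of the maximiser. -/
theorem hasDerivAt_of_selection {F a b w e : ℝ → ℝ} {t₀ w' e' : ℝ} {S : Set ℝ}
    (hS : S ∈ 𝓝 t₀) (heq : ∀ t ∈ S, F t = a t * w t - b t * e t)
    (hle : ∀ t ∈ S, ∀ s ∈ S, a t * w s - b t * e s ≤ F s)
    (ha : ContinuousAt a t₀) (hb : ContinuousAt b t₀)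
    (hw : HasDerivAt w w' t₀) (he : HasDerivAt e e' t₀) :
    HasDerivAt F (a t₀ * w' - b t₀ * e') t₀ := by
  have h0 := mem_of_mem_nhds hS
  have hlin := (hw.const_mul (a t₀)).sub (he.const_mul (b t₀))
  have hG : HasDerivAt (fun t => F t - (a t₀ * w t - b t₀ * e t)) 0 t₀ := by
    rw [hasDerivAt_iff_isLittleO]
    simp only [smul_zero, sub_zero]
    have oa : (fun t => (a t - a t₀)) =o[𝓝 t₀] (fun _ => (1:ℝ)) := by
      rw [Asymptotics.isLittleO_one_iff]; simpa using ha.tendsto.sub_const (a t₀)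
    have ob : (fun t => (b t - b t₀)) =o[𝓝 t₀] (fun _ => (1:ℝ)) := by
      rw [Asymptotics.isLittleO_one_iff]; simpa using hb.tendsto.sub_const (b t₀)
    have Ow := hw.isBigO_sub
    have Oe := he.isBigO_sub
    have o1 := oa.mul_isBigO Ow
    have o2 := ob.mul_isBigO Oe
    simp only [one_mul] at o1 o2
    refine (Asymptotics.IsBigO.of_bound' ?_).trans_isLittleO
      (o1.norm_left.add o2.norm_left)
    filter_upwards [hS] with t ht
    have e1 := heq t ht
    have e2 := hle t ht t₀ h0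
    have e3 := hle t₀ h0 t ht
    have e4 := heq t₀ h0
    simp only [Real.norm_eq_abs]
    rw [abs_of_nonneg (by linarith :
      0 ≤ F t - (a t₀ * w t - b t₀ * e t) - (F t₀ - (a t₀ * w t₀ - b t₀ * e t₀)))]
    refine le_trans ?_ (le_abs_self _)
    nlinarith [le_abs_self ((a t - a t₀) * (w t - w t₀)),
      neg_abs_le ((b t - b t₀) * (e t - e t₀))]
  exact (hG.add hlin).congr_of_eventuallyEq (Eventually.of_forall fun t => by simp) |>.congr_deriv
    (by simp)

theorem hasDerivAt_Pb {w e : ℝ → ℝ} {t₀ w' e' : ℝ} (hw0 : 0 < w t₀) (he0 : 0 < e t₀)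
    (hw : HasDerivAt w w' t₀) (he : HasDerivAt e e' t₀) :
    HasDerivAt (fun t => Pb (w t) (e t))
      (beta (rho (e t₀ / w t₀)) * w' - dd (rho (e t₀ / w t₀)) * e') t₀ := by
  have hc : ContinuousAt (fun t => rho (e t / w t)) t₀ :=
    ContinuousAt.comp (g := rho) (f := fun t => e t / w t)
      (rho_continuousOn.continuousAt (Ioi_mem_nhds (div_pos he0 hw0)))
      (he.continuousAt.div hw.continuousAt hw0.ne')
  have hin : ∀ᶠ t in 𝓝 t₀, rho (e t / w t) ∈ Ico (0:ℝ) 1 := by
    filter_upwards [hw.continuousAt.eventually_const_lt hw0,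
      he.continuousAt.eventually_const_lt he0] with t a b using rho_mem (div_pos b a)
  have hcc : Tendsto (fun t => rho (e t / w t)) (𝓝 t₀) (𝓝[Ico 0 1] (rho (e t₀ / w t₀))) :=
    tendsto_nhdsWithin_iff.2 ⟨hc.tendsto, hin⟩
  refine hasDerivAt_of_selection (S := {t | 0 < w t ∧ 0 < e t})
    ?_ (fun t _ => rfl) (fun t ht s hs => ?_) ?_ ?_ hw he
  · filter_upwards [hw.continuousAt.eventually_const_lt hw0,
      he.continuousAt.eventually_const_lt he0] with t a b using ⟨a, b⟩
  · exact le_Pb (rho_nonneg (div_pos ht.2 ht.1)) (rho_lt_one (div_pos ht.2 ht.1)) hs.1 hs.2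
  · exact (beta_continuousOn _ (rho_mem (div_pos he0 hw0))).tendsto.comp hcc
  · exact (dd_continuousOn _ (rho_mem (div_pos he0 hw0))).tendsto.comp hcc

theorem hasDerivAt_ff {g : ℝ → ℝ} {t₀ g' : ℝ} (hg : HasDerivAt g g' t₀) :
    HasDerivAt (fun t => ff (g t)) (dd (sig (g t₀)) * g') t₀ := by
  have hc : ContinuousAt (fun t => sig (g t)) t₀ :=
    continuous_sig.continuousAt.comp hg.continuousAt
  have hcc : Tendsto (fun t => sig (g t)) (𝓝 t₀) (𝓝[Ico 0 1] (sig (g t₀))) :=
    tendsto_nhdsWithin_iff.2 ⟨hc.tendsto, Eventually.of_forall fun t =>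
      ⟨sig_nonneg _, sig_lt_one _⟩⟩
  have hm : sig (g t₀) ∈ Ico (0:ℝ) 1 := ⟨sig_nonneg _, sig_lt_one _⟩
  refine (hasDerivAt_of_selection (S := univ) (w := fun _ => (1:ℝ))
    (e := fun t => Real.log 2 - g t) (a := fun t => beta (sig (g t)))
    (b := fun t => dd (sig (g t))) univ_mem (fun t _ => by simp [ff])
    (fun t _ s _ => by simpa using le_ff (sig_nonneg (g t)) (sig_le (g t)) (g s))
    ((beta_continuousOn _ hm).tendsto.comp hcc) ((dd_continuousOn _ hm).tendsto.comp hcc)
    (hasDerivAt_const _ _) (hg.const_sub _)).congr_deriv (by ring)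

theorem continuous_ff : Continuous ff := by
  rw [continuous_iff_continuousAt]
  exact fun i => (hasDerivAt_ff (hasDerivAt_id i)).continuousAt

theorem continuousAt_Pb {w e : ℝ} (hw : 0 < w) (he : 0 < e) :
    ContinuousAt (fun p : ℝ × ℝ => Pb p.1 p.2) (w, e) := by
  have hc : ContinuousAt (fun p : ℝ × ℝ => rho (p.2 / p.1)) (w, e) :=
    ContinuousAt.comp (g := rho) (f := fun p : ℝ × ℝ => p.2 / p.1)
      (rho_continuousOn.continuousAt (Ioi_mem_nhds (div_pos he hw)))
      (continuousAt_snd.div continuousAt_fst hw.ne')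
  have hcc : Tendsto (fun p : ℝ × ℝ => rho (p.2 / p.1)) (𝓝 (w, e))
      (𝓝[Ico 0 1] (rho (e / w))) := by
    refine tendsto_nhdsWithin_iff.2 ⟨hc.tendsto, ?_⟩
    filter_upwards [continuousAt_fst.eventually_const_lt hw,
      continuousAt_snd.eventually_const_lt he] with p a b using rho_mem (div_pos b a)
  have hb : ContinuousAt (fun p : ℝ × ℝ => beta (rho (p.2 / p.1))) (w, e) :=
    (beta_continuousOn _ (rho_mem (div_pos he hw))).tendsto.comp hcc
  have hd : ContinuousAt (fun p : ℝ × ℝ => dd (rho (p.2 / p.1))) (w, e) :=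
    (dd_continuousOn _ (rho_mem (div_pos he hw))).tendsto.comp hcc
  exact (hb.mul continuousAt_fst).sub (hd.mul continuousAt_snd)

end Vale.Agent.CK
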