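import Vale.Agent.CK.Path

/-!
The two-point inequality behind the induction step.
-/

namespace Vale.Agent.CK

open Real Set Filter Topology

noncomputable def Wf (m : ℝ) : ℝ := (1 - m ^ 2) * (1 - m ^ 2 / 8)

theorem Wf_pos {m : ℝ} (h : m ∈ Ioo (-1:ℝ) 1) : 0 < Wf m := by
  have := one_sub_sq_pos h.1 h.2
  exact mul_pos this (by linarith)

noncomputable def qF (M t : ℝ) : ℝ := (A (M + t) - A (M - t)) / 2
noncomputable def rF (M t : ℝ) : ℝ := T (qF M t)
noncomputable def sF (M t : ℝ) : ℝ := T ((A (M + t) + A (M - t)) / 2)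
noncomputable def tauF (M t : ℝ) : ℝ :=
  sF M t ^ 2 * (1 - rF M t ^ 2) / (1 - rF M t ^ 2 * sF M t ^ 2)
noncomputable def e0F (M t : ℝ) : ℝ :=
  (1 - sF M t ^ 2) / (1 - rF M t ^ 2 * sF M t ^ 2) * L (rF M t)
noncomputable def WbF (M t : ℝ) : ℝ := (Wf (M + t) + Wf (M - t)) / 2
noncomputable def JSF (M t : ℝ) : ℝ := L M - (L (M + t) + L (M - t)) / 2
noncomputable def kF (M t : ℝ) : ℝ := qF M t * t - 2 * JSF M t

section

variable {M t : ℝ}

theorem e0F_pos (ha : M + t ∈ Ioo (-1:ℝ) 1) (hb : M - t ∈ Ioo (-1:ℝ) 1) : 0 < e0F M t := by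
  have hs := T_mem ((A (M + t) + A (M - t)) / 2)
  have hr := T_mem (qF M t)
  exact mul_pos (div_pos (one_sub_sq_pos hs.1 hs.2) (D_pos (Ioo_subset_Icc_self hs) hr))
    (L_pos hr.1 hr.2)

theorem params (ht : 0 < t) (ha : M + t ∈ Ioo (-1:ℝ) 1) (hb : M - t ∈ Ioo (-1:ℝ) 1) :
    0 < rF M t ∧ rF M t < 1 ∧ 0 ≤ tauF M t ∧ tauF M t < 1 ∧ A (rF M t) = qF M t ∧
      e0F M t = (1 - tauF M t) * L (rF M t) ∧ t = rF M t * (1 - tauF M t) ∧
      M ^ 2 = mm (1 - rF M t ^ 2) (tauF M t) ∧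
      (1 / (1 - (M + t) ^ 2) + 1 / (1 - (M - t) ^ 2)) / 2 * t =
        rF M t / (1 - rF M t ^ 2) *
          (1 + 2 * rF M t ^ 2 * tauF M t / (1 - rF M t ^ 2)) := by
  have hs : sF M t ∈ Ioo (-1:ℝ) 1 := T_mem _
  have hr : rF M t ∈ Ioo (-1:ℝ) 1 := T_mem _
  have hq : 0 < qF M t := by
    unfold qF; linarith [A_strictMonoOn hb ha (by linarith)]
  have hr0 : 0 < rF M t := T_pos hq
  obtain ⟨pa, pb⟩ := exists_param ha hb
  set s := sF M t
  set r := rF M t
  change M + t = addv s r at pa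
  change M - t = addv s (-r) at pb
  have hD := D_pos (Ioo_subset_Icc_self hs) hr
  have hw := one_sub_sq_pos hr.1 hr.2
  have hs2 := one_sub_sq_pos hs.1 hs.2
  have hrn : -r ∈ Ioo (-1:ℝ) 1 := ⟨by linarith [hr.2], by linarith [hr.1]⟩
  have d1 := addv_den (Ioo_subset_Icc_self hs) hr
  have d2 := addv_den (Ioo_subset_Icc_self hs) hrn
  have h1 : 1 - tauF M t = (1 - s ^ 2) / (1 - r ^ 2 * s ^ 2) := by
    show 1 - s ^ 2 * (1 - r ^ 2) / (1 - r ^ 2 * s ^ 2) = _
    rw [one_sub_div hD.ne']; ring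
  have htt : t = r * ((1 - s ^ 2) / (1 - r ^ 2 * s ^ 2)) := by
    rw [← half_diff (Ioo_subset_Icc_self hs) hr, ← pa, ← pb]; ring
  have hMM : M = s * (1 - r ^ 2) / (1 - r ^ 2 * s ^ 2) := by
    rw [← half_sum (Ioo_subset_Icc_self hs) hr, ← pa, ← pb]; ring
  have htau : tauF M t = s ^ 2 * (1 - r ^ 2) / (1 - r ^ 2 * s ^ 2) := rfl
  have hD' : 1 - s ^ 2 * r ^ 2 ≠ 0 := by rw [mul_comm]; exact hD.ne'
  have d3 : 1 - s * r ≠ 0 := by have := d2.ne'; rwa [mul_neg, ← sub_eq_add_neg] at this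
  refine ⟨hr0, hr.2, div_nonneg (mul_nonneg (sq_nonneg _) hw.le) hD.le, ?_, A_T _, ?_, ?_, ?_, ?_⟩
  · linarith [div_pos hs2 hD, h1]
  · rw [h1]; rfl
  · rw [h1]; exact htt
  · rw [htau, mm, hMM]; field_simp; ring
  · rw [pa, pb, htau]
    conv_lhs => arg 2; rw [htt]
    have e1 : 1 - addv s r ^ 2 = (1 - s ^ 2) * (1 - r ^ 2) / (1 + s * r) ^ 2 := by
      rw [addv, div_pow, one_sub_div (pow_ne_zero 2 d1.ne')]; ring
    have e2 : 1 - addv s (-r) ^ 2 = (1 - s ^ 2) * (1 - r ^ 2) / (1 + s * -r) ^ 2 := by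
      rw [addv, div_pow, one_sub_div (pow_ne_zero 2 d2.ne')]; ring
    rw [e1, e2, one_div_div, one_div_div]
    field_simp
    ring

theorem Wf_eq_vv (ht : 0 < t) (ha : M + t ∈ Ioo (-1:ℝ) 1) (hb : M - t ∈ Ioo (-1:ℝ) 1) :
    Wf M = (1 - tauF M t) * vv (1 - rF M t ^ 2) (tauF M t) ∧
      WbF M t = (1 - tauF M t) *
        (vv (1 - rF M t ^ 2) (tauF M t) - om (1 - rF M t ^ 2) (tauF M t)) := by
  obtain ⟨-, -, -, -, -, -, htt, hM, -⟩ := params ht ha hb
  generalize rF M t = r at *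
  generalize tauF M t = τ at *
  have e : WbF M t = 1 - 9 / 8 * (M ^ 2 + t ^ 2) +
      1 / 8 * ((M ^ 2) ^ 2 + 6 * M ^ 2 * t ^ 2 + (t ^ 2) ^ 2) := by
    unfold WbF Wf; ring
  constructor
  · rw [Wf, hM, vv, mm]; ring
  · rw [e, hM, htt, vv, om, cone, mm]; ring

theorem hasDerivAt_qF (ha : M + t ∈ Ioo (-1:ℝ) 1) (hb : M - t ∈ Ioo (-1:ℝ) 1) :
    HasDerivAt (qF M) ((1 / (1 - (M + t) ^ 2) + 1 / (1 - (M - t) ^ 2)) / 2) t := by
  refine ((((hasDerivAt_A ha.1 ha.2).comp t ((hasDerivAt_id t).const_add M)).sub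
    ((hasDerivAt_A hb.1 hb.2).comp t ((hasDerivAt_id t).const_sub M))).div_const 2).congr_deriv ?_
  ring

theorem hasDerivAt_JSF (ha : M + t ∈ Ioo (-1:ℝ) 1) (hb : M - t ∈ Ioo (-1:ℝ) 1) :
    HasDerivAt (JSF M) (qF M t) t := by
  refine (((((hasDerivAt_L ha.1 ha.2).comp t ((hasDerivAt_id t).const_add M)).add
    ((hasDerivAt_L hb.1 hb.2).comp t ((hasDerivAt_id t).const_sub M))).div_const 2).const_sub
      (L M)).congr_deriv ?_
  unfold qF; ring

theorem hasDerivAt_kF (ha : M + t ∈ Ioo (-1:ℝ) 1) (hb : M - t ∈ Ioo (-1:ℝ) 1) :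
    HasDerivAt (kF M)
      ((1 / (1 - (M + t) ^ 2) + 1 / (1 - (M - t) ^ 2)) / 2 * t - qF M t) t := by
  refine (((hasDerivAt_qF ha hb).mul (hasDerivAt_id t)).sub
    ((hasDerivAt_JSF ha hb).const_mul 2)).congr_deriv ?_
  simp only [id]; ring

theorem hasDerivAt_WbF (ht : 0 < t) (ha : M + t ∈ Ioo (-1:ℝ) 1) (hb : M - t ∈ Ioo (-1:ℝ) 1) :
    HasDerivAt (WbF M)
      (-(2 * t * ctwo (1 - rF M t ^ 2) (tauF M t))) t := by
  obtain ⟨-, -, -, -, -, -, htt, hM, -⟩ := params ht ha hb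
  have e : WbF M = fun u => 1 - 9 / 8 * (M ^ 2 + u ^ 2) +
      1 / 8 * ((M ^ 2) ^ 2 + 6 * M ^ 2 * u ^ 2 + u ^ 4) := by
    funext u; unfold WbF Wf; ring
  rw [e]
  refine ((((((hasDerivAt_id t).pow 2).const_add (M ^ 2)).const_mul (9 / 8)).const_sub 1).add
    (((((hasDerivAt_id t).pow 2).const_mul (6 * M ^ 2)).const_add ((M ^ 2) ^ 2)).add
      ((hasDerivAt_id t).pow 4) |>.const_mul (1 / 8))).congr_deriv ?_
  have h2 : t ^ 2 = (1 - (1 - rF M t ^ 2)) * (1 - tauF M t) * (1 - tauF M t) := by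
    conv_lhs => rw [htt]
    ring
  rw [ctwo, ← hM, ← h2]
  simp only [id, Nat.cast_ofNat]; ring

theorem hasDerivAt_e0F (ht : 0 < t) (ha : M + t ∈ Ioo (-1:ℝ) 1) (hb : M - t ∈ Ioo (-1:ℝ) 1) :
    HasDerivAt (e0F M) (-(A (rF M t) +
      2 * Lam (rF M t) * rF M t * tauF M t / (1 - rF M t ^ 2))) t := by
  obtain ⟨hr0, hr1, -, -, -, -, htt, -, hq⟩ := params ht ha hb
  have hev : e0F M =ᶠ[𝓝 t] fun u => u * L (rF M u) / rF M u := by
    filter_upwards [Ioi_mem_nhds ht,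
      (continuous_const.add continuous_id).continuousAt.preimage_mem_nhds (Ioo_mem_nhds ha.1 ha.2),
      (continuous_const.sub continuous_id).continuousAt.preimage_mem_nhds (Ioo_mem_nhds hb.1 hb.2)]
      with u hu a b
    obtain ⟨p0, -, -, -, -, pe, pt, -, -⟩ := params hu a b
    rw [pe]
    conv_rhs => arg 1; arg 1; rw [pt]
    field_simp
  have hr' := (hasDerivAt_T (qF M t)).comp t (hasDerivAt_qF ha hb)
  have hL := (hasDerivAt_L (by linarith) hr1).comp t hr'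
  refine (((hasDerivAt_id t).mul hL).div hr' hr0.ne').congr_of_eventuallyEq hev |>.congr_deriv ?_
  simp only [id, Function.comp, rF, Pi.mul_apply] at *
  generalize (1 / (1 - (M + t) ^ 2) + 1 / (1 - (M - t) ^ 2)) / 2 = Q at *
  generalize T (qF M t) = r at *
  have hw := (one_sub_sq_pos (by linarith : -1 < r) hr1).ne'
  have e : t * Q * (1 - r ^ 2) = r * (1 + 2 * r ^ 2 * tauF M t / (1 - r ^ 2)) := by
    rw [mul_comm t Q, hq]; field_simp
  have e2 : ((1 * L r + t * (-A r * ((1 - r ^ 2) * Q))) * r - t * L r * ((1 - r ^ 2) * Q)) / r ^ 2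
      = L r / r - (t * Q * (1 - r ^ 2)) * (r * A r + L r) / r ^ 2 := by
    field_simp; ring
  rw [e2, e, Lam]
  field_simp
  ring

theorem continuousAt_aux (ha : M + t ∈ Ioo (-1:ℝ) 1) (hb : M - t ∈ Ioo (-1:ℝ) 1) :
    ContinuousAt (e0F M) t ∧ ContinuousAt (WbF M) t ∧ ContinuousAt (kF M) t ∧
      ContinuousAt (JSF M) t := by
  have hA : ContinuousAt (fun u => A (M + u)) t :=
    (hasDerivAt_A ha.1 ha.2).continuousAt.comp (f := fun u => M + u)
      (continuous_const.add continuous_id).continuousAt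
  have hB : ContinuousAt (fun u => A (M - u)) t :=
    (hasDerivAt_A hb.1 hb.2).continuousAt.comp (f := fun u => M - u)
      (continuous_const.sub continuous_id).continuousAt
  have hr : ContinuousAt (rF M) t :=
    continuous_T.continuousAt.comp (f := qF M) ((hA.sub hB).div_const 2)
  have hs : ContinuousAt (sF M) t :=
    continuous_T.continuousAt.comp (f := fun u => (A (M + u) + A (M - u)) / 2)
      ((hA.add hB).div_const 2)
  refine ⟨?_, ?_, (hasDerivAt_kF ha hb).continuousAt, (hasDerivAt_JSF ha hb).continuousAt⟩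
  · exact (((continuousAt_const.sub (hs.pow 2))).div
      (continuousAt_const.sub ((hr.pow 2).mul (hs.pow 2)))
      (D_pos (Ioo_subset_Icc_self (T_mem _)) (T_mem _)).ne').mul
        (continuous_L.continuousAt.comp hr)
  · unfold WbF Wf; fun_prop

end

theorem path_mem {M Δ u : ℝ} (ha : M + Δ ∈ Ioo (-1:ℝ) 1) (hb : M - Δ ∈ Ioo (-1:ℝ) 1)
    (hu : u ∈ Icc 0 Δ) : M + u ∈ Ioo (-1:ℝ) 1 ∧ M - u ∈ Ioo (-1:ℝ) 1 := by
  obtain ⟨h1, h2⟩ := hu
  exact ⟨⟨by linarith [hb.1], by linarith [ha.2]⟩, ⟨by linarith [hb.1], by linarith [ha.2]⟩⟩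

theorem k_ge_crossover {M Δ : ℝ} (hΔ : 0 < Δ) (ha : M + Δ ∈ Ioo (-1:ℝ) 1)
    (hb : M - Δ ∈ Ioo (-1:ℝ) 1) :
    Pb (Wf M) (e0F M Δ) - Pb (WbF M Δ) (e0F M Δ) ≤ kF M Δ := by
  have hMm : M ∈ Ioo (-1:ℝ) 1 := ⟨by linarith [hb.1], by linarith [ha.2]⟩
  have hWp : ∀ u ∈ Icc 0 Δ, 0 < WbF M u := fun u hu => by
    obtain ⟨a, b⟩ := path_mem ha hb hu
    unfold WbF; linarith [Wf_pos a, Wf_pos b]
  suffices h : MonotoneOn
      (fun u => kF M u - Pb (Wf M) (e0F M u) + Pb (WbF M u) (e0F M u)) (Icc 0 Δ) by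
    have := h (left_mem_Icc.2 hΔ.le) (right_mem_Icc.2 hΔ.le) hΔ.le
    have h0 : WbF M 0 = Wf M := by simp [WbF]
    have hk : kF M 0 = 0 := by simp [kF, JSF]
    simp only [h0, hk] at this
    linarith
  apply monotoneOn_of_hasDerivWithinAt_nonneg (convex_Icc 0 Δ)
    (f' := fun u => (1 / (1 - (M + u) ^ 2) + 1 / (1 - (M - u) ^ 2)) / 2 * u - qF M u
      - dd (rho (e0F M u / Wf M)) * (A (rF M u) +
          2 * Lam (rF M u) * rF M u * tauF M u / (1 - rF M u ^ 2))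
      + (beta (rho (e0F M u / WbF M u)) * (-(2 * u * ctwo (1 - rF M u ^ 2) (tauF M u))) +
          dd (rho (e0F M u / WbF M u)) * (A (rF M u) +
            2 * Lam (rF M u) * rF M u * tauF M u / (1 - rF M u ^ 2))))
  · intro u hu
    obtain ⟨a, b⟩ := path_mem ha hb hu
    obtain ⟨c1, c2, c3, -⟩ := continuousAt_aux a b
    have p1 : ContinuousAt (fun u => Pb (Wf M) (e0F M u)) u :=
      (continuousAt_Pb (Wf_pos hMm) (e0F_pos a b)).comp (f := fun u => (Wf M, e0F M u))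
        (continuousAt_const.prodMk c1)
    have p2 : ContinuousAt (fun u => Pb (WbF M u) (e0F M u)) u :=
      (continuousAt_Pb (hWp u hu) (e0F_pos a b)).comp (f := fun u => (WbF M u, e0F M u))
        (c2.prodMk c1)
    exact ((c3.sub p1).add p2).continuousWithinAt
  · intro u hu
    rw [interior_Icc] at hu
    obtain ⟨a, b⟩ := path_mem ha hb (Ioo_subset_Icc_self hu)
    have de := hasDerivAt_e0F hu.1 a b
    have d1 := hasDerivAt_Pb (w := fun _ => Wf M) (Wf_pos hMm) (e0F_pos a b) (hasDerivAt_const u (Wf M)) de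
    have d2 := hasDerivAt_Pb (hWp u (Ioo_subset_Icc_self hu)) (e0F_pos a b)
      (hasDerivAt_WbF hu.1 a b) de
    exact ((((hasDerivAt_kF a b).sub d1).add d2).congr_deriv (by ring)).hasDerivWithinAt
  · intro u hu
    rw [interior_Icc] at hu
    obtain ⟨a, b⟩ := path_mem ha hb (Ioo_subset_Icc_self hu)
    obtain ⟨hr0, hr1, ht0, ht1, hAq, he, htt, -, hk⟩ := params hu.1 a b
    obtain ⟨hW, hWb⟩ := Wf_eq_vv hu.1 a b
    have hWbp := hWp u (Ioo_subset_Icc_self hu)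
    have hvo := pos_of_mul_pos_right (hWb ▸ hWbp) (sub_nonneg.2 ht1.le)
    have h1 : e0F M u / Wf M = L (rF M u) / vv (1 - rF M u ^ 2) (tauF M u) := by
      rw [he, hW, mul_div_mul_left _ _ (by linarith : 1 - tauF M u ≠ 0)]
    have h2 : e0F M u / WbF M u =
        L (rF M u) / (vv (1 - rF M u ^ 2) (tauF M u) - om (1 - rF M u ^ 2) (tauF M u)) := by
      rw [he, hWb, mul_div_mul_left _ _ (by linarith : 1 - tauF M u ≠ 0)]
    rw [hk, h1, h2, ← hAq]
    have hp := path_ineq hr0 hr1 ht0 ht1 hvo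
    have hy := div_pos (L_pos (by linarith) hr1) hvo
    have hb1 := beta_le_log2_mul (rho_nonneg hy) (rho_lt_one hy)
    have hd0 := dd_nonneg (rho_nonneg hy) (rho_lt_one hy)
    have hc2 : 0 ≤ u * ctwo (1 - rF M u ^ 2) (tauF M u) :=
      mul_nonneg hu.1.le (ctwo_nonneg (one_sub_sq_pos (by linarith) hr1).le
        (by nlinarith) ht0 ht1.le)
    have hb2 := hb1.trans (mul_le_mul_of_nonneg_left log2_ub.le hd0)
    have hm := mul_le_mul_of_nonneg_right hb2 hc2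
    have hu' : u * ctwo (1 - rF M u ^ 2) (tauF M u) =
        rF M u * (1 - tauF M u) * ctwo (1 - rF M u ^ 2) (tauF M u) := by rw [← htt]
    generalize dd (rho (L (rF M u) / vv (1 - rF M u ^ 2) (tauF M u))) = D at *
    generalize dd (rho (L (rF M u) / (vv (1 - rF M u ^ 2) (tauF M u) -
      om (1 - rF M u ^ 2) (tauF M u)))) = Db at *
    generalize A (rF M u) + 2 * Lam (rF M u) * rF M u * tauF M u / (1 - rF M u ^ 2) = e1 at *
    rw [hu'] at hm
    rw [show 2 * u * ctwo (1 - rF M u ^ 2) (tauF M u) =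
      2 * (u * ctwo (1 - rF M u ^ 2) (tauF M u)) by ring, hu']
    linarith

theorem JSF_nonneg {M t : ℝ} (ha : M + t ∈ Ioo (-1:ℝ) 1) (hb : M - t ∈ Ioo (-1:ℝ) 1) :
    0 ≤ JSF M t := by
  have hM : M ∈ Ioo (-1:ℝ) 1 := ⟨by linarith [ha.1, hb.1], by linarith [ha.2, hb.2]⟩
  have h1 := breg_nonneg ha hM
  have h2 := breg_nonneg hb hM
  simp only [Phi] at h1 h2
  unfold JSF
  nlinarith

theorem JSF_le {M t : ℝ} (ht : 0 < t) (ha : M + t ∈ Ioo (-1:ℝ) 1) (hb : M - t ∈ Ioo (-1:ℝ) 1) :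
    JSF M t ≤ (1 - tauF M t) * Phi (rF M t) := by
  obtain ⟨hr0, hr1, -, -, -, he, -, -, -⟩ := params ht ha hb
  obtain ⟨pa, pb⟩ := exists_param ha hb
  have h := JS_le (s := sF M t) (T_mem _) hr0 hr1
  change M + t = addv (sF M t) (rF M t) at pa
  change M - t = addv (sF M t) (-rF M t) at pb
  rw [← pa, ← pb, show (M + t + (M - t)) / 2 = M by ring] at h
  have : (1 - sF M t ^ 2) / (1 - rF M t ^ 2 * sF M t ^ 2) = 1 - tauF M t := by
    have hD : 0 < 1 - rF M t ^ 2 * sF M t ^ 2 :=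
      D_pos (Ioo_subset_Icc_self (T_mem _)) (T_mem _)
    rw [tauF, one_sub_div hD.ne']; ring
  rw [this] at h
  exact h

theorem k_ge_ff {M Δ : ℝ} (hΔ : 0 < Δ) (ha : M + Δ ∈ Ioo (-1:ℝ) 1)
    (hb : M - Δ ∈ Ioo (-1:ℝ) 1) : ff (JSF M Δ) ≤ kF M Δ := by
  suffices h : MonotoneOn (fun u => kF M u - ff (JSF M u)) (Icc 0 Δ) by
    have := h (left_mem_Icc.2 hΔ.le) (right_mem_Icc.2 hΔ.le) hΔ.le
    have h0 : JSF M 0 = 0 := by simp [JSF]
    have hk : kF M 0 = 0 := by simp [kF, JSF]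
    simp only [h0, hk, ff_zero] at this
    linarith
  apply monotoneOn_of_hasDerivWithinAt_nonneg (convex_Icc 0 Δ)
    (f' := fun u => (1 / (1 - (M + u) ^ 2) + 1 / (1 - (M - u) ^ 2)) / 2 * u - qF M u
      - dd (sig (JSF M u)) * qF M u)
  · intro u hu
    obtain ⟨a, b⟩ := path_mem ha hb hu
    obtain ⟨-, -, c3, c4⟩ := continuousAt_aux a b
    exact (c3.sub (continuous_ff.continuousAt.comp (f := JSF M) c4)).continuousWithinAt
  · intro u hu
    rw [interior_Icc] at hu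
    obtain ⟨a, b⟩ := path_mem ha hb (Ioo_subset_Icc_self hu)
    exact ((hasDerivAt_kF a b).sub (hasDerivAt_ff (hasDerivAt_JSF a b))).hasDerivWithinAt
  · intro u hu
    rw [interior_Icc] at hu
    obtain ⟨a, b⟩ := path_mem ha hb (Ioo_subset_Icc_self hu)
    obtain ⟨hr0, hr1, ht0, ht1, hAq, he, htt, -, hk⟩ := params hu.1 a b
    rw [hk, ← hAq]
    have hJ : JSF M u ≤ Phi (rF M u) := by
      have := JSF_le hu.1 a b
      nlinarith [Phi_nonneg (by linarith : -1 ≤ rF M u) hr1.le]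
    have hd : dd (sig (JSF M u)) ≤ dd (rF M u) :=
      dd_mono (sig_nonneg _) (sig_le_of_le_Phi hr0.le hr1 hJ) hr1
    have hA := A_pos hr0 hr1
    have hm := mul_le_mul_of_nonneg_right hd hA.le
    have hw := one_sub_sq_pos (by linarith : -1 < rF M u) hr1
    have e : dd (rF M u) * A (rF M u) = rF M u / (1 - rF M u ^ 2) - A (rF M u) := by
      rw [dd_of_pos hr0]; field_simp
    have : 0 ≤ rF M u / (1 - rF M u ^ 2) * (2 * rF M u ^ 2 * tauF M u / (1 - rF M u ^ 2)) := by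
      positivity
    linarith

theorem ff_diff_le {J X : ℝ} (hJ : 0 ≤ J) (hX : 0 ≤ X) :
    ff (J + X) - ff X ≤ ff J + 158 / 100 * J * X ∧ ff (J + X) - ff X ≤ dd (1 / 3) * J := by
  constructor
  · suffices h : MonotoneOn (fun x => ff J + 158 / 100 * J * x - ff (J + x) + ff x) (Icc 0 X) by
      have := h (left_mem_Icc.2 hX) (right_mem_Icc.2 hX) hX
      simp only [ff_zero, mul_zero, add_zero, sub_self] at this
      linarith
    apply monotoneOn_of_hasDerivWithinAt_nonneg (convex_Icc 0 X)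
      (f' := fun x => 158 / 100 * J - dd (sig (J + x)) + dd (sig x))
    · exact (((continuous_const.add (continuous_const.mul continuous_id)).sub
        (continuous_ff.comp (continuous_const.add continuous_id))).add continuous_ff).continuousOn
    · intro x _
      refine (((((hasDerivAt_id x).const_mul (158 / 100 * J)).const_add (ff J)).sub
        (hasDerivAt_ff ((hasDerivAt_id x).const_add J))).add
          (hasDerivAt_ff (hasDerivAt_id x))).congr_deriv ?_ |>.hasDerivWithinAt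
      simp
    · intro x hx
      rw [interior_Icc] at hx
      have h := dd_cap (sig_nonneg x) (sig_mono (by linarith : x ≤ J + x)) (sig_le _)
      rw [Phi_sig hx.1.le, Phi_sig (by linarith [hx.1])] at h
      have : min (J + x) (Phi (1 / 3)) - min x (Phi (1 / 3)) ≤ J := by
        rcases le_total x (Phi (1 / 3)) with h3 | h3
        · rw [min_eq_left h3]; linarith [min_le_left (J + x) (Phi (1 / 3))]
        · rw [min_eq_right h3, min_eq_right (by linarith)]; linarith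
      linarith
  · suffices h : MonotoneOn (fun x => dd (1 / 3) * x - ff x) (Icc X (J + X)) by
      have := h (left_mem_Icc.2 (by linarith)) (right_mem_Icc.2 (by linarith)) (by linarith)
      simp only at this
      linarith
    apply monotoneOn_of_hasDerivWithinAt_nonneg (convex_Icc _ _)
      (f' := fun x => dd (1 / 3) - dd (sig x))
    · exact ((continuous_const.mul continuous_id).sub continuous_ff).continuousOn
    · intro x _
      refine (((hasDerivAt_id x).const_mul (dd (1 / 3))).sub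
        (hasDerivAt_ff (hasDerivAt_id x))).congr_deriv ?_ |>.hasDerivWithinAt
      simp
    · intro x _
      linarith [dd_mono (sig_nonneg x) (sig_le x) (by norm_num : (1 / 3 : ℝ) < 1)]

theorem B2 {M Δ u : ℝ} (hΔ : 0 < Δ) (ha : M + Δ ∈ Ioo (-1:ℝ) 1) (hb : M - Δ ∈ Ioo (-1:ℝ) 1)
    (hu0 : Δ ≤ u) (hu1 : u < 1) :
    dd (rho (Δ * (L u / u) / Wf M)) - dd (rho (Δ * (L u / u) / WbF M Δ)) ≤ eta u := by
  have hM : M ∈ Ioo (-1:ℝ) 1 := ⟨by linarith [hb.1], by linarith [ha.2]⟩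
  have hW := Wf_pos hM
  have hWb : 0 < WbF M Δ := by unfold WbF; linarith [Wf_pos ha, Wf_pos hb]
  have hup : 0 < u := hΔ.trans_le hu0
  have hL : 0 < L u := L_pos (by linarith) hu1
  have hy : 0 < Δ * (L u / u) / Wf M := by positivity
  have hyb : 0 < Δ * (L u / u) / WbF M Δ := by positivity
  have hM2 : M ^ 2 ≤ 1 := by nlinarith [hM.1, hM.2]
  have hΔ1 : Δ < 1 := hu0.trans_lt hu1
  have hdiff : Wf M - WbF M Δ = Δ ^ 2 * (9 / 8 - 1 / 8 * (6 * M ^ 2 + Δ ^ 2)) := by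
    unfold WbF Wf; ring
  rcases le_or_gt (L u) (Δ * (L u / u) / Wf M) with h | h
  · have := dd_mono (rho_nonneg hy) (rho_le_of hy hup.le hu1 h) hu1
    linarith [dd_le_eta hup hu1, dd_nonneg (rho_nonneg hyb) (rho_lt_one hyb)]
  · have hle : Δ * (L u / u) / Wf M ≤ Δ * (L u / u) / WbF M Δ :=
      div_le_div_of_nonneg_left (by positivity) hWb (by
        have : 0 ≤ Δ ^ 2 * (9 / 8 - 1 / 8 * (6 * M ^ 2 + Δ ^ 2)) :=
          mul_nonneg (sq_nonneg _) (by nlinarith)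
        linarith)
    refine (dd_rho_sub_le_qq hup hu1 hy h.le hle).trans ?_
    have hA := A_pos hup hu1
    have hw := one_sub_sq_pos (by linarith : -1 < u) hu1
    have hLam := Lam_pos hup.le hu1
    have e : qq u * (1 / (Δ * (L u / u) / Wf M) - 1 / (Δ * (L u / u) / WbF M Δ)) =
        u ^ 2 * (Wf M - WbF M Δ) / (Δ * ((1 - u ^ 2) * A u)) := by
      rw [qq]; field_simp
    rw [e, hdiff, eta, div_le_div_iff₀ (by positivity) (by positivity)]
    have h1 : Δ * (9 / 8 - 1 / 8 * (6 * M ^ 2 + Δ ^ 2)) ≤ u * (9 / 8 - 1 / 8 * u ^ 2) := by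
      have : 0 ≤ (u - Δ) * (9 - (u ^ 2 + u * Δ + Δ ^ 2)) :=
        mul_nonneg (by linarith) (by nlinarith)
      nlinarith [mul_nonneg hΔ.le (sq_nonneg M)]
    have h2 : u * Lam u * (9 / 8 - 1 / 8 * u ^ 2) ≤ A u := by
      have := r_mul_Lam_le hup.le hu1
      have hq : (u ^ 2 + Real.log 2 * (1 - u ^ 2)) * (9 / 8 - 1 / 8 * u ^ 2) ≤ 1 := by
        have h2 : u ^ 2 + Real.log 2 * (1 - u ^ 2) ≤ u ^ 2 + 0.6932 * (1 - u ^ 2) := by
          have := mul_le_mul_of_nonneg_right log2_ub.le hw.le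
          linarith
        refine le_trans (mul_le_mul_of_nonneg_right h2 (by nlinarith)) ?_
        nlinarith
      have h3 := mul_le_mul_of_nonneg_right this (by nlinarith : (0:ℝ) ≤ 9 / 8 - 1 / 8 * u ^ 2)
      nlinarith [mul_le_mul_of_nonneg_left hq hA.le]
    have h4 := mul_le_mul_of_nonneg_left h1 hLam.le
    calc u ^ 2 * (Δ ^ 2 * (9 / 8 - 1 / 8 * (6 * M ^ 2 + Δ ^ 2))) * ((1 - u ^ 2) * Lam u)
        = u ^ 2 * Δ * (1 - u ^ 2) * (Lam u * (Δ * (9 / 8 - 1 / 8 * (6 * M ^ 2 + Δ ^ 2)))) := by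
          ring
      _ ≤ u ^ 2 * Δ * (1 - u ^ 2) * (A u) := by
          apply mul_le_mul_of_nonneg_left _ (by positivity)
          nlinarith
      _ = u ^ 2 * (Δ * ((1 - u ^ 2) * A u)) := by ring

theorem crossover {M Δ e : ℝ} (hΔ : 0 < Δ) (ha : M + Δ ∈ Ioo (-1:ℝ) 1)
    (hb : M - Δ ∈ Ioo (-1:ℝ) 1) (he0 : 0 < e) (he : e < e0F M Δ) :
    ∃ u, 0 < u ∧ u < 1 ∧ Δ * (L u / u) = e ∧
      Δ * A (rF M Δ) - (Pb (Wf M) (e0F M Δ) - Pb (WbF M Δ) (e0F M Δ)) ≤
        Δ * A u - (Pb (Wf M) e - Pb (WbF M Δ) e) := by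
  obtain ⟨hr0, hr1, ht0, ht1, -, hpe, htt, -, -⟩ := params hΔ ha hb
  have hM : M ∈ Ioo (-1:ℝ) 1 := ⟨by linarith [hb.1], by linarith [ha.2]⟩
  have hW := Wf_pos hM
  have hWb : 0 < WbF M Δ := by unfold WbF; linarith [Wf_pos ha, Wf_pos hb]
  have hcont : ContinuousOn (fun u => Δ * (L u / u)) (Icc (rF M Δ) 1) :=
    continuousOn_const.mul (continuous_L.continuousOn.div continuousOn_id
      fun x hx => (hr0.trans_le hx.1).ne')
  have hr : Δ * (L (rF M Δ) / rF M Δ) = e0F M Δ := by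
    rw [hpe]
    conv_lhs => arg 1; rw [htt]
    field_simp
  obtain ⟨u, hu, hue⟩ := intermediate_value_Icc' hr1.le hcont
    (show e ∈ Icc (Δ * (L 1 / 1)) (Δ * (L (rF M Δ) / rF M Δ)) from
      ⟨by simp [he0.le], by rw [hr]; exact he.le⟩)
  simp only at hue
  have hu0 : 0 < u := hr0.trans_le hu.1
  have hu1 : u < 1 := by
    rcases eq_or_lt_of_le hu.2 with h | h
    · rw [h] at hue; simp at hue; linarith
    · exact h
  refine ⟨u, hu0, hu1, hue, ?_⟩
  have hΔr : Δ ≤ rF M Δ := by nlinarith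
  have hd : ∀ x ∈ Icc (rF M Δ) u, HasDerivAt
      (fun x => Δ * A x - (Pb (Wf M) (Δ * (L x / x)) - Pb (WbF M Δ) (Δ * (L x / x))))
      (Δ * Lam x / x ^ 2 * (eta x - (dd (rho (Δ * (L x / x) / Wf M)) -
        dd (rho (Δ * (L x / x) / WbF M Δ))))) x := by
    intro x hx
    have x0 : 0 < x := hr0.trans_le hx.1
    have x1 : x < 1 := hx.2.trans_lt hu1
    have hp : 0 < Δ * (L x / x) := mul_pos hΔ (div_pos (L_pos (by linarith) x1) x0)
    have de : HasDerivAt (fun y => Δ * (L y / y))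
        (Δ * ((-A x * x - L x * 1) / x ^ 2)) x :=
      (((hasDerivAt_L (by linarith) x1).div (hasDerivAt_id x) x0.ne').const_mul Δ)
    refine (((hasDerivAt_A (by linarith) x1).const_mul Δ).sub
      ((hasDerivAt_Pb (w := fun _ => Wf M) (e := fun y => Δ * (L y / y)) hW hp (hasDerivAt_const x (Wf M)) de).sub
        (hasDerivAt_Pb (w := fun _ => WbF M Δ) (e := fun y => Δ * (L y / y)) hWb hp (hasDerivAt_const x (WbF M Δ)) de))).congr_deriv ?_
    have : eta x * Lam x = x ^ 2 / (1 - x ^ 2) := eta_Lam x0.le x1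
    have hw := (one_sub_sq_pos (by linarith : -1 < x) x1).ne'
    have h1 : Δ * Lam x / x ^ 2 * eta x = Δ * (1 / (1 - x ^ 2)) := by
      rw [div_mul_eq_mul_div, mul_assoc, mul_comm (Lam x), this]; field_simp
    rw [mul_sub (Δ * Lam x / x ^ 2), h1]
    simp only [id, Lam, Pi.div_apply]
    field_simp
    ring
  have hm := monotoneOn_of_hasDerivWithinAt_nonneg (convex_Icc (rF M Δ) u)
    (fun x hx => (hd x hx).continuousAt.continuousWithinAt)
    (fun x hx => (hd x (interior_subset hx)).hasDerivWithinAt)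
    (fun x hx => by
      have hx' := interior_subset hx
      have x0 : 0 < x := hr0.trans_le hx'.1
      have x1 : x < 1 := hx'.2.trans_lt hu1
      have := B2 hΔ ha hb (hΔr.trans hx'.1) x1
      exact mul_nonneg (div_nonneg (mul_nonneg hΔ.le (Lam_pos x0.le x1).le) (sq_nonneg _))
        (sub_nonneg.2 this))
  have := hm (left_mem_Icc.2 hu.1) (right_mem_Icc.2 hu.1) hu.1
  simp only [hr, hue] at this
  exact this

theorem B_antitone {M Δ e e' : ℝ} (ha : M + Δ ∈ Ioo (-1:ℝ) 1) (hb : M - Δ ∈ Ioo (-1:ℝ) 1)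
    (hle : WbF M Δ ≤ Wf M) (he0 : 0 < e) (he : e ≤ e') :
    Pb (Wf M) e' - Pb (WbF M Δ) e' ≤ Pb (Wf M) e - Pb (WbF M Δ) e := by
  have hM : M ∈ Ioo (-1:ℝ) 1 := ⟨by linarith [ha.1, hb.1], by linarith [ha.2, hb.2]⟩
  have hW := Wf_pos hM
  have hWb : 0 < WbF M Δ := by unfold WbF; linarith [Wf_pos ha, Wf_pos hb]
  have hd : ∀ x ∈ Icc e e', HasDerivAt (fun x => Pb (Wf M) x - Pb (WbF M Δ) x)
      (-(dd (rho (x / Wf M)) - dd (rho (x / WbF M Δ)))) x := by
    intro x hx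
    have x0 : 0 < x := he0.trans_le hx.1
    exact ((hasDerivAt_Pb (w := fun _ => Wf M) hW x0 (hasDerivAt_const x (Wf M)) (hasDerivAt_id x)).sub
      (hasDerivAt_Pb (w := fun _ => WbF M Δ) hWb x0 (hasDerivAt_const x (WbF M Δ))
        (hasDerivAt_id x))).congr_deriv
        (by simp only [id]; ring)
  have hm := antitoneOn_of_hasDerivWithinAt_nonpos (convex_Icc e e')
    (fun x hx => (hd x hx).continuousAt.continuousWithinAt)
    (fun x hx => (hd x (interior_subset hx)).hasDerivWithinAt)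
    (fun x hx => by
      have x0 : 0 < x := he0.trans_le (interior_subset hx).1
      have := dd_rho_sub_le (div_pos x0 hW) (div_le_div_of_nonneg_left x0.le hWb hle)
      linarith)
  exact hm (left_mem_Icc.2 he) (right_mem_Icc.2 he) he

theorem two_point {M Δ e H : ℝ} (hΔ : 0 < Δ) (ha : M + Δ ∈ Ioo (-1:ℝ) 1)
    (hb : M - Δ ∈ Ioo (-1:ℝ) 1) (he0 : 0 < e) (he : e ≤ (L (M + Δ) + L (M - Δ)) / 2)
    (hH1 : qF M Δ * Δ + Δ ^ 2 / (1 - (M + Δ) * (M - Δ)) *
      ((L (M + Δ) + L (M - Δ)) / 2 - e) ≤ H)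
    (hH2 : ∀ r : ℝ, 0 < r → r < 1 → (A r + eta r * (L r / r)) * Δ - eta r * e ≤ H) :
    Pb (Wf M) e - Pb (WbF M Δ) e ≤ H - 2 * JSF M Δ ∧
      ff (L M - e) - ff ((L (M + Δ) + L (M - Δ)) / 2 - e) ≤ H - 2 * JSF M Δ := by
  obtain ⟨hr0, hr1, ht0, ht1, hAq, hpe, htt, hMM, -⟩ := params hΔ ha hb
  have hJ0 := JSF_nonneg ha hb
  have hden : 0 < 1 - (M + Δ) * (M - Δ) := by nlinarith [ha.1, ha.2, hb.1, hb.2]
  have hG : 0 ≤ Δ ^ 2 / (1 - (M + Δ) * (M - Δ)) := by positivity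
  have hX : 0 ≤ (L (M + Δ) + L (M - Δ)) / 2 - e := by linarith
  have hk : kF M Δ ≤ H - 2 * JSF M Δ := by
    have := mul_nonneg hG hX; unfold kF; linarith
  constructor
  · obtain ⟨hW, hWb⟩ := Wf_eq_vv hΔ ha hb
    have hle : WbF M Δ ≤ Wf M := by
      rw [hW, hWb]
      apply mul_le_mul_of_nonneg_left _ (by linarith)
      linarith [om_nonneg (one_sub_sq_pos (by linarith) hr1).le
        (by nlinarith : 1 - rF M Δ ^ 2 ≤ 1) ht0 ht1.le]
    rcases le_or_gt (e0F M Δ) e with h | h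
    · exact ((B_antitone ha hb hle (e0F_pos ha hb) h).trans (k_ge_crossover hΔ ha hb)).trans hk
    · obtain ⟨u, hu0, hu1, hue, hg⟩ := crossover hΔ ha hb he0 h
      have h2 := hH2 u hu0 hu1
      have e1 : (A u + eta u * (L u / u)) * Δ - eta u * e = Δ * A u := by rw [← hue]; ring
      rw [e1] at h2
      have := k_ge_crossover hΔ ha hb
      rw [hAq] at hg
      unfold kF at this
      linarith
  · set X := (L (M + Δ) + L (M - Δ)) / 2 - e with hXdef
    have hLM : L M - e = JSF M Δ + X := by rw [hXdef, JSF]; ring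
    rw [hLM]
    obtain ⟨h1, h2⟩ := ff_diff_le hJ0 hX
    rcases le_or_gt (rF M Δ) (927 / 2000) with h | h
    · have hGe : Δ ^ 2 / (1 - (M + Δ) * (M - Δ)) =
          rF M Δ ^ 2 * (1 - tauF M Δ) / (1 + rF M Δ ^ 2) := by
        generalize rF M Δ = r at *
        generalize tauF M Δ = τ at *
        have hd : (1 - (M + Δ) * (M - Δ)) = (1 - τ) * (1 + r ^ 2) := by
          rw [show (M + Δ) * (M - Δ) = M ^ 2 - Δ ^ 2 by ring, hMM, htt, mm]; ring
        have : 1 - τ ≠ 0 := by linarith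
        rw [hd, htt]
        field_simp
      have hC : 158 / 100 * JSF M Δ ≤ Δ ^ 2 / (1 - (M + Δ) * (M - Δ)) := by
        rw [hGe, le_div_iff₀ (by positivity)]
        have := small_r_bound hr0.le h
        have h3 := mul_le_mul_of_nonneg_left this (sub_nonneg.2 ht1.le)
        have h4 := mul_le_mul_of_nonneg_right (JSF_le hΔ ha hb)
          (by positivity : 0 ≤ 158 / 100 * (1 + rF M Δ ^ 2))
        linarith
      have h5 := mul_le_mul_of_nonneg_right hC hX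
      have := k_ge_ff hΔ ha hb
      unfold kF at this
      linarith
    · have hb2 := large_r_bound h.le hr1
      have h3 := mul_le_mul_of_nonneg_left hb2 (sub_nonneg.2 ht1.le)
      have h4 := mul_le_mul_of_nonneg_left (JSF_le hΔ ha hb)
        (by linarith [dd_nonneg (by norm_num : (0:ℝ) ≤ 1 / 3) (by norm_num)] : 0 ≤ 2 + dd (1 / 3))
      have e1 : qF M Δ * Δ = (1 - tauF M Δ) * (rF M Δ * A (rF M Δ)) := by
        rw [hAq]; conv_lhs => arg 2; rw [htt]
        ring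
      have := mul_nonneg hG hX
      linarith

end Vale.Agent.CK
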